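import Vale.Agent.P165.Hyp.Defs

/-!
Cones of four independent directions in a hyperbolic space: avoiding a point, nesting, covering by
finitely many translations, and growth along powers.
-/

open Finset

namespace Vale.Agent.P165.Hyp.Geo

variable {W X Γ : Type*} [PseudoMetricSpace X] [Group Γ] [MulAction Γ W] [MulAction Γ X]
  {H : SimpleGraph W} (G : Geo (X := X) (Γ := Γ) H)

lemma pt_one : G.pt 1 = G.x₀ := one_smul _ _

lemma pt_mul (g h : Γ) : G.pt (g * h) = g • G.pt h := mul_smul _ _ _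

lemma proj_smul_r₀ (g : Γ) : G.proj (g • G.r₀) = G.pt g := G.proj_smul g G.r₀

lemma dist_pt_mul (g h h' : Γ) : dist (G.pt (g * h)) (G.pt (g * h')) = dist (G.pt h) (G.pt h') := by
  rw [G.pt_mul, G.pt_mul, G.iso]

include G in
lemma gp_smul (g : Γ) (o a b : X) : gp (g • o) (g • a) (g • b) = gp o a b := gp_map (G.iso g) o a b

lemma D₀_nonneg : 0 ≤ G.D₀ := dist_nonneg.trans (G.reps_near _ (G.rOf_mem G.r₀))

lemma Rc_nonneg : 0 ≤ G.Rc := dist_nonneg.trans (G.rel_dist G.r₀ G.r₀ (G.rel_refl _))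

lemma dist_proj_pt (v : W) : dist (G.proj v) (G.pt (G.gOf v)) ≤ G.D₀ := by
  calc dist (G.proj v) (G.pt (G.gOf v))
      = dist (G.gOf v • G.proj (G.rOf v)) (G.gOf v • G.x₀) := by
        rw [← G.proj_smul, G.gOf_smul]; rfl
    _ ≤ G.D₀ := by rw [G.iso, dist_comm]; exact G.reps_near _ (G.rOf_mem v)

/-- The length of a direction. -/
noncomputable def len (i : Fin 4) : ℝ := dist G.x₀ (G.pt (G.S i))

lemma len_ge (i : Fin 4) : 20 * (G.C + G.δ + G.Rc + G.D₀ + 1) ≤ G.len i := G.long i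

/-- The forms of `len_ge` used with linear arithmetic. -/
lemma len_bounds (i : Fin 4) : 0 ≤ G.C ∧ 0 ≤ G.δ ∧ 0 ≤ G.Rc ∧ 0 ≤ G.D₀ ∧
    20 * G.C + 20 * G.δ + 20 * G.Rc + 20 * G.D₀ + 20 ≤ G.len i :=
  ⟨G.C_nonneg, G.δ_nonneg, G.Rc_nonneg, G.D₀_nonneg, by linarith [G.len_ge i]⟩

lemma dist_pt_step (g : Γ) (i : Fin 4) : dist (G.pt g) (G.pt (g * G.S i)) = G.len i := by
  conv_lhs => rw [← mul_one g]
  rw [mul_assoc, one_mul, G.dist_pt_mul, G.pt_one]
  rfl

lemma indep_pt (g : Γ) {i j : Fin 4} (h : i ≠ j) :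
    gp (G.pt g) (G.pt (g * G.S i)) (G.pt (g * G.S j)) ≤ G.C := by
  rw [G.pt_mul, G.pt_mul]
  exact (G.gp_smul g G.x₀ (G.pt (G.S i)) (G.pt (G.S j))).trans_le (G.indep i j h)

/-- At most one direction fails to avoid a point. -/
lemma eq_of_not_good {g : Γ} {i j : Fin 4} {a : X} (hi : ¬ G.Good g i a) (hj : ¬ G.Good g j a) :
    i = j := by
  by_contra hne
  have h := G.hyp (G.pt g) (G.pt (g * G.S i)) a (G.pt (g * G.S j))
  have h' := G.indep_pt g hne
  rw [gp_comm _ (G.pt (g * G.S i)) a] at h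
  unfold Good Avoids at hi hj
  push Not at hi hj
  have := lt_min hi hj
  linarith

lemma exists_good (g : Γ) (a b c : X) : ∃ i, G.Good g i a ∧ G.Good g i b ∧ G.Good g i c := by
  classical
  have h : ∀ x : X, ({i : Fin 4 | ¬ G.Good g i x} : Finset (Fin 4)).card ≤ 1 := fun x =>
    card_le_one.2 fun i hi j hj =>
      G.eq_of_not_good (mem_filter.1 hi).2 (mem_filter.1 hj).2
  by_contra hno
  push Not at hno
  have hsub : (univ : Finset (Fin 4)) ⊆ ({i : Fin 4 | ¬ G.Good g i a} : Finset (Fin 4)) ∪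
      (({i : Fin 4 | ¬ G.Good g i b} : Finset (Fin 4)) ∪
        ({i : Fin 4 | ¬ G.Good g i c} : Finset (Fin 4))) := by
    intro i _
    simp only [mem_union, mem_filter, mem_univ, true_and]
    by_cases ha : G.Good g i a
    · by_cases hb : G.Good g i b
      · exact .inr (.inr (hno i ha hb))
      · exact .inr (.inl hb)
    · exact .inl ha
  have := (card_le_card hsub).trans ((card_union_le _ _).trans
    (add_le_add (h a) ((card_union_le _ _).trans (add_le_add (h b) (h c)))))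
  simp at this

lemma exists_good_ne (g : Γ) (j : Fin 4) (a b : X) :
    ∃ i, i ≠ j ∧ G.Good g i a ∧ G.Good g i b := by
  obtain ⟨i, h1, h2, h3⟩ := G.exists_good g a b (G.pt (g * G.S j))
  refine ⟨i, fun e => ?_, h1, h2⟩
  subst e
  unfold Good Avoids at h3
  rw [gp_self, G.dist_pt_step] at h3
  linarith [(G.len_bounds i).2.2.2.2, G.C_nonneg, G.δ_nonneg, G.Rc_nonneg, G.D₀_nonneg]

lemma gp_le_of_good {g : Γ} {i : Fin 4} {a z : X} (ha : G.Good g i a) (hz : z ∈ G.cone g i) :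
    gp (G.pt g) a z ≤ G.C + 2 * G.δ := by
  by_contra hcon
  push Not at hcon
  obtain ⟨hC, hδ, hR, hD, hl⟩ := G.len_bounds i
  simp only [cone, coneAt, Set.mem_ofPred_eq, G.dist_pt_step] at hz
  have h := G.hyp (G.pt g) a z (G.pt (g * G.S i))
  have : G.C + 2 * G.δ < min (gp (G.pt g) a z) (gp (G.pt g) z (G.pt (g * G.S i))) :=
    lt_min hcon (by linarith)
  unfold Good Avoids at ha
  linarith

lemma smul_mem_cone_iff (g h : Γ) (i : Fin 4) (z : X) :
    g • z ∈ G.cone (g * h) i ↔ z ∈ G.cone h i := by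
  simp only [cone, coneAt, Set.mem_ofPred_eq, G.dist_pt_step]
  rw [mul_assoc, G.pt_mul g h, G.pt_mul g (h * G.S i), G.gp_smul]

lemma gp_back {g : Γ} {i j : Fin 4} {z : X} (hij : j ≠ G.opp i) (hz : z ∈ G.cone (g * G.S i) j) :
    gp (G.pt (g * G.S i)) (G.pt g) z ≤ G.C + G.δ := by
  obtain ⟨hC, hδ, hR, hD, hl⟩ := G.len_bounds j
  simp only [cone, coneAt, Set.mem_ofPred_eq, G.dist_pt_step] at hz
  have hind := G.indep_pt (g * G.S i) (Ne.symm hij)
  rw [show g * G.S i * G.S (G.opp i) = g by rw [G.S_opp, mul_inv_cancel_right]] at hind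
  have h := G.hyp (G.pt (g * G.S i)) (G.pt g) z (G.pt (g * G.S i * G.S j))
  by_contra hcon
  push Not at hcon
  have : G.C + G.δ < min (gp (G.pt (g * G.S i)) (G.pt g) z)
      (gp (G.pt (g * G.S i)) z (G.pt (g * G.S i * G.S j))) := lt_min hcon (by linarith)
  linarith

lemma mem_cone_of_gp_back {g : Γ} {i : Fin 4} {z : X}
    (h : gp (G.pt (g * G.S i)) (G.pt g) z ≤ G.C + 2 * G.δ) : z ∈ G.cone g i := by
  have hadd := gp_add (G.pt g) z (G.pt (g * G.S i))
  rw [gp_comm _ (G.pt g) z] at h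
  simp only [cone, coneAt, Set.mem_ofPred_eq]
  linarith

lemma cone_mul_subset {g : Γ} {i j : Fin 4} (hij : j ≠ G.opp i) :
    G.cone (g * G.S i) j ⊆ G.cone g i := fun _ hz =>
  G.mem_cone_of_gp_back ((G.gp_back hij hz).trans (by linarith [G.δ_nonneg]))

lemma pt_mem_cone (g : Γ) (i : Fin 4) : G.pt (g * G.S i) ∈ G.cone g i :=
  G.mem_cone_of_gp_back (by rw [gp_base_right]; linarith [G.C_nonneg, G.δ_nonneg])

lemma ball_subset_cone {g : Γ} {i j : Fin 4} {z : X} (hij : j ≠ G.opp i)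
    (hz : dist z (G.pt (g * G.S i * G.S j)) ≤ G.Rc) : z ∈ G.cone g i := by
  obtain ⟨hC, hδ, hR, hD, hl⟩ := G.len_bounds j
  have hind := G.indep_pt (g * G.S i) (Ne.symm hij)
  rw [show g * G.S i * G.S (G.opp i) = g by rw [G.S_opp, mul_inv_cancel_right]] at hind
  have hself := gp_self (G.pt (g * G.S i)) (G.pt (g * G.S i * G.S j))
  rw [G.dist_pt_step] at hself
  have hzq := (abs_le.1 (abs_gp_sub_le (G.pt (g * G.S i)) (G.pt (g * G.S i * G.S j)) z
    (G.pt (g * G.S i * G.S j)))).1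
  refine G.mem_cone_of_gp_back ?_
  by_contra hcon
  push Not at hcon
  have h := G.hyp (G.pt (g * G.S i)) (G.pt g) z (G.pt (g * G.S i * G.S j))
  have : G.C + 2 * G.δ < min (gp (G.pt (g * G.S i)) (G.pt g) z)
      (gp (G.pt (g * G.S i)) z (G.pt (g * G.S i * G.S j))) := by
    refine lt_min hcon ?_
    rw [gp_comm _ z]
    linarith
  linarith

lemma cone_disjoint {g : Γ} {i j : Fin 4} {z : X} (hij : i ≠ j) (hz : z ∈ G.cone g i) :
    z ∉ G.cone g j := fun hz' => by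
  obtain ⟨hC, hδ, hR, hD, hl⟩ := G.len_bounds i
  obtain ⟨-, -, -, -, hl'⟩ := G.len_bounds j
  simp only [cone, coneAt, Set.mem_ofPred_eq, G.dist_pt_step] at hz hz'
  have h := G.hyp (G.pt g) (G.pt (g * G.S i)) z (G.pt (g * G.S j))
  rw [gp_comm _ (G.pt (g * G.S i)) z] at h
  have h' := G.indep_pt g hij
  have : G.C + G.δ < min (gp (G.pt g) z (G.pt (g * G.S i))) (gp (G.pt g) z (G.pt (g * G.S j))) :=
    lt_min (by linarith) (by linarith)
  linarith

lemma smul_mem_cone {i : Fin 4} {z : X} (hz : gp G.x₀ (G.pt (G.S (G.opp i))) z ≤ G.C + 2 * G.δ) :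
    G.S i • z ∈ G.cone 1 i := by
  refine G.mem_cone_of_gp_back ?_
  rw [G.pt_one, one_mul]
  have e : gp (G.pt (G.S i)) G.x₀ (G.S i • z) = gp G.x₀ (G.pt (G.S (G.opp i))) z := by
    have := G.gp_smul (G.S i) G.x₀ (G.pt (G.S (G.opp i))) z
    rwa [← G.pt_mul (G.S i) (G.S (G.opp i)), G.S_opp, mul_inv_cancel, G.pt_one,
      show G.S i • G.x₀ = G.pt (G.S i) from rfl, ← G.S_opp] at this
  rw [e]
  exact hz

/-- Finitely many translations bring every point into a given cone. -/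
lemma exists_into_cone (σ : Fin 4) (z : X) :
    ∃ i, i ≠ G.opp σ ∧ (G.S σ * G.S i) • z ∈ G.cone 1 σ := by
  obtain ⟨j, hj, hg, -⟩ := G.exists_good_ne 1 σ z z
  unfold Good Avoids at hg
  rw [one_mul, G.pt_one, gp_comm] at hg
  refine ⟨G.opp j, fun h => hj (by rw [← G.opp_opp j, h, G.opp_opp]), ?_⟩
  have h1 : G.S (G.opp j) • z ∈ G.cone 1 (G.opp j) := G.smul_mem_cone (by
    rw [G.opp_opp]
    linarith [G.δ_nonneg])
  have h2 := (G.smul_mem_cone_iff (G.S σ) 1 (G.opp j) _).2 h1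
  rw [← mul_smul, mul_one] at h2
  have hsub := G.cone_mul_subset (g := 1) (i := σ) (j := G.opp j)
    (fun h => hj (by rw [← G.opp_opp j, h, G.opp_opp]))
  rw [one_mul] at hsub
  exact hsub h2

lemma pt_pow_mem_cone (σ : Fin 4) (m : ℕ) : G.pt (G.S σ ^ (m + 1)) ∈ G.cone 1 σ := by
  have hne : σ ≠ G.opp σ := (G.opp_ne σ).symm
  induction m with
  | zero =>
    have := G.pt_mem_cone 1 σ
    simpa using this
  | succ m ih =>
    have h2 := (G.smul_mem_cone_iff (G.S σ) 1 σ _).2 ih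
    rw [← G.pt_mul, ← pow_succ', mul_one] at h2
    have hsub := G.cone_mul_subset (g := 1) (i := σ) (j := σ) hne
    rw [one_mul] at hsub
    exact hsub h2

lemma gp_opp_pow_le (σ : Fin 4) (m : ℕ) :
    gp G.x₀ (G.pt (G.S (G.opp σ))) (G.pt (G.S σ ^ m)) ≤ G.C + 2 * G.δ := by
  rcases m with _ | m
  · rw [pow_zero, G.pt_one, gp_base_right]
    linarith [G.C_nonneg, G.δ_nonneg]
  · have hgood : G.Good 1 σ (G.pt (G.S (G.opp σ))) := by
      have := G.indep_pt 1 (G.opp_ne σ)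
      simp only [one_mul] at this
      unfold Good Avoids
      rw [one_mul]
      linarith [G.δ_nonneg]
    have := G.gp_le_of_good hgood (G.pt_pow_mem_cone σ m)
    rwa [G.pt_one] at this

/-- Powers of a direction go to infinity linearly. -/
lemma dist_pow_ge (σ : Fin 4) (m : ℕ) :
    (m : ℝ) * (G.len σ - 2 * (G.C + 2 * G.δ)) ≤ dist G.x₀ (G.pt (G.S σ ^ m)) := by
  induction m with
  | zero => simp
  | succ m ih =>
    have e : dist G.x₀ (G.pt (G.S σ ^ (m + 1))) =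
        dist (G.pt (G.S (G.opp σ))) (G.pt (G.S σ ^ m)) := by
      conv_lhs => rw [← G.pt_one, ← mul_inv_cancel (G.S σ), pow_succ', G.dist_pt_mul]
      rw [G.S_opp]
    have hl : dist G.x₀ (G.pt (G.S (G.opp σ))) = G.len σ := by
      rw [dist_comm, G.S_opp, ← G.dist_pt_step (G.S σ)⁻¹ σ, inv_mul_cancel, G.pt_one]
    rw [e, dist_eq_gp G.x₀, hl]
    have := G.gp_opp_pow_le σ m
    push_cast
    linarith

lemma gp_pow_le (σ : Fin 4) (n m : ℕ) :
    gp G.x₀ (G.pt (G.S σ ^ n)) (G.pt ((G.S σ)⁻¹ ^ m)) ≤ G.C + 2 * G.δ := by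
  rcases n with _ | n
  · rw [pow_zero, G.pt_one, gp_base_left]
    linarith [G.C_nonneg, G.δ_nonneg]
  rcases m with _ | m
  · rw [pow_zero, G.pt_one, gp_base_right]
    linarith [G.C_nonneg, G.δ_nonneg]
  obtain ⟨hC, hδ, hR, hD, hl⟩ := G.len_bounds (G.opp σ)
  rw [← G.S_opp]
  have hneg := G.pt_pow_mem_cone (G.opp σ) m
  simp only [cone, coneAt, Set.mem_ofPred_eq, one_mul, G.pt_one] at hneg
  rw [show dist G.x₀ (G.pt (G.S (G.opp σ))) = G.len (G.opp σ) from rfl] at hneg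
  have hgood : G.Good 1 σ (G.pt (G.S (G.opp σ) ^ (m + 1))) := by
    unfold Good Avoids
    rw [one_mul, G.pt_one]
    by_contra hcon
    push Not at hcon
    have hind := G.indep_pt 1 (G.opp_ne σ)
    simp only [one_mul, G.pt_one] at hind
    have h := G.hyp G.x₀ (G.pt (G.S (G.opp σ))) (G.pt (G.S (G.opp σ) ^ (m + 1))) (G.pt (G.S σ))
    rw [gp_comm _ (G.pt (G.S (G.opp σ))) (G.pt (G.S (G.opp σ) ^ (m + 1)))] at h
    have : G.C + G.δ < min (gp G.x₀ (G.pt (G.S (G.opp σ) ^ (m + 1))) (G.pt (G.S (G.opp σ))))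
        (gp G.x₀ (G.pt (G.S (G.opp σ) ^ (m + 1))) (G.pt (G.S σ))) := lt_min (by linarith) hcon
    linarith
  have := G.gp_le_of_good hgood (G.pt_pow_mem_cone σ n)
  rwa [gp_comm, G.pt_one] at this

include G in
lemma infinite : Infinite W := by
  refine Infinite.of_injective (fun m : ℕ => G.S 0 ^ m • G.r₀) (Function.Injective.of_lt_imp_ne ?_)
  intro m n hmn h
  have h' : G.pt (G.S 0 ^ m) = G.pt (G.S 0 ^ n) := by
    rw [← G.proj_smul_r₀, ← G.proj_smul_r₀]
    exact congrArg G.proj h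
  have h0 : dist (G.pt (G.S 0 ^ m * 1)) (G.pt (G.S 0 ^ m * G.S 0 ^ (n - m))) = 0 := by
    rw [← pow_add, Nat.add_sub_cancel' hmn.le, mul_one, h', dist_self]
  rw [G.dist_pt_mul, G.pt_one] at h0
  have h1 := G.dist_pow_ge 0 (n - m)
  have h2 : (1 : ℝ) ≤ ((n - m : ℕ) : ℝ) := by exact_mod_cast (show 1 ≤ n - m by omega)
  obtain ⟨hC, hδ, hR, hD, hl⟩ := G.len_bounds 0
  nlinarith

end Vale.Agent.P165.Hyp.Geo
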