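import Vale.Agent.P165.Hyp.Basic
import Vale.Agent.P165.Hyp.Cones
import Vale.Agent.P165.Tree.Wkn
import Vale.Agent.P165.Quot.Series

/-!
An unbounded sum of powers over a band gives one block slightly below the threshold: translated to
the base point, finitely many families of group elements whose cones lie in regions of bounded
multiplicity inside one cone, with a large sum of powers of their hitting probabilities.
-/

open Finset
open scoped ENNReal

namespace Vale.Agent.P165.Hyp.Geo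

open Vale.Agent.P165.Quot

variable {W X Γ : Type*} [PseudoMetricSpace X] [Group Γ] [MulAction Γ W] [MulAction Γ X]
  {H : SimpleGraph W} (G : Geo (X := X) (Γ := Γ) H)

lemma exists_third (σ i : Fin 4) : ∃ τ, τ ≠ G.opp i ∧ τ ≠ G.opp σ := by
  have h : ∀ a b : Fin 4, ∃ c, c ≠ a ∧ c ≠ b := by decide
  exact h _ _

/-- A cone below a good direction, seen from the point it avoids, lies beyond the point `w` at the
end of that direction; a direction avoiding `w` then carries it into a given cone. -/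
lemma translate_mem_cone {σ i j i' : Fin 4} {k g : Γ} {z : X} (hij : j ≠ G.opp i)
    (hi : G.Good g i (G.pt k⁻¹)) (hi' : i' ≠ σ)
    (hj : G.Good 1 i' (G.pt (k * g * G.S i))) (hz : z ∈ G.cone (g * G.S i) j) :
    (G.S σ * G.S (G.opp i') * k) • z ∈ G.cone 1 σ := by
  obtain ⟨hC, hδ, hR, hD, hl⟩ := G.len_bounds i
  set o := G.pt k⁻¹ with ho
  set w := G.pt (g * G.S i) with hw
  have hgw : dist (G.pt g) w = G.len i := G.dist_pt_step g i
  have h1 : G.len i - (G.C + G.δ) ≤ gp w (G.pt g) o := by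
    have hadd := gp_add (G.pt g) o w
    unfold Good Avoids at hi
    rw [gp_comm w o (G.pt g)] at hadd
    rw [← hgw]
    linarith
  have h2 : gp w o z ≤ G.C + 2 * G.δ := by
    by_contra hcon
    push Not at hcon
    have h := G.hyp w (G.pt g) o z
    have hb := G.gp_back hij hz
    have : G.C + 2 * G.δ < min (gp w (G.pt g) o) (gp w o z) := lt_min (by linarith) hcon
    linarith
  have h3 : G.C + 2 * G.δ < gp o w z := by
    have hadd := gp_add o z w
    have hle := gp_le_right w (G.pt g) o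
    rw [gp_comm o z w, gp_comm w z o] at hadd
    rw [dist_comm w o] at hle
    linarith
  have h4 : G.C + 2 * G.δ < gp G.x₀ (G.pt (k * g * G.S i)) (k • z) := by
    have e := G.gp_smul k o w z
    rw [ho, hw, ← G.pt_mul, ← G.pt_mul, mul_inv_cancel, G.pt_one, ← mul_assoc] at e
    rw [e]
    exact h3
  have h5 : gp G.x₀ (G.pt (G.S (G.opp (G.opp i')))) (k • z) ≤ G.C + 2 * G.δ := by
    rw [G.opp_opp]
    by_contra hcon
    push Not at hcon
    unfold Good Avoids at hj
    rw [one_mul, G.pt_one] at hj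
    have h := G.hyp G.x₀ (G.pt (k * g * G.S i)) (k • z) (G.pt (G.S i'))
    rw [gp_comm _ (k • z) (G.pt (G.S i'))] at h
    have : G.C + 2 * G.δ < min (gp G.x₀ (G.pt (k * g * G.S i)) (k • z))
        (gp G.x₀ (G.pt (G.S i')) (k • z)) := lt_min h4 hcon
    linarith
  have h6 := (G.smul_mem_cone_iff (G.S σ) 1 (G.opp i') _).2 (G.smul_mem_cone h5)
  rw [mul_one, ← mul_smul, ← mul_smul] at h6
  have hsub := G.cone_mul_subset (g := 1) (i := σ) (j := G.opp i')
    (fun e => hi' (by rw [← G.opp_opp i', e, G.opp_opp]))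
  rw [one_mul] at hsub
  exact hsub h6

variable [DecidableEq W] [H.LocallyFinite]

omit [H.LocallyFinite] in
/-- Finite parts of the pieces, below the threshold, with a large sum of powers. -/
lemma exists_finite_parts (hpc : 0 < pc H) (hpc1 : pc H ≤ 1) {t : ℝ} (ht : 0 < t)
    (hB : ¬ G.Bdd t) {C : ℝ≥0∞} (hC : C ≠ ⊤) :
    ∃ (p : ℝ) (x : W) (a b : X) (c : ℝ) (Q : Finset W) (V : W → Finset W),
      pc H / 2 ≤ p ∧ p < pc H ∧ (∀ q, ∀ v ∈ V q, v ∈ G.piece a b c q) ∧
      C < ∑ q ∈ Q, G.conn p x ↑(V q) ^ t := by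
  classical
  obtain ⟨x, a, b, c, hlt⟩ : ∃ x a b c, C < G.bandSum (pc H) t x a b c := by
    by_contra hno
    push Not at hno
    exact hB ⟨C, hC, hno⟩
  rw [bandSum, ENNReal.tsum_eq_iSup_sum] at hlt
  obtain ⟨Q, hQ⟩ := lt_iSup_iff.1 hlt
  obtain ⟨p, hp0, hp1, hpQ⟩ : ∃ p, pc H / 2 ≤ p ∧ p < pc H ∧
      C < ∑ q ∈ Q, G.conn p x (G.piece a b c q) ^ t := by
    by_contra hno
    push Not at hno
    exact not_le.2 hQ (sum_prob_rpow_le_of_lt Q (fun q => connTo Set.univ x (G.piece a b c q)) ht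
      (half_lt_self hpc) hno)
  simp only [conn, Tree.prob_rpow_eq ht] at hpQ
  obtain ⟨f, hf⟩ : ∃ f : W → {U : Finset (Sym2 W) // ↑U ⊆ H.edgeSet},
      C < ∑ q ∈ Q, ENNReal.ofReal (pr p (f q).1 (connTo Set.univ x (G.piece a b c q))) ^ t := by
    by_contra hno
    push Not at hno
    exact not_le.2 hpQ (sum_iSup_le Q _ hno)
  refine ⟨p, x, a, b, c, Q, fun q => (reachable (f q).1 x).filter (· ∈ G.piece a b c q), hp0, hp1,
    fun q v hv => (mem_filter.1 hv).2, hf.trans_le (sum_le_sum fun q _ => ?_)⟩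
  refine ENNReal.rpow_le_rpow ((ENNReal.ofReal_le_ofReal (pr_mono (by linarith)
    (hp1.le.trans hpc1) ?_)).trans (ofReal_pr_le_prob (f q).2 _)) ht.le
  rintro S hS ⟨v, hv, hvc⟩
  exact ⟨v, Finset.mem_coe.2
    (mem_filter.2 ⟨mem_reachable ((inPart_subset _ S).trans hS) hvc, hv⟩), hvc⟩

/-- An unbounded exponent gives a block below the threshold. -/
theorem exists_block (hH : H.Connected) (hpc : 0 < pc H) (hpc1 : pc H < 1) {t : ℝ} (ht : 0 < t)
    (ht1 : t ≤ 1) (hB : ¬ G.Bdd t) : ∃ p, 0 < p ∧ p < pc H ∧ Nonempty (G.Block p t) := by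
  classical
  set σ : Fin 4 := 0
  choose τ hτi hτσ using G.exists_third σ
  let w : Fin 4 → Γ := fun i => G.S i * G.S i * G.S (τ i)
  let uu : Fin 4 → Γ := fun i' => G.S σ * G.S (G.opp i')
  obtain ⟨ℓ, hℓ⟩ := G.exists_move hH
    (G.reps ×ˢ (univ.image fun i => w i • G.r₀) ∪
      {G.r₀} ×ˢ ((univ ×ˢ G.reps).image fun e => uu e.1 • e.2))
  set c₀ : ℝ := (pc H / 2) ^ (2 * ℓ) / 2 with hc₀
  have hc₀0 : 0 < c₀ := by positivity
  set M := 16 * G.N + 1 with hM
  obtain ⟨p, x, a, b, c, Q, V, hp2, hppc, hV, hlarge⟩ :=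
    G.exists_finite_parts hpc hpc1.le ht hB (C := ENNReal.ofReal ((M : ℝ) / c₀ ^ t))
      ENNReal.ofReal_ne_top
  have hp0 : 0 < p := by linarith
  have hp1 : p ≤ 1 := hppc.le.trans hpc1.le
  set k : Γ := (G.gOf x)⁻¹ with hk
  choose i hia hib hio using fun v : W => G.exists_good (G.gOf v) a b (G.pt k⁻¹)
  choose i' hi' hj using fun v : W => (G.exists_good_ne 1 σ (G.pt (k * G.gOf v * G.S (i v)))
    (G.pt (k * G.gOf v * G.S (i v)))).imp fun _ h => (⟨h.1, h.2.1⟩ :
      _ ≠ σ ∧ G.Good 1 _ (G.pt (k * G.gOf v * G.S (i v))))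
  -- a class is a piece with a pair of directions
  let part : W × Fin 4 × Fin 4 → Finset W := fun e =>
    (V e.1).filter fun v => i v = e.2.1 ∧ i' v = e.2.2
  let el : W × Fin 4 × Fin 4 → Finset Γ := fun e =>
    (part e).image fun v => uu e.2.2 * k * (G.gOf v * w e.2.1)
  let region : W × Fin 4 × Fin 4 → Set X := fun e =>
    {z | ∃ v ∈ part e, z ∈ G.cone (uu e.2.2 * k * G.gOf v * G.S e.2.1) e.2.1}
  let π : W × Fin 4 × Fin 4 → ℝ := fun e => (G.conn p x ↑(part e)).toReal
  have hπ : ∀ e, G.conn p x ↑(part e) = ENNReal.ofReal (π e) := fun e =>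
    (ENNReal.ofReal_toReal (ne_top_of_le_ne_top ENNReal.one_ne_top
      (G.conn_le_one hp0.le hp1 _ _))).symm
  have hπ1 : ∀ e, π e ≤ 1 := fun e => by
    simpa using ENNReal.toReal_mono ENNReal.one_ne_top (G.conn_le_one hp0.le hp1 x ↑(part e))
  set J : Finset (W × Fin 4 × Fin 4) := Q ×ˢ univ
  set I := J.filter fun e => 0 < π e with hI
  -- translating a class to the base point costs a bounded power
  have hhit : ∀ e, ENNReal.ofReal (c₀ * π e) ≤
      G.conn p G.r₀ ((fun g : Γ => g • G.r₀) '' ↑(el e)) := by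
    intro e
    set T' : Set W := (fun v => (G.gOf v * w e.2.1) • G.r₀) '' ↑(part e)
    have hstep : G.conn p x ↑(part e) * ENNReal.ofReal p ^ ℓ ≤ G.conn p x T' := by
      refine connTo_trans hp0.le hp1 Set.univ x _ _ fun v hv => ?_
      have h := hℓ (G.rOf v) (w e.2.1 • G.r₀) (mem_union_left _ (mem_product.2
        ⟨G.rOf_mem v, mem_image_of_mem _ (mem_univ _)⟩)) p hp0.le hp1 (G.gOf v) T'
      rw [G.gOf_smul, ← mul_smul, conn,
        prob_connTo_self hp0.le hp1 _ (show (G.gOf v * w e.2.1) • G.r₀ ∈ T' from ⟨v, hv, rfl⟩),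
        mul_one] at h
      exact h
    have hmove : ENNReal.ofReal p ^ ℓ * G.conn p x T' ≤
        G.conn p G.r₀ ((fun g : Γ => g • G.r₀) '' ↑(el e)) := by
      have h := hℓ G.r₀ (uu e.2.2 • G.rOf x) (mem_union_right _ (mem_product.2
        ⟨mem_singleton_self _, mem_image.2
          ⟨(e.2.2, G.rOf x), mem_product.2 ⟨mem_univ _, G.rOf_mem x⟩, rfl⟩⟩))
        p hp0.le hp1 1 ((fun g : Γ => g • G.r₀) '' ↑(el e))
      rw [one_smul, one_smul] at h
      refine le_trans (le_of_eq ?_) h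
      congr 1
      rw [← G.conn_smul p (uu e.2.2 * k) x T']
      congr 1
      · rw [mul_smul]
        congr 1
        rw [hk, inv_smul_eq_iff, G.gOf_smul]
      · simp only [T', el, coe_image, Set.image_image, ← mul_smul]
    refine le_trans ?_ ((mul_le_mul' le_rfl hstep).trans hmove)
    rw [hπ, ← ENNReal.ofReal_pow hp0.le,
      ← ENNReal.ofReal_mul (ENNReal.toReal_nonneg : 0 ≤ π e),
      ← ENNReal.ofReal_mul (pow_nonneg hp0.le _)]
    refine ENNReal.ofReal_le_ofReal ?_
    calc c₀ * π e ≤ (pc H / 2) ^ (2 * ℓ) * π e :=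
          mul_le_mul_of_nonneg_right (half_le_self (by positivity)) ENNReal.toReal_nonneg
      _ ≤ p ^ (2 * ℓ) * π e := mul_le_mul_of_nonneg_right
          (pow_le_pow_left₀ (by linarith) hp2 _) ENNReal.toReal_nonneg
      _ = _ := by ring
  -- the mass of all classes
  have hmass : (M : ℝ) ≤ ∑ e ∈ I, (c₀ * π e) ^ t := by
    have hle : ∀ q ∈ Q, G.conn p x ↑(V q) ^ t ≤
        ∑ d : Fin 4 × Fin 4, G.conn p x ↑(part (q, d)) ^ t := by
      intro q _
      have h : G.conn p x ↑(V q) ≤ ∑ d : Fin 4 × Fin 4, G.conn p x ↑(part (q, d)) := by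
        refine le_trans (prob_mono hp0.le hp1 (B := fun S => ∃ d : Fin 4 × Fin 4,
          connTo Set.univ x ↑(part (q, d)) S) ?_)
          ((prob_exists_le hp0.le hp1).trans_eq (tsum_fintype _))
        rintro S _ ⟨v, hv, hvc⟩
        exact ⟨(i v, i' v), v, Finset.mem_coe.2
          (mem_filter.2 ⟨Finset.mem_coe.1 hv, rfl, rfl⟩), hvc⟩
      refine (ENNReal.rpow_le_rpow (h.trans (sum_le_rpow_sum _ _ ht ht1)) ht.le).trans_eq ?_
      rw [← ENNReal.rpow_mul, one_div_mul_cancel ht.ne', ENNReal.rpow_one]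
    have h1 := hlarge.trans_le (sum_le_sum hle)
    rw [← sum_product (f := fun e => G.conn p x ↑(part e) ^ t)] at h1
    have hrp : ∀ e, ENNReal.ofReal (π e) ^ t = ENNReal.ofReal (π e ^ t) := fun e =>
      ENNReal.ofReal_rpow_of_nonneg ENNReal.toReal_nonneg ht.le
    simp only [hπ, hrp] at h1
    rw [← ENNReal.ofReal_sum_of_nonneg fun e _ => Real.rpow_nonneg ENNReal.toReal_nonneg t,
      ENNReal.ofReal_lt_ofReal_iff_of_nonneg (by positivity),
      div_lt_iff₀ (Real.rpow_pos_of_pos hc₀0 t), sum_mul] at h1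
    refine h1.le.trans (le_of_eq ?_)
    rw [hI, sum_filter]
    refine sum_congr rfl fun e _ => ?_
    rcases (ENNReal.toReal_nonneg : 0 ≤ π e).eq_or_lt' with h | h
    · have h' : π e = 0 := h
      simp [h, h', Real.zero_rpow ht.ne']
    · rw [if_pos h, Real.mul_rpow hc₀0.le h.le, mul_comm]
  -- one translate of a point is in few regions
  have hmult : ∀ (z : X) (d : Fin 4 × Fin 4),
      (Q.filter fun q => z ∈ region (q, d)).card ≤ G.N := by
    intro z d
    have hw : ∀ q : {q // q ∈ Q.filter fun q => z ∈ region (q, d)}, ∃ v ∈ part (q.1, d),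
        z ∈ G.cone (uu d.2 * k * G.gOf v * G.S d.1) d.1 := fun q => (mem_filter.1 q.2).2
    choose v hvp hvc using hw
    refine G.mult a b c ((uu d.2 * k)⁻¹ • z)
      ((Q.filter fun q => z ∈ region (q, d)).attach.image v) ?_ _ ?_
    · intro y hy
      obtain ⟨q, -, rfl⟩ := mem_image.1 hy
      obtain ⟨hq, hd1, -⟩ := mem_filter.1 (hvp q)
      have hvq := hV q.1 _ hq
      refine ⟨hvq.1.1, hvq.1.2, d.1, hd1 ▸ hia _, hd1 ▸ hib _, ?_⟩
      have h := hvc q
      rw [mul_assoc (uu d.2 * k), ← smul_inv_smul (uu d.2 * k) z, G.smul_mem_cone_iff] at h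
      exact G.cone_mul_subset (G.opp_ne _).symm h
    · exact fun q hq => ⟨v ⟨q, hq⟩, mem_image_of_mem _ (mem_attach _ _),
        (hV q _ (mem_filter.1 (hvp ⟨q, hq⟩)).1).2⟩
  let e := I.equivFin.symm
  refine ⟨p, hp0, hppc, ⟨{
    σ := σ
    m := I.card
    el := fun n => el (e n).1
    region := fun n => region (e n).1
    κ := fun n => c₀ * π (e n).1
    M := M
    M_pos := Nat.succ_pos _
    κ_pos := fun n => mul_pos hc₀0 (mem_filter.1 (e n).2).2
    κ_le := fun n => ?_
    hit := fun n => hhit _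
    cone_sub := fun n g hg => ?_
    ball_sub := fun n g hg z hz => ?_
    region_sub := fun n z hz => ?_
    region_mult := fun z => ?_
    big := ?_ }⟩⟩
  · calc c₀ * π (e n).1 ≤ c₀ * 1 := mul_le_mul_of_nonneg_left (hπ1 _) hc₀0.le
      _ ≤ 1 / 2 := by
        rw [mul_one, hc₀, div_le_div_iff_of_pos_right two_pos]
        exact pow_le_one₀ (by positivity) (by linarith)
  · obtain ⟨v, hv, rfl⟩ := mem_image.1 hg
    intro z hz
    refine ⟨v, hv, ?_⟩
    set g₀ := uu (e n).1.2.2 * k * G.gOf v * G.S (e n).1.2.1 with hg₀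
    rw [show uu (e n).1.2.2 * k * (G.gOf v * w (e n).1.2.1) =
      g₀ * G.S (e n).1.2.1 * G.S (τ (e n).1.2.1) by simp only [w, hg₀, mul_assoc]] at hz
    have hστ : σ ≠ G.opp (τ (e n).1.2.1) :=
      fun h => hτσ (e n).1.2.1 (by rw [h, G.opp_opp])
    exact G.cone_mul_subset (hτi _) (G.cone_mul_subset hστ hz)
  · obtain ⟨v, hv, rfl⟩ := mem_image.1 hg
    refine ⟨v, hv, G.ball_subset_cone (hτi _) ?_⟩
    rwa [show uu (e n).1.2.2 * k * G.gOf v * G.S (e n).1.2.1 * G.S (e n).1.2.1 *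
      G.S (τ (e n).1.2.1) = uu (e n).1.2.2 * k * (G.gOf v * w (e n).1.2.1) by
        simp only [w, mul_assoc]]
  · obtain ⟨v, hv, hzv⟩ := hz
    obtain ⟨-, hd1, hd2⟩ := mem_filter.1 hv
    rw [mul_assoc (uu _ * k), ← smul_inv_smul (uu (e n).1.2.2 * k) z, G.smul_mem_cone_iff] at hzv
    rw [← smul_inv_smul (uu (e n).1.2.2 * k) z, ← hd2]
    rw [← hd1, ← hd2] at hzv
    exact G.translate_mem_cone (G.opp_ne _).symm (hio v) (hi' v) (hj v) hzv
  · calc {n : Fin I.card | z ∈ region (e n).1}.ncard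
        ≤ (↑(J.filter fun d => z ∈ region d) : Set (W × Fin 4 × Fin 4)).ncard :=
          Set.ncard_le_ncard_of_injOn (fun n => (e n).1)
            (fun n hn => Finset.mem_coe.2 (mem_filter.2 ⟨(mem_filter.1 (e n).2).1, hn⟩))
            (fun n _ n' _ h => e.injective (Subtype.ext h)) (finite_toSet _)
      _ = (J.filter fun d => z ∈ region d).card := Set.ncard_coe_finset _
      _ = ∑ d : Fin 4 × Fin 4, (Q.filter fun q => z ∈ region (q, d)).card := by
          simp only [J, card_filter]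
          rw [sum_product, sum_comm]
      _ ≤ ∑ _d : Fin 4 × Fin 4, G.N := sum_le_sum fun d _ => hmult z d
      _ ≤ M := by simp [hM]
  · refine hmass.trans (le_of_eq ?_)
    rw [← sum_coe_sort I, ← e.sum_comp]

end Vale.Agent.P165.Hyp.Geo
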