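import Vale.Agent.P165.Hyp.Basic

/-!
The bootstrap: the sphere bound and the crossing bound make the polynomial profile uniform below the
threshold, and then the profile halves at a fixed rate.
-/

open Finset
open scoped ENNReal

namespace Vale.Agent.P165.Hyp.Geo

open Vale.Agent.P165.Quot

variable {W X Γ : Type*} [PseudoMetricSpace X] [Group Γ] [MulAction Γ W] [MulAction Γ X]
  {H : SimpleGraph W} (G : Geo (X := X) (Γ := Γ) H)

lemma dist_proj_walk {x y : W} (q : H.Walk x y) :
    dist (G.proj x) (G.proj y) ≤ G.L * q.length := by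
  induction q with
  | nil => simp
  | @cons a b c hab q ih =>
    have := dist_triangle (G.proj a) (G.proj b) (G.proj c)
    have := G.jump a b hab
    rw [SimpleGraph.Walk.length_cons]
    push_cast
    linarith

variable [DecidableEq W]

lemma sectBd_mono {p : ℝ} {φ ψ : ℕ → ℝ} (h : G.SectBd p φ) (hφ : ∀ s, φ s ≤ ψ s) :
    G.SectBd p ψ := fun x y s k => (h x y s k).trans
  (ENNReal.ofReal_le_ofReal (mul_le_mul_of_nonneg_left (hφ s) (by positivity)))

lemma polyBd_le {P Q : ℝ} (h : P ≤ Q) (s : ℕ) : polyBd P s ≤ polyBd Q s :=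
  div_le_div_of_nonneg_right h (by positivity)

/-- Exponentially small far connections give a finite starting profile. -/
theorem exists_start {p M r : ℝ} (h0 : 0 ≤ p) (h1 : p ≤ 1) (hM : 0 ≤ M) (hr : 0 ≤ r) (hr1 : r < 1)
    (hfar : ∀ (x : W) (T : Set W) (L : ℕ), (∀ z ∈ T, ∀ q : H.Walk x z, L < q.length) →
      mean H p Set.univ x T ≤ ENNReal.ofReal (M * r ^ L)) :
    ∃ P, 1 ≤ P ∧ G.SectBd p (polyBd P) := by
  classical
  set L' := G.L + 1 with hL'
  have hL0 : 0 < L' := by have := G.L_nonneg; positivity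
  set r' := max r (1 / 2)
  have hr'0 : 0 < r' := lt_max_of_lt_right (by norm_num)
  have hr'1 : r' < 1 := max_lt hr1 (by norm_num)
  set ρ := r' ^ (1 / L') with hρ
  have hρ0 : 0 < ρ := Real.rpow_pos_of_pos hr'0 _
  have hρ1 : ρ < 1 := Real.rpow_lt_one hr'0.le hr'1 (by positivity)
  obtain ⟨S, hS⟩ : ∃ S : ℝ, ∀ s : ℕ, ((s : ℝ) + 1) ^ 4 * ρ ^ s ≤ S := by
    have hsum := summable_pow_mul_geometric_of_norm_lt_one 4
      (show ‖ρ‖ < 1 by rwa [Real.norm_of_nonneg hρ0.le])
    refine ⟨(∑' n : ℕ, (n : ℝ) ^ 4 * ρ ^ n) / ρ, fun s => ?_⟩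
    rw [le_div_iff₀ hρ0, mul_assoc, ← pow_succ]
    have := hsum.le_tsum (s + 1) fun n _ => by positivity
    push_cast at this
    exact this
  refine ⟨max (max 1 (M + 1)) (M / r' * S), le_max_of_le_left (le_max_left _ _), fun x y s k => ?_⟩
  refine le_trans ?_ (ENNReal.ofReal_le_ofReal (le_mul_of_one_le_left ?_ (by simp)))
  swap
  · exact div_nonneg (zero_le_one.trans (le_max_of_le_left (le_max_left _ _))) (by positivity)
  rcases Nat.eq_zero_or_pos s with rfl | hs
  · have hfull : mean H p Set.univ x (G.sect x y 0 k) ≤ ENNReal.ofReal (M + 1) := by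
      refine (mean_mono x (T' := ⋃ b : Bool, if b then {x}ᶜ else {x}) fun z _ => ?_).trans
        ((mean_union_le x _).trans ?_)
      · by_cases h : z = x
        · exact Set.mem_iUnion.2 ⟨false, by simp [h]⟩
        · exact Set.mem_iUnion.2 ⟨true, by simp [h]⟩
      · rw [tsum_fintype, Fintype.sum_bool, ENNReal.ofReal_add hM zero_le_one]
        refine add_le_add ((hfar x _ 0 fun z hz q => ?_).trans (by simp)) ?_
        · exact Nat.pos_of_ne_zero fun hq => hz (SimpleGraph.Walk.eq_of_length_eq_zero hq).symm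
        · refine (mean_mono x (T' := {x}) (by simp)).trans ?_
          simp only [mean]
          rw [tsum_singleton x fun z => prob H p (connTo Set.univ x {z})]
          simpa using prob_le_one h0 h1 _
    refine hfull.trans (ENNReal.ofReal_le_ofReal ?_)
    simp [polyBd]
  · set L := ⌈(s : ℝ) / L'⌉₊ - 1 with hLdef
    have hLpos : 1 ≤ ⌈(s : ℝ) / L'⌉₊ := Nat.ceil_pos.2 (div_pos (by exact_mod_cast hs) hL0)
    have hL1 : (L : ℝ) < (s : ℝ) / L' := Nat.lt_ceil.1 (by omega)
    have hL2 : (s : ℝ) / L' ≤ (L : ℝ) + 1 := by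
      refine (Nat.le_ceil _).trans (le_of_eq ?_)
      rw [hLdef, Nat.cast_sub hLpos]
      push_cast
      ring
    refine (hfar x (G.sect x y s k) L fun z hz q => ?_).trans (ENNReal.ofReal_le_ofReal ?_)
    · have h3 := hz.2.2.trans (gp_le_left _ _ _)
      have h4 := G.dist_proj_walk q
      have h5 : (s : ℝ) / L' ≤ q.length := by
        rw [div_le_iff₀ hL0, hL']
        nlinarith [(Nat.cast_nonneg q.length : (0 : ℝ) ≤ q.length)]
      exact_mod_cast hL1.trans_le h5
    · simp only [polyBd]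
      rw [le_div_iff₀ (by positivity)]
      have hrL : r ^ L ≤ ρ ^ s / r' := by
        rw [le_div_iff₀ hr'0]
        refine le_trans (mul_le_mul_of_nonneg_right
          (pow_le_pow_left₀ hr (le_max_left r (1 / 2)) L) hr'0.le) ?_
        rw [← pow_succ, hρ, ← Real.rpow_natCast, ← Real.rpow_mul_natCast hr'0.le]
        refine Real.rpow_le_rpow_of_exponent_ge hr'0 hr'1.le ?_
        push_cast
        rw [one_div_mul_eq_div]
        exact hL2
      calc M * r ^ L * ((s : ℝ) + 1) ^ 4 ≤ M * (ρ ^ s / r') * ((s : ℝ) + 1) ^ 4 :=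
            mul_le_mul_of_nonneg_right (mul_le_mul_of_nonneg_left hrL hM) (by positivity)
        _ = M / r' * (((s : ℝ) + 1) ^ 4 * ρ ^ s) := by ring
        _ ≤ M / r' * S := mul_le_mul_of_nonneg_left (hS s) (by positivity)
        _ ≤ _ := le_max_right _ _

/-- The sphere bound and the crossing bound give exponential decay, uniformly below the
threshold. -/
theorem decay_of_parts {θ C C' : ℝ} {n₀ : ℕ} (hθ : 0 < θ)
    (hθ1 : θ ≤ 1 / 1000) (hC : 0 ≤ C) (hM : G.BallBd θ C) (hC' : 0 ≤ C') (hn₀ : 0 < n₀)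
    (hX : ∀ (p P : ℝ) (φ : ℕ → ℝ), 0 ≤ p → p ≤ pc H → 1 ≤ P →
      G.SectBd p (polyBd P) → G.SectBd p φ → Antitone φ → (∀ s, 0 ≤ φ s) →
      ∀ (x : W) (y : X) (s k n : ℕ), n₀ ≤ n → 4 * n ≤ s →
        mean H p Set.univ x (G.sect x y s k) ≤
          ENNReal.ofReal (C' * P ^ (3 * θ) * (n : ℝ) ^ (6 * θ - 1) * ((k : ℝ) + 1) * φ (s - 4 * n)))
    (hstart : ∀ p, pc H / 2 ≤ p → p < pc H → ∃ P, 1 ≤ P ∧ G.SectBd p (polyBd P)) :
    ∃ A c : ℝ, 0 < c ∧ ∀ p, pc H / 2 ≤ p → p < pc H →
      G.SectBd p (fun s => A * Real.exp (-c * s)) := by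
  classical
  set K := 256 * C' + C * (8 * (n₀ : ℝ) + 2) ^ 4
  have hK : 0 ≤ K := by positivity
  -- one step of the bootstrap
  have step : ∀ p P : ℝ, 0 ≤ p → p ≤ pc H → 1 ≤ P → G.SectBd p (polyBd P) →
      G.SectBd p (polyBd (max 1 (K * P ^ (81 / 100 : ℝ)))) := by
    intro p P h0 hp hP hS x y s k
    have hP0 : 0 < P := lt_of_lt_of_le one_pos hP
    have hout : ∀ B : ℝ, B ≤ ((k : ℝ) + 1) * (K * P ^ (81 / 100 : ℝ) / ((s : ℝ) + 1) ^ 4) →
        ENNReal.ofReal B ≤
          ENNReal.ofReal (((k : ℝ) + 1) * polyBd (max 1 (K * P ^ (81 / 100 : ℝ))) s) := fun B hB =>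
      ENNReal.ofReal_le_ofReal (hB.trans (mul_le_mul_of_nonneg_left
        (div_le_div_of_nonneg_right (le_max_right _ _) (by positivity)) (by positivity)))
    by_cases hs : max (8 * (n₀ : ℝ)) (P ^ (1 / 5 : ℝ)) ≤ s
    · have hs8 : 8 * n₀ ≤ s := by exact_mod_cast (le_max_left _ _).trans hs
      set n := s / 8
      have hn : n₀ ≤ n := by omega
      refine (hX p P (polyBd P) h0 hp hP hS hS (fun a b hab => ?_) (fun a => ?_) x y s k n hn
        (by omega)).trans (hout _ ?_)
      · exact div_le_div_of_nonneg_left hP0.le (by positivity) (by gcongr)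
      · exact div_nonneg hP0.le (by positivity)
      have h1 : polyBd P (s - 4 * n) ≤ 16 * P / ((s : ℝ) + 1) ^ 4 := by
        simp only [polyBd]
        rw [div_le_div_iff₀ (by positivity) (by positivity)]
        have h2 : ((s : ℝ) + 1) ≤ 2 * (((s - 4 * n : ℕ) : ℝ) + 1) := by
          exact_mod_cast (show s + 1 ≤ 2 * (s - 4 * n + 1) by omega)
        have h3 := pow_le_pow_left₀ (by positivity) h2 4
        rw [mul_pow] at h3
        nlinarith [mul_le_mul_of_nonneg_left h3 hP0.le]
      have hn16 : (s : ℝ) / 16 ≤ n := by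
        rw [div_le_iff₀ (by norm_num)]
        exact_mod_cast (show s ≤ n * 16 by omega)
      have hs0 : (0 : ℝ) < P ^ (1 / 5 : ℝ) := Real.rpow_pos_of_pos hP0 _
      have h4 : (n : ℝ) ^ (6 * θ - 1) ≤ 16 * P ^ ((6 * θ - 1) / 5) := by
        refine (Real.rpow_le_rpow_of_nonpos (by positivity)
          ((div_le_div_of_nonneg_right ((le_max_right _ _).trans hs) (by norm_num : (0:ℝ) ≤ 16)).trans
            hn16) (by linarith)).trans ?_
        rw [Real.div_rpow hs0.le (by norm_num), ← Real.rpow_mul hP0.le,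
          show 1 / 5 * (6 * θ - 1) = (6 * θ - 1) / 5 by ring, div_le_iff₀ (by positivity),
          mul_comm (16 : ℝ), mul_assoc]
        refine le_mul_of_one_le_right (by positivity) ?_
        rw [← Real.rpow_one_add' (by norm_num) (by linarith)]
        exact Real.one_le_rpow (by norm_num) (by linarith)
      calc C' * P ^ (3 * θ) * (n : ℝ) ^ (6 * θ - 1) * ((k : ℝ) + 1) * polyBd P (s - 4 * n)
          ≤ C' * P ^ (3 * θ) * (16 * P ^ ((6 * θ - 1) / 5)) * ((k : ℝ) + 1) *
              (16 * P / ((s : ℝ) + 1) ^ 4) := by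
            refine mul_le_mul (mul_le_mul_of_nonneg_right
              (mul_le_mul_of_nonneg_left h4 (by positivity)) (by positivity)) h1
              (div_nonneg hP0.le (by positivity)) (by positivity)
        _ = ((k : ℝ) + 1) * ((256 * C') * P ^ (3 * θ + (6 * θ - 1) / 5 + 1) /
              ((s : ℝ) + 1) ^ 4) := by
            rw [Real.rpow_add hP0, Real.rpow_add hP0, Real.rpow_one]
            ring
        _ ≤ _ := by
            gcongr
            · exact le_add_of_nonneg_right (by positivity)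
            · linarith
    · push Not at hs
      have hsub : G.sect x y s k ⊆ {v | v ∈ G.band (G.proj x) (G.proj x) k ∧
          dist (G.proj x) (G.proj v) < k + 1} := fun z hz => by
        refine ⟨?_, hz.2.1⟩
        simp only [band, Set.mem_ofPred_eq, gp_self, dist_comm (G.proj z)]
        exact ⟨hz.1, hz.2.1⟩
      refine ((mean_mono x hsub).trans
        (hM p P h0 hp hP hS x _ _ _ k)).trans (hout _ ?_)
      have h1 : ((k : ℝ) + 1) ^ (6 * θ) ≤ (k : ℝ) + 1 :=
        Real.rpow_le_self_of_one_le (by linarith [(Nat.cast_nonneg k : (0 : ℝ) ≤ k)]) (by linarith)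
      have hP15 : 1 ≤ P ^ (1 / 5 : ℝ) := Real.one_le_rpow hP (by norm_num)
      have h2 : ((s : ℝ) + 1) ^ 4 ≤ (8 * (n₀ : ℝ) + 2) ^ 4 * P ^ (4 / 5 : ℝ) := by
        have h3 : (s : ℝ) + 1 ≤ (8 * (n₀ : ℝ) + 2) * P ^ (1 / 5 : ℝ) := by
          nlinarith [max_le (a := 8 * (n₀ : ℝ)) (b := P ^ (1 / 5 : ℝ))
            (c := (8 * (n₀ : ℝ) + 1) * P ^ (1 / 5 : ℝ)) (by nlinarith) (by nlinarith)]
        refine (pow_le_pow_left₀ (by positivity) h3 4).trans (le_of_eq ?_)
        rw [mul_pow, ← Real.rpow_natCast (P ^ (1 / 5 : ℝ)) 4, ← Real.rpow_mul hP0.le]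
        norm_num
      rw [← mul_div_assoc, le_div_iff₀ (by positivity)]
      calc C * P ^ (3 * θ) * ((k : ℝ) + 1) ^ (6 * θ) * ((s : ℝ) + 1) ^ 4
          ≤ C * P ^ (3 * θ) * ((k : ℝ) + 1) * ((8 * (n₀ : ℝ) + 2) ^ 4 * P ^ (4 / 5 : ℝ)) :=
            mul_le_mul (mul_le_mul_of_nonneg_left h1 (by positivity)) h2 (by positivity)
              (by positivity)
        _ = ((k : ℝ) + 1) * (C * (8 * (n₀ : ℝ) + 2) ^ 4 * P ^ (3 * θ + 4 / 5)) := by
            rw [Real.rpow_add hP0]
            ring
        _ ≤ _ := by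
            gcongr
            · exact le_add_of_nonneg_left (by positivity)
            · linarith
  -- the uniform profile
  set B := max 1 ((2 * K) ^ (100 / 19 : ℝ)) with hB
  have hB1 : (1 : ℝ) ≤ B := le_max_left _ _
  have huni : ∀ p, pc H / 2 ≤ p → p < pc H → G.SectBd p (polyBd B) := by
    intro p hp hp'
    obtain ⟨P, hP, hS⟩ := hstart p hp hp'
    have hit : ∀ j : ℕ, G.SectBd p (polyBd (max B (P / 2 ^ j))) := by
      intro j
      induction j with
      | zero => exact G.sectBd_mono hS fun s => polyBd_le (by simp) s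
      | succ j ih =>
        refine G.sectBd_mono (step p _ (by linarith) hp'.le (le_max_of_le_left hB1) ih)
          fun s => polyBd_le ?_ s
        set Q := max B (P / 2 ^ j)
        have hQ0 : 0 < Q := lt_of_lt_of_le one_pos (le_max_of_le_left hB1)
        have h2K : 2 * K ≤ Q ^ (19 / 100 : ℝ) := by
          refine le_trans (le_of_eq ?_) (Real.rpow_le_rpow (by positivity)
            ((le_max_right _ _).trans (le_max_left B (P / 2 ^ j))) (by norm_num))
          rw [← Real.rpow_mul (by positivity)]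
          norm_num
        refine max_le (le_max_of_le_left hB1) ?_
        calc K * Q ^ (81 / 100 : ℝ) ≤ Q ^ (19 / 100 : ℝ) / 2 * Q ^ (81 / 100 : ℝ) :=
              mul_le_mul_of_nonneg_right (by linarith) (by positivity)
          _ = Q / 2 := by rw [div_mul_eq_mul_div, ← Real.rpow_add hQ0]; norm_num
          _ ≤ max B (P / 2 ^ (j + 1)) := by
            rw [div_le_iff₀ two_pos, pow_succ, ← div_div]
            refine max_le ?_ ?_
            · linarith [le_max_left B (P / 2 ^ j / 2)]
            · linarith [le_max_right B (P / 2 ^ j / 2)]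
    obtain ⟨j, hj⟩ := pow_unbounded_of_one_lt P one_lt_two
    refine G.sectBd_mono (hit j) fun s => polyBd_le (max_le le_rfl (le_trans ?_ hB1)) s
    exact ((div_le_one (by positivity)).2 hj.le)
  -- halving
  obtain ⟨n, hn0, hn⟩ : ∃ n : ℕ, n₀ ≤ n ∧ C' * B ^ (3 * θ) * (n : ℝ) ^ (6 * θ - 1) ≤ 1 / 2 := by
    have h := (tendsto_rpow_neg_atTop (show 0 < 1 - 6 * θ by linarith)).comp
      (tendsto_natCast_atTop_atTop (R := ℝ))
    have h' := (h.const_mul (C' * B ^ (3 * θ))).eventually
      (eventually_le_nhds (show C' * B ^ (3 * θ) * 0 < 1 / 2 by norm_num))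
    obtain ⟨n, hn, hn'⟩ := (h'.and (Filter.eventually_ge_atTop n₀)).exists
    refine ⟨n, hn', ?_⟩
    simpa [Function.comp] using hn
  have hnpos : 0 < n := lt_of_lt_of_le hn₀ hn0
  let φ : ℕ → ℕ → ℝ := fun j s => B * (1 / 2) ^ min j (s / (4 * n))
  have hφ : ∀ j p, pc H / 2 ≤ p → p < pc H → G.SectBd p (φ j) := by
    intro j
    induction j with
    | zero =>
      intro p hp hp'
      refine G.sectBd_mono (huni p hp hp') fun s => ?_
      simp only [φ, Nat.zero_min, pow_zero, mul_one, polyBd]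
      exact div_le_self (by linarith) (one_le_pow₀ (by linarith [(Nat.cast_nonneg s : (0:ℝ) ≤ s)]))
    | succ j ih =>
      intro p hp hp' x y s k
      by_cases hs : 4 * n ≤ s
      · refine (hX p B (φ j) (by linarith) hp'.le hB1 (huni p hp hp') (ih p hp hp')
          (fun a b hab => ?_) (fun a => ?_) x y s k n hn0 hs).trans (ENNReal.ofReal_le_ofReal ?_)
        · exact mul_le_mul_of_nonneg_left (pow_le_pow_of_le_one (by norm_num) (by norm_num)
            (min_le_min le_rfl (Nat.div_le_div_right hab))) (by linarith)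
        · simp only [φ]; positivity
        have hq : min (j + 1) (s / (4 * n)) = min j ((s - 4 * n) / (4 * n)) + 1 := by
          rw [Nat.div_eq_sub_div (by omega) hs, min_add_add_right]
        simp only [φ, hq, pow_succ]
        calc C' * B ^ (3 * θ) * (n : ℝ) ^ (6 * θ - 1) * ((k : ℝ) + 1) *
              (B * (1 / 2) ^ min j ((s - 4 * n) / (4 * n)))
            ≤ 1 / 2 * ((k : ℝ) + 1) * (B * (1 / 2) ^ min j ((s - 4 * n) / (4 * n))) :=
              mul_le_mul_of_nonneg_right (mul_le_mul_of_nonneg_right hn (by positivity))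
                (by positivity)
          _ = _ := by ring
      · refine (huni p hp hp' x y s k).trans (ENNReal.ofReal_le_ofReal
          (mul_le_mul_of_nonneg_left ?_ (by positivity)))
        simp only [φ, Nat.div_eq_of_lt (not_le.1 hs), Nat.min_zero, pow_zero, mul_one, polyBd]
        exact div_le_self (by linarith) (one_le_pow₀ (by linarith [(Nat.cast_nonneg s : (0:ℝ) ≤ s)]))
  refine ⟨2 * B, Real.log 2 / (4 * n), div_pos (Real.log_pos one_lt_two) (by positivity),
    fun p hp hp' x y s k => (hφ s p hp hp' x y s k).trans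
      (ENNReal.ofReal_le_ofReal (mul_le_mul_of_nonneg_left ?_ (by positivity)))⟩
  simp only [φ, min_eq_right (Nat.div_le_self s (4 * n))]
  have h1 : (s : ℝ) / (4 * n) ≤ ((s / (4 * n) : ℕ) : ℝ) + 1 := by
    rw [div_le_iff₀ (by positivity)]
    have := Nat.lt_div_mul_add (a := s) (b := 4 * n) (by omega)
    exact_mod_cast (show s ≤ (s / (4 * n) + 1) * (4 * n) by rw [Nat.add_mul, one_mul]; omega)
  have h2 : (1 / 2 : ℝ) ^ (s / (4 * n)) ≤ 2 * Real.exp (-(Real.log 2 / (4 * n)) * s) := by
    rw [← Real.rpow_natCast, Real.rpow_def_of_pos (by norm_num),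
      show Real.log (1 / 2) = -Real.log 2 by rw [one_div, Real.log_inv]]
    calc Real.exp (-Real.log 2 * ((s / (4 * n) : ℕ) : ℝ))
        ≤ Real.exp (Real.log 2 + -(Real.log 2 / (4 * n)) * s) := by
          refine Real.exp_le_exp.2 ?_
          have := mul_le_mul_of_nonneg_left h1 (Real.log_pos one_lt_two).le
          rw [show -(Real.log 2 / (4 * (n : ℝ))) * s = -(Real.log 2 * (s / (4 * n))) by ring]
          linarith
      _ = _ := by rw [Real.exp_add, Real.exp_log two_pos]
  calc B * (1 / 2) ^ (s / (4 * n)) ≤ B * (2 * Real.exp (-(Real.log 2 / (4 * n)) * s)) :=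
        mul_le_mul_of_nonneg_left h2 (by linarith)
    _ = _ := by ring

end Vale.Agent.P165.Hyp.Geo
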