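import Vale.Agent.P165.Hyp.Basic

/-!
Crossing the middle of a sector: a clamped logarithm of the visual distance towards the far point
gains `n` along every connection, and an edge contributes exponentially little in its distance from
the way to that point.
-/

open Finset
open scoped ENNReal

namespace Vale.Agent.P165.Hyp

open Vale.Agent.P165.Quot

section Through

variable {W : Type*} {H : SimpleGraph W}

lemma gain_le_sum {ψ w : W → ℝ} (hw : ∀ u, 0 ≤ w u) (hψ : ∀ u v, H.Adj u v → ψ v - ψ u ≤ w u)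
    {a b : W} (q : H.Walk a b) : ψ b - ψ a ≤ (q.support.map w).sum := by
  induction q with
  | @nil c => simpa using hw c
  | @cons a c b hac q ih =>
    have := hψ a c hac
    simp only [SimpleGraph.Walk.support_cons, List.map_cons, List.sum_cons]
    linarith

variable [DecidableEq W]

/-- Weights bounding the increments of a function pay for a connection across a gap. -/
theorem weighted_through {p : ℝ} (h0 : 0 ≤ p) (h1 : p ≤ 1) {x z : W} {ψ w : W → ℝ} {n : ℝ}
    (hw : ∀ u, 0 ≤ w u) (hψ : ∀ u v, H.Adj u v → ψ v - ψ u ≤ w u) (hgap : n ≤ ψ z - ψ x) :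
    ENNReal.ofReal n * prob H p (connTo Set.univ x {z}) ≤
      ∑' u, ENNReal.ofReal (w u) *
        (prob H p (connTo Set.univ x {u}) * prob H p (connTo Set.univ u {z})) := by
  classical
  simp only [prob, ENNReal.mul_iSup (a := ENNReal.ofReal n)]
  refine iSup₂_le fun U hU => ?_
  rw [← ENNReal.ofReal_mul' (pr_nonneg h0 h1 U _)]
  set R := reachable U x
  have hin : ∀ S : Finset (Sym2 W), inPart Set.univ S = S := fun S => by ext e; simp [mem_inPart]
  -- the inequality for a single configuration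
  have hpt : ∀ S, S ⊆ U → connTo Set.univ x {z} S → n ≤ ∑ u ∈ R,
      if Box (connTo Set.univ x {u}) (connTo Set.univ u {z}) S then w u else 0 := by
    rintro S hS ⟨y, rfl, hy⟩
    rw [hin] at hy
    obtain ⟨r₀⟩ := mem_cl_single.1 hy
    let r := r₀.bypass
    have hr : ∀ e ∈ r.edges, e ∈ S := fun e he => by
      have := r.edges_subset_edgeSet he
      rw [SimpleGraph.edgeSet_fromEdgeSet] at this
      exact this.1
    let q : H.Walk x y := r.transfer H fun e he => hU (hS (hr e he))
    have hqe : q.edges = r.edges := SimpleGraph.Walk.edges_transfer _ _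
    have hqp : q.IsPath := r₀.bypass_isPath.transfer _
    have hsum := gain_le_sum hw hψ q
    rw [← List.sum_toFinset w hqp.support_nodup] at hsum
    have hbox : ∀ u ∈ q.support.toFinset, u ∈ R ∧
        Box (connTo Set.univ x {u}) (connTo Set.univ u {y}) S := by
      intro u hu
      have hu' := List.mem_toFinset.1 hu
      have hmem : ∀ e ∈ q.edges, e ∈ S := fun e he => hr e (hqe ▸ he)
      have hspec : q.edges = (q.takeUntil u hu').edges ++ (q.dropUntil u hu').edges := by
        conv_lhs => rw [← q.take_spec hu']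
        exact SimpleGraph.Walk.edges_append _ _
      have hnd := hqp.isTrail.edges_nodup
      rw [hspec] at hnd
      have hd := (List.nodup_append.1 hnd).2.2
      have hxu : u ∈ cl {x} S := mem_cl_of_hwalk (q.takeUntil u hu') fun e he =>
        hmem e (hspec ▸ List.mem_append_left _ he)
      refine ⟨mem_reachable hS hxu, (q.takeUntil u hu').edges.toFinset,
        (q.dropUntil u hu').edges.toFinset,
        fun e he => hmem e (hspec ▸ List.mem_append_left _ (List.mem_toFinset.1 he)),
        fun e he => hmem e (hspec ▸ List.mem_append_right _ (List.mem_toFinset.1 he)), ?_,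
        ⟨u, rfl, mem_cl_of_hwalk (q.takeUntil u hu') fun e he => by
          rw [hin]; exact List.mem_toFinset.2 he⟩,
        ⟨_, rfl, mem_cl_of_hwalk (q.dropUntil u hu') fun e he => by
          rw [hin]; exact List.mem_toFinset.2 he⟩⟩
      rw [Finset.disjoint_left]
      intro e he he'
      exact hd e (List.mem_toFinset.1 he) e (List.mem_toFinset.1 he') rfl
    calc n ≤ ∑ u ∈ q.support.toFinset, w u := le_trans hgap hsum
      _ = ∑ u ∈ q.support.toFinset,
          if Box (connTo Set.univ x {u}) (connTo Set.univ u {y}) S then w u else 0 :=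
          sum_congr rfl fun u hu => (if_pos (hbox u hu).2).symm
      _ ≤ _ := sum_le_sum_of_subset_of_nonneg (fun u hu => (hbox u hu).1) fun u _ _ => by
          split_ifs <;> simp [hw u]
  have hpr : n * pr p U (connTo Set.univ x {z}) ≤ ∑ u ∈ R, w u *
      pr p U (Box (connTo Set.univ x {u}) (connTo Set.univ u {z})) := by
    simp only [pr, Finset.sum_filter, Finset.mul_sum]
    rw [Finset.sum_comm]
    refine sum_le_sum fun S hS => ?_
    have hwt := wt_nonneg h0 h1 U S
    by_cases hc : connTo Set.univ x {z} S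
    · rw [if_pos hc]
      refine (mul_le_mul_of_nonneg_right (hpt S (mem_powerset.1 hS) hc) hwt).trans (le_of_eq ?_)
      rw [sum_mul]
      exact sum_congr rfl fun u _ => by split_ifs <;> simp
    · rw [if_neg hc, mul_zero]
      exact sum_nonneg fun u _ => by split_ifs <;> simp [mul_nonneg (hw u) hwt]
  refine (ENNReal.ofReal_le_ofReal hpr).trans ?_
  rw [ENNReal.ofReal_sum_of_nonneg fun u _ => mul_nonneg (hw u) (pr_nonneg h0 h1 _ _)]
  refine le_trans (sum_le_sum fun u _ => ?_) (ENNReal.sum_le_tsum R)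
  rw [ENNReal.ofReal_mul (hw u)]
  refine mul_le_mul' le_rfl ((ENNReal.ofReal_le_ofReal
    (pr_box_le h0 h1 U (incr_connTo _ _ _) (incr_connTo _ _ _))).trans ?_)
  rw [ENNReal.ofReal_mul (pr_nonneg h0 h1 _ _)]
  exact mul_le_mul' (ofReal_pr_le_prob hU _) (ofReal_pr_le_prob hU _)

end Through

namespace Geo

variable {W X Γ : Type*} [PseudoMetricSpace X] [Group Γ] [MulAction Γ W] [MulAction Γ X]
  {H : SimpleGraph W} (G : Geo (X := X) (Γ := Γ) H)

lemma log_two_pos : 0 < Real.log 2 := Real.log_pos one_lt_two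

/-- The parameter of the visual distance. -/
noncomputable def vis : ℝ := Real.log 2 / (2 * G.δ + 1)

lemma vis_pos : 0 < G.vis := div_pos log_two_pos (by linarith [G.δ_nonneg])

lemma vis_le : 2 * G.δ * G.vis ≤ Real.log 2 := by
  have := G.δ_nonneg
  rw [vis, ← mul_div_assoc, div_le_iff₀ (by linarith)]
  nlinarith [log_two_pos]

/-- The clamped logarithm of the visual distance to `y`. -/
noncomputable def clampLog (o y : X) (n : ℕ) (u : X) : ℝ :=
  min (2 * n) (max n (-Real.log (max (visDist G.vis o u y) (Real.exp (-G.vis * (3 * n)))) / G.vis))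

lemma clampLog_eq_top {o y u : X} {n : ℕ} (h : 2 * (n : ℝ) ≤ gp o u y) :
    G.clampLog o y n u = 2 * n := by
  refine min_eq_left (le_max_of_le_right ?_)
  rw [le_div_iff₀ G.vis_pos]
  have h1 : max (visDist G.vis o u y) (Real.exp (-G.vis * (3 * n))) ≤
      Real.exp (-(2 * n * G.vis)) := by
    refine max_le ((visDist_le_exp _ _ _ _).trans (Real.exp_le_exp.2 ?_)) (Real.exp_le_exp.2 ?_)
    · nlinarith [G.vis_pos]
    · nlinarith [G.vis_pos, (Nat.cast_nonneg n : (0 : ℝ) ≤ n)]
  have := Real.log_le_log (lt_max_of_lt_right (Real.exp_pos _)) h1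
  rw [Real.log_exp] at this
  linarith

/-- Away from `y` the logarithm is at most the product plus a constant. -/
lemma log_le_gp {o y u : X} (n : ℕ) (hu : u ≠ y) :
    Real.exp (-(G.vis * gp o u y)) / 2 ≤
      max (visDist G.vis o u y) (Real.exp (-G.vis * (3 * n))) := by
  refine le_max_of_le_left ?_
  have := visDist_ge_exp G.hyp G.δ_nonneg G.vis_pos.le G.vis_le o hu
  rwa [neg_mul] at this

lemma clampLog_eq_bot {o y u : X} {n : ℕ} (hu : u ≠ y)
    (h : gp o u y + Real.log 2 / G.vis ≤ n) : G.clampLog o y n u = n := by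
  have h1 := Real.log_le_log (by positivity) (G.log_le_gp (o := o) n hu)
  rw [Real.log_div (Real.exp_pos _).ne' two_ne_zero, Real.log_exp] at h1
  have h2 : -Real.log (max (visDist G.vis o u y) (Real.exp (-G.vis * (3 * n)))) / G.vis ≤
      gp o u y + Real.log 2 / G.vis := by
    rw [div_le_iff₀ G.vis_pos, add_mul, div_mul_cancel₀ _ G.vis_pos.ne']
    linarith
  rw [clampLog, max_eq_left (h2.trans h), min_eq_right]
  linarith [(Nat.cast_nonneg n : (0 : ℝ) ≤ n)]

lemma clamp_sub_le {a b lo hi : ℝ} : min hi (max lo a) - min hi (max lo b) ≤ max (a - b) 0 := by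
  rcases le_total a b with h | h
  · exact le_max_of_le_right (sub_nonpos.2 (min_le_min le_rfl (max_le_max le_rfl h)))
  · refine le_max_of_le_left ?_
    rw [sub_le_iff_le_add]
    rcases le_total hi (max lo b) with h' | h'
    · rw [min_eq_left h']
      exact (min_le_left _ _).trans (by linarith)
    · rw [min_eq_right h']
      exact (min_le_right _ _).trans (max_le (by linarith [le_max_left lo b])
        (by linarith [le_max_right lo b]))

lemma log_sub_le {a b : ℝ} (ha : 0 < a) (hb : 0 < b) : Real.log a - Real.log b ≤ |a - b| / b := by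
  rw [← Real.log_div ha.ne' hb.ne']
  refine (Real.log_le_sub_one_of_pos (div_pos ha hb)).trans ?_
  rw [div_sub_one hb.ne']
  exact div_le_div_of_nonneg_right (le_abs_self _) hb.le

/-- An edge moves the clamped logarithm only near the way to `y`, and then exponentially little. -/
lemma clampLog_step {o y : X} {n : ℕ} {s : ℝ} (hy : s ≤ dist o y) (hs : 4 * (n : ℝ) ≤ s)
    (hn : 2 * (Real.log 2 / G.vis + 2 * G.L) + 1 ≤ n) {u v : W} (huv : H.Adj u v) :
    G.clampLog o y n (G.proj v) - G.clampLog o y n (G.proj u) ≤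
      if (n : ℝ) / 2 ≤ gp o (G.proj u) y ∧ gp o (G.proj u) y ≤ 3 * n then
        2 * Real.exp (2 * G.L * G.vis) / G.vis *
          Real.exp (-G.vis * gp (G.proj u) o y) else 0 := by
  set a := gp o (G.proj u) y with ha
  set b := gp o (G.proj v) y with hb
  have hL := G.L_nonneg
  have hl : 0 ≤ Real.log 2 / G.vis := div_nonneg log_two_pos.le G.vis_pos.le
  have hd : dist (G.proj u) (G.proj v) ≤ G.L := G.jump u v huv
  have hab : |a - b| ≤ G.L := by
    rw [ha, hb, gp_comm o (G.proj u), gp_comm o (G.proj v)]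
    exact (abs_gp_sub_le o y (G.proj u) (G.proj v)).trans hd
  rw [abs_le] at hab
  have hne : ∀ w : X, gp o w y < s → w ≠ y := fun w hw e => by
    subst e
    rw [gp_self] at hw
    linarith
  split_ifs with hr
  · have hu : G.proj u ≠ y := hne _ (by linarith [hr.2])
    have hv : G.proj v ≠ y := hne _ (by linarith [hr.2])
    refine clamp_sub_le.trans (max_le ?_ (by have := G.vis_pos; positivity))
    rw [← sub_div, neg_sub_neg]
    have hv' := G.log_le_gp (o := o) n hv
    set Du := max (visDist G.vis o (G.proj u) y) (Real.exp (-G.vis * (3 * n)))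
    set Dv := max (visDist G.vis o (G.proj v) y) (Real.exp (-G.vis * (3 * n)))
    have hDu : 0 < Du := lt_max_of_lt_right (Real.exp_pos _)
    have hDv : 0 < Dv := lt_max_of_lt_right (Real.exp_pos _)
    have hdiff : |Du - Dv| ≤ Real.exp (-G.vis * (dist o (G.proj u) - G.L)) := by
      refine (abs_max_sub_max_le_abs _ _ _).trans ((abs_visDist_sub_le _ _ _ _ _).trans
        ((visDist_le_exp _ _ _ _).trans (Real.exp_le_exp.2 ?_)))
      have h1 : dist o (G.proj u) - G.L ≤ gp o (G.proj u) (G.proj v) := by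
        have := dist_triangle o (G.proj v) (G.proj u)
        rw [dist_comm (G.proj v)] at this
        unfold gp
        linarith
      nlinarith [G.vis_pos]
    have hge : Real.exp (-G.vis * (a + G.L)) / 2 ≤ Dv := by
      refine le_trans ?_ hv'
      refine div_le_div_of_nonneg_right (Real.exp_le_exp.2 ?_) two_pos.le
      nlinarith [G.vis_pos]
    refine (div_le_div_of_nonneg_right ((log_sub_le hDu hDv).trans
      (div_le_div₀ (Real.exp_nonneg _) hdiff (by positivity) hge)) G.vis_pos.le).trans (le_of_eq ?_)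
    have hadd := gp_add o y (G.proj u)
    rw [gp_comm o y, gp_comm (G.proj u) y, ← ha] at hadd
    rw [div_div_eq_mul_div, mul_comm _ (2 : ℝ), mul_div_assoc, ← Real.exp_sub, mul_div_assoc,
      mul_div_assoc, mul_assoc, div_mul_eq_mul_div, ← Real.exp_add]
    congr 3
    rw [show dist o (G.proj u) = a + gp (G.proj u) o y by linarith]
    ring
  · push Not at hr
    rcases lt_or_ge a ((n : ℝ) / 2) with h | h
    · rw [G.clampLog_eq_bot (hne _ (by linarith)) (by linarith),
        G.clampLog_eq_bot (hne _ (by linarith)) (by linarith)]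
      linarith
    · have := hr h
      rw [G.clampLog_eq_top (by linarith), G.clampLog_eq_top (by linarith)]
      linarith

variable [DecidableEq W]

/-- Expected sizes in a sector seen from a point near its axis. -/
lemma mean_from_near {p : ℝ} {φ : ℕ → ℝ} (hS : G.SectBd p φ) (hφ : ∀ s, 0 ≤ φ s) (x : W) (y : X)
    {s k n m : ℕ} (hn : G.δ < n) (hs : 4 * n ≤ s) {u : W}
    (hu : gp (G.proj x) (G.proj u) y ≤ 3 * n)
    (hm : (m : ℝ) ≤ gp (G.proj u) (G.proj x) y) (hm' : gp (G.proj u) (G.proj x) y < m + 1) :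
    mean H p Set.univ u (G.sect x y s k) ≤
      ENNReal.ofReal ((4 * G.δ + 4) * (2 * G.δ + 4) * (((k : ℝ) + 1) * ((m : ℝ) + 1)) *
        φ (s - 4 * n)) := by
  classical
  set o := G.proj x
  set a := gp o (G.proj u) y with ha
  have hδ := G.δ_nonneg
  have hs' : 4 * (n : ℝ) ≤ s := by exact_mod_cast hs
  have ha0 : 0 ≤ a := gp_nonneg _ _ _
  have hdu : dist o (G.proj u) = a + gp (G.proj u) o y := by
    have := gp_add o y (G.proj u)
    rw [gp_comm o y, gp_comm (G.proj u) y, ← ha] at this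
    linarith
  set lo := (k : ℝ) + m - a - 2 * G.δ
  set hi := lo + 4 * G.δ + 2
  have hsub : G.sect x y s k ⊆
      ⋃ i : Finset.Icc ⌊lo⌋₊ ⌊hi⌋₊, G.sect u y (s - 4 * n) (i : ℕ) := by
    rintro z ⟨hk, hk', hz⟩
    set g := gp o (G.proj u) (G.proj z)
    have hg1 : a - G.δ ≤ g := G.hyp.ge (b := y) le_rfl (by rw [gp_comm]; linarith)
    have hg2 : g ≤ a + G.δ := by
      by_contra hcon
      push Not at hcon
      have h1 := G.hyp o (G.proj u) (G.proj z) y
      have h2 : a + G.δ < min g (gp o (G.proj z) y) := lt_min hcon (by linarith)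
      linarith
    have hd := dist_eq_gp o (G.proj u) (G.proj z)
    have hlo : lo ≤ dist (G.proj u) (G.proj z) := by linarith
    have hhi : dist (G.proj u) (G.proj z) ≤ hi := by linarith
    have hd1 := dist_eq_gp o (G.proj u) y
    have hd2 := dist_eq_gp o (G.proj z) y
    refine Set.mem_iUnion.2 ⟨⟨⌊dist (G.proj u) (G.proj z)⌋₊, mem_Icc.2
      ⟨Nat.floor_le_floor hlo, Nat.floor_le_floor hhi⟩⟩, ?_, ?_, ?_⟩
    · exact Nat.floor_le dist_nonneg
    · exact Nat.lt_floor_add_one _
    · rw [Nat.cast_sub hs, show gp (G.proj u) (G.proj z) y =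
        (dist (G.proj u) (G.proj z) + dist (G.proj u) y - dist (G.proj z) y) / 2 from rfl]
      push_cast
      linarith
  refine (mean_mono u hsub).trans ((mean_union_le u _).trans ?_)
  rw [tsum_fintype]
  refine (sum_le_card_nsmul _ _ (ENNReal.ofReal ((2 * G.δ + 4) * (((k : ℝ) + 1) * ((m : ℝ) + 1)) *
    φ (s - 4 * n))) fun i _ => (hS u y _ _).trans (ENNReal.ofReal_le_ofReal ?_)).trans ?_
  · refine mul_le_mul_of_nonneg_right ?_ (hφ _)
    have h1 : ((i : ℕ) : ℝ) ≤ max hi 0 := by
      refine le_trans (Nat.cast_le.2 (mem_Icc.1 i.2).2) ?_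
      rcases le_total 0 hi with h | h
      · exact (Nat.floor_le h).trans (le_max_left _ _)
      · rw [Nat.floor_eq_zero.2 (lt_of_le_of_lt h one_pos), Nat.cast_zero]
        exact le_max_right _ _
    have hk0 : (0 : ℝ) ≤ k := Nat.cast_nonneg k
    have hm0 : (0 : ℝ) ≤ m := Nat.cast_nonneg m
    have h2 : max hi 0 + 1 ≤ (k : ℝ) + m + 2 * G.δ + 3 := by
      have : max hi 0 ≤ (k : ℝ) + m + 2 * G.δ + 2 := max_le (by linarith) (by linarith)
      linarith
    nlinarith [mul_nonneg hk0 hm0, mul_nonneg hδ (mul_nonneg hk0 hm0), mul_nonneg hδ hk0,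
      mul_nonneg hδ hm0]
  · rw [nsmul_eq_mul, ← ENNReal.ofReal_natCast,
      ← ENNReal.ofReal_mul (Nat.cast_nonneg _), card_univ, Fintype.card_coe]
    refine ENNReal.ofReal_le_ofReal ?_
    suffices hcard : ((Finset.Icc ⌊lo⌋₊ ⌊hi⌋₊).card : ℝ) ≤ 4 * G.δ + 4 by
      have h3 : 0 ≤ (2 * G.δ + 4) * (((k : ℝ) + 1) * ((m : ℝ) + 1)) * φ (s - 4 * n) :=
        mul_nonneg (by positivity) (hφ _)
      refine (mul_le_mul_of_nonneg_right hcard h3).trans_eq ?_
      ring
    rw [Nat.card_Icc]
    rcases le_total ⌊lo⌋₊ (⌊hi⌋₊ + 1) with h | h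
    · rw [Nat.cast_sub h]
      have h1 := Nat.lt_floor_add_one lo
      push_cast
      rcases le_total 0 hi with h' | h'
      · linarith [Nat.floor_le h']
      · rw [Nat.floor_eq_zero.2 (lt_of_le_of_lt h' one_pos), Nat.cast_zero]
        linarith [(Nat.cast_nonneg ⌊lo⌋₊ : (0 : ℝ) ≤ ⌊lo⌋₊)]
    · rw [Nat.sub_eq_zero_of_le h, Nat.cast_zero]
      linarith

/-- The crossing bound. -/
theorem exists_cross (hpc1 : pc H ≤ 1) {θ C : ℝ} (hθ : 0 < θ) (hθ1 : θ < 1)
    (hC : 0 ≤ C) (hM : G.BallBd θ C) :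
    ∃ C' : ℝ, ∃ n₀ : ℕ, 0 ≤ C' ∧ 0 < n₀ ∧ ∀ (p P : ℝ) (φ : ℕ → ℝ), 0 ≤ p → p ≤ pc H → 1 ≤ P →
      G.SectBd p (polyBd P) → G.SectBd p φ → Antitone φ → (∀ s, 0 ≤ φ s) →
      ∀ (x : W) (y : X) (s k n : ℕ), n₀ ≤ n → 4 * n ≤ s →
        mean H p Set.univ x (G.sect x y s k) ≤
          ENNReal.ofReal (C' * P ^ (3 * θ) * (n : ℝ) ^ (6 * θ - 1) * ((k : ℝ) + 1) *
            φ (s - 4 * n)) := by
  classical
  have hδ := G.δ_nonneg
  have hL := G.L_nonneg
  have hv := G.vis_pos
  have hl2 : 0 ≤ Real.log 2 / G.vis := div_nonneg log_two_pos.le hv.le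
  set K := 2 * Real.exp (2 * G.L * G.vis) / G.vis with hKdef
  have hK0 : 0 ≤ K := by positivity
  have hS7 : Summable fun m : ℕ => ((m : ℝ) + 1) ^ 7 * Real.exp (-G.vis * m) := by
    have h := ((summable_nat_add_iff 1).2 (Real.summable_pow_mul_exp_neg_nat_mul 7 hv)).mul_left
      (Real.exp G.vis)
    refine h.congr fun m => ?_
    push_cast
    rw [mul_left_comm, ← Real.exp_add]
    ring_nf
  set S := ∑' m : ℕ, ((m : ℝ) + 1) ^ 7 * Real.exp (-G.vis * m) with hSdef
  obtain ⟨n₀, hn₀⟩ := exists_nat_gt (2 * (Real.log 2 / G.vis + 2 * G.L) + 1 + G.δ)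
  refine ⟨K * ((4 * G.δ + 4) * (2 * G.δ + 4)) * (C * 4 ^ 6) * S, n₀, ?_, ?_,
    fun p P φ h0 hp hP hSP hSφ _ hφ x y s k n hn hs => ?_⟩
  · have : 0 ≤ S := tsum_nonneg fun m => by positivity
    positivity
  · exact Nat.pos_of_ne_zero fun h => by rw [h, Nat.cast_zero] at hn₀; linarith
  have h1 : p ≤ 1 := hp.trans hpc1
  have hn1 : (n₀ : ℝ) ≤ n := by exact_mod_cast hn
  have hs' : 4 * (n : ℝ) ≤ s := by exact_mod_cast hs
  have hnp : (0 : ℝ) < n := by linarith
  set o := G.proj x with ho
  let w : W → ℝ := fun u => if (n : ℝ) / 2 ≤ gp o (G.proj u) y ∧ gp o (G.proj u) y ≤ 3 * n then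
    K * Real.exp (-G.vis * gp (G.proj u) o y) else 0
  have hw : ∀ u, 0 ≤ w u := fun u => by simp only [w]; split_ifs <;> positivity
  -- each point of the sector
  have hz : ∀ z ∈ G.sect x y s k, ENNReal.ofReal n * prob H p (connTo Set.univ x {z}) ≤
      ∑' u, ENNReal.ofReal (w u) *
        (prob H p (connTo Set.univ x {u}) * prob H p (connTo Set.univ u {z})) := by
    intro z hz
    have hy : (s : ℝ) ≤ dist o y := hz.2.2.trans (gp_le_right _ _ _)
    refine weighted_through h0 h1 (ψ := fun v => G.clampLog o y n (G.proj v)) hw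
      (fun u v huv => G.clampLog_step hy hs' (by linarith) huv) ?_
    show (n : ℝ) ≤ G.clampLog o y n (G.proj z) - G.clampLog o y n o
    have hzs : (s : ℝ) ≤ gp o (G.proj z) y := hz.2.2
    rw [G.clampLog_eq_top (by linarith), G.clampLog_eq_bot (fun e => ?_)
      (by rw [gp_base_left]; linarith)]
    · linarith
    · rw [← e, dist_self] at hy
      linarith
  -- the weight and the sector seen from a tube point
  let B : ℕ → ℝ := fun m => K * Real.exp (-G.vis * m) *
    ((4 * G.δ + 4) * (2 * G.δ + 4) * (((k : ℝ) + 1) * ((m : ℝ) + 1)) * φ (s - 4 * n))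
  have hB : ∀ m, 0 ≤ B m := fun m => mul_nonneg (by positivity) (mul_nonneg (by positivity) (hφ _))
  have hu : ∀ u, ENNReal.ofReal (w u) * (prob H p (connTo Set.univ x {u}) *
      mean H p Set.univ u (G.sect x y s k)) ≤
      ∑' m : ℕ, ENNReal.ofReal (B m) * (G.tube x y ((n : ℝ) / 2) (3 * n) m).indicator
        (fun v => prob H p (connTo Set.univ x {v})) u := by
    intro u
    by_cases hr : (n : ℝ) / 2 ≤ gp o (G.proj u) y ∧ gp o (G.proj u) y ≤ 3 * n
    · set m := ⌊gp (G.proj u) o y⌋₊
      have hm := Nat.floor_le (gp_nonneg (G.proj u) o y)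
      have hm' := Nat.lt_floor_add_one (gp (G.proj u) o y)
      refine le_trans ?_ (ENNReal.le_tsum m)
      rw [Set.indicator_of_mem (show u ∈ G.tube x y ((n : ℝ) / 2) (3 * n) m from
        ⟨hr.1, hr.2, hm, hm'⟩)]
      simp only [w, if_pos hr, B]
      rw [ENNReal.ofReal_mul (p := K * Real.exp (-G.vis * (m : ℝ))) (by positivity), mul_assoc,
        mul_comm (ENNReal.ofReal ((4 * G.δ + 4) * _ * _ * _))]
      refine mul_le_mul' (ENNReal.ofReal_le_ofReal ?_)
        (mul_le_mul' le_rfl (G.mean_from_near hSφ hφ x y (by linarith) hs hr.2 hm hm'))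
      refine mul_le_mul_of_nonneg_left (Real.exp_le_exp.2 ?_) hK0
      nlinarith
    · simp [w, if_neg hr]
  -- the tubes
  have htube : ∀ m : ℕ, mean H p Set.univ x (G.tube x y ((n : ℝ) / 2) (3 * n) m) ≤
      ENNReal.ofReal (C * 4 ^ 6 * P ^ (3 * θ) * (n : ℝ) ^ (6 * θ) * ((m : ℝ) + 1) ^ 6) := by
    intro m
    refine (mean_mono x (T' := {v | v ∈ G.band o y m ∧ dist o (G.proj v) < ((3 * n + m : ℕ) : ℝ) + 1})
      fun v hv => ⟨hv.2.2, ?_⟩).trans ((hM p P h0 hp hP hSP x o y m _).trans
        (ENNReal.ofReal_le_ofReal ?_))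
    · have hadd := gp_add o y (G.proj v)
      rw [gp_comm o y, gp_comm (G.proj v) y] at hadd
      have h2 : gp o (G.proj v) y ≤ 3 * n := hv.2.1
      have h3 : gp (G.proj v) o y < m + 1 := hv.2.2.2
      push_cast
      linarith
    · have hm0 : (0 : ℝ) ≤ m := Nat.cast_nonneg m
      have hle : ((3 * n + m : ℕ) : ℝ) + 1 ≤ (n : ℝ) * (4 * ((m : ℝ) + 1)) := by
        push_cast
        nlinarith
      calc C * P ^ (3 * θ) * (((3 * n + m : ℕ) : ℝ) + 1) ^ (6 * θ)
          ≤ C * P ^ (3 * θ) * ((n : ℝ) ^ (6 * θ) * (4 * ((m : ℝ) + 1)) ^ (6 : ℝ)) := by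
            refine mul_le_mul_of_nonneg_left ?_ (by positivity)
            refine (Real.rpow_le_rpow (by positivity) hle (by positivity)).trans ?_
            rw [Real.mul_rpow hnp.le (by positivity)]
            exact mul_le_mul_of_nonneg_left
              (Real.rpow_le_rpow_of_exponent_le (by linarith) (by linarith)) (by positivity)
        _ = _ := by rw [show (6 : ℝ) = ((6 : ℕ) : ℝ) by norm_num, Real.rpow_natCast, mul_pow]; ring
  -- summing
  have hmain : ENNReal.ofReal n * mean H p Set.univ x (G.sect x y s k) ≤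
      ENNReal.ofReal (K * ((4 * G.δ + 4) * (2 * G.δ + 4)) * (C * 4 ^ 6) * S * P ^ (3 * θ) *
        (n : ℝ) ^ (6 * θ) * ((k : ℝ) + 1) * φ (s - 4 * n)) := by
    rw [mean, ← ENNReal.tsum_mul_left]
    refine (ENNReal.tsum_le_tsum fun z : G.sect x y s k => hz z.1 z.2).trans ?_
    rw [ENNReal.tsum_comm]
    refine le_trans (ENNReal.tsum_le_tsum fun u => ?_) (?_ :
      ∑' u, ∑' m : ℕ, ENNReal.ofReal (B m) * (G.tube x y ((n : ℝ) / 2) (3 * n) m).indicator
        (fun v => prob H p (connTo Set.univ x {v})) u ≤ _)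
    · rw [ENNReal.tsum_mul_left, ENNReal.tsum_mul_left]
      exact hu u
    rw [ENNReal.tsum_comm]
    set F := K * ((4 * G.δ + 4) * (2 * G.δ + 4)) * (C * 4 ^ 6) * P ^ (3 * θ) *
      (n : ℝ) ^ (6 * θ) * ((k : ℝ) + 1) * φ (s - 4 * n)
    have hF : 0 ≤ F := mul_nonneg (by positivity) (hφ _)
    refine le_trans (ENNReal.tsum_le_tsum fun m => ?_) (le_of_eq ?_)
      (b := ∑' m : ℕ, ENNReal.ofReal (F * (((m : ℝ) + 1) ^ 7 * Real.exp (-G.vis * m))))
    · rw [ENNReal.tsum_mul_left, ← _root_.tsum_subtype]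
      refine (mul_le_mul' le_rfl (htube m)).trans ?_
      rw [← ENNReal.ofReal_mul (hB m)]
      exact ENNReal.ofReal_le_ofReal (le_of_eq (by simp only [B, F]; ring))
    · rw [← ENNReal.ofReal_tsum_of_nonneg (fun m => mul_nonneg hF (by positivity))
        (hS7.mul_left F), tsum_mul_left, ← hSdef]
      congr 1
      simp only [F]
      ring
  refine (ENNReal.mul_le_mul_iff_right (a := ENNReal.ofReal n) (ENNReal.ofReal_pos.2 hnp).ne'
    ENNReal.ofReal_ne_top).1 (hmain.trans (le_of_eq ?_))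
  rw [← ENNReal.ofReal_mul hnp.le]
  congr 1
  rw [Real.rpow_sub hnp, Real.rpow_one]
  field_simp

end Geo

end Vale.Agent.P165.Hyp
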