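import Vale.Agent.P165.Hyp.Defs
import Vale.Agent.P165.Quot.ProbBasic

/-!
Translations, orbits, and the cost of moving a starting point.
-/

open Finset
open scoped ENNReal

namespace Vale.Agent.P165.Hyp.Geo

open Vale.Agent.P165.Quot

variable {W X Γ : Type*} [PseudoMetricSpace X] [Group Γ] [MulAction Γ W] [MulAction Γ X]
  {H : SimpleGraph W} (G : Geo (X := X) (Γ := Γ) H)

/-- Translation, as an automorphism of the graph. -/
def act (g : Γ) : H ≃g H where
  toEquiv := MulAction.toPerm g
  map_rel_iff' := G.adj_smul g _ _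

lemma act_apply (g : Γ) (x : W) : G.act g x = g • x := rfl

include G in
lemma quasiTransitive : QuasiTransitive H := by
  refine ⟨↑G.reps, G.reps.finite_toSet, fun v => ⟨(G.act (G.gOf v)).symm, ?_⟩⟩
  have e : (G.act (G.gOf v)).symm v = G.rOf v := by
    conv_lhs => arg 2; rw [← G.gOf_smul v]
    exact (G.act (G.gOf v)).symm_apply_apply (G.rOf v)
  rw [e]
  exact G.rOf_mem v

include G in
lemma degree_bound [H.LocallyFinite] : ∃ d : ℕ, ∀ x, (H.neighborFinset x).card ≤ d := by
  classical
  refine ⟨G.reps.sup fun r => (H.neighborFinset r).card, fun x => ?_⟩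
  refine le_trans (le_of_eq ?_)
    (Finset.le_sup (f := fun r => (H.neighborFinset r).card) (G.rOf_mem x))
  refine (card_nbij (fun y => G.gOf x • y) (fun y hy => ?_) (MulAction.injective _).injOn
    fun z hz => ⟨(G.gOf x)⁻¹ • z, ?_, smul_inv_smul _ _⟩).symm
  · simp only [mem_coe, SimpleGraph.mem_neighborFinset] at hy ⊢
    have := (G.adj_smul (G.gOf x) _ _).2 hy
    rwa [G.gOf_smul] at this
  · simp only [mem_coe, SimpleGraph.mem_neighborFinset] at hz ⊢
    rw [← G.adj_smul (G.gOf x), G.gOf_smul, smul_inv_smul]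
    exact hz

include G in
lemma image_univ_edges (g : Γ) :
    Sym2.map (G.act g) '' (Set.univ : Set (Sym2 W)) = Set.univ :=
  Set.image_univ_of_surjective fun e => by
    induction e with
    | h a b => exact ⟨s((G.act g).symm a, (G.act g).symm b), by simp⟩

variable [DecidableEq W]

/-- Translation invariance. -/
lemma conn_smul (p : ℝ) (g : Γ) (x : W) (T : Set W) :
    G.conn p (g • x) ((fun v => g • v) '' T) = G.conn p x T := by
  have h := prob_connTo_iso (p := p) (G.act g) Set.univ x T
  rw [G.image_univ_edges g] at h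
  exact h

include G in
lemma mean_smul (p : ℝ) (g : Γ) (x : W) (T : Set W) :
    mean H p Set.univ (g • x) ((fun v => g • v) '' T) = mean H p Set.univ x T := by
  have h := mean_iso (p := p) (G.act g) Set.univ x T
  rw [G.image_univ_edges g] at h
  exact h

lemma conn_mono {p : ℝ} (h0 : 0 ≤ p) (h1 : p ≤ 1) (x : W) {T T' : Set W} (h : T ⊆ T') :
    G.conn p x T ≤ G.conn p x T' :=
  prob_connTo_mono h0 h1 subset_rfl h x

lemma conn_le_one {p : ℝ} (h0 : 0 ≤ p) (h1 : p ≤ 1) (x : W) (T : Set W) : G.conn p x T ≤ 1 :=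
  prob_le_one h0 h1 _

/-- Moving the starting point along finitely many fixed pairs, after any translation, costs a
bounded power of the parameter. -/
lemma exists_move (hH : H.Connected) (F : Finset (W × W)) : ∃ ℓ : ℕ, ∀ a b, (a, b) ∈ F →
    ∀ (p : ℝ), 0 ≤ p → p ≤ 1 → ∀ (g : Γ) (T : Set W),
      ENNReal.ofReal p ^ ℓ * G.conn p (g • b) T ≤ G.conn p (g • a) T := by
  classical
  let wk : ∀ e : W × W, H.Walk e.1 e.2 := fun e => (hH.preconnected e.1 e.2).some
  refine ⟨F.sup fun e => (wk e).length, fun a b hab p h0 h1 g T => ?_⟩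
  have hlen : ((wk (a, b)).map (G.act g).toHom).length ≤ F.sup fun e => (wk e).length := by
    rw [SimpleGraph.Walk.length_map]
    exact Finset.le_sup (f := fun e => (wk e).length) hab
  refine le_trans (mul_le_mul' (pow_le_pow_of_le_one (zero_le)
    (ENNReal.ofReal_le_one.2 h1) hlen) le_rfl) ?_
  exact walk_mul_le h0 h1 ((wk (a, b)).map (G.act g).toHom) (fun _ _ => trivial) T

omit [PseudoMetricSpace X] in
lemma mean_mono {p : ℝ} (x : W) {T T' : Set W} (h : T ⊆ T') :
    mean H p Set.univ x T ≤ mean H p Set.univ x T' := by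
  simp only [mean, tsum_subtype T fun y => prob H p (connTo Set.univ x {y}),
    tsum_subtype T' fun y => prob H p (connTo Set.univ x {y})]
  exact ENNReal.tsum_le_tsum fun y => Set.indicator_le_indicator_of_subset h (fun _ => zero_le) y

omit [PseudoMetricSpace X] in
lemma mean_union_le {p : ℝ} (x : W) {ι : Type*} (T : ι → Set W) :
    mean H p Set.univ x (⋃ i, T i) ≤ ∑' i, mean H p Set.univ x (T i) :=
  ENNReal.tsum_iUnion_le_tsum (fun y => prob H p (connTo Set.univ x {y})) T

end Vale.Agent.P165.Hyp.Geo
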