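import Vale.Agent.P165.Hyp.Cones
import Vale.Agent.P165.Hyp.Basic
import Vale.Agent.P165.Quot.Continue
import Vale.Agent.P165.Uniq

/-!
Exponential decay of the sectors bounds the susceptibility tilted by a horofunction, up to and
beyond the threshold, and so gives a nonuniqueness phase.
-/

open Finset Filter Topology
open scoped ENNReal unitInterval

namespace Vale.Agent.P165.Hyp.Geo

open Vale.Agent.P165.Quot

variable {W X Γ : Type*} [PseudoMetricSpace X] [Group Γ] [MulAction Γ W] [MulAction Γ X]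
  {H : SimpleGraph W} (G : Geo (X := X) (Γ := Γ) H)

/-- A horofunction of a direction: a limit of differences of distances. -/
lemma exists_horo : ∃ h : X → ℝ, ∀ (A : Finset X) (m : ℕ), ∃ n, m ≤ n ∧ ∀ a ∈ A,
    |(dist G.x₀ (G.pt (G.S 0 ^ n)) - dist a (G.pt (G.S 0 ^ n))) - h a| ≤ 1 := by
  set u : X → ℕ → ℝ := fun a n => dist G.x₀ (G.pt (G.S 0 ^ n)) - dist a (G.pt (G.S 0 ^ n)) with hu
  have hb : ∀ a n, u a n ∈ Set.Icc (-dist G.x₀ a) (dist G.x₀ a) := fun a n => by
    have h1 := dist_triangle G.x₀ a (G.pt (G.S 0 ^ n))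
    have h2 := dist_triangle a G.x₀ (G.pt (G.S 0 ^ n))
    rw [dist_comm a G.x₀] at h2
    simp only [hu, Set.mem_Icc]
    constructor <;> linarith
  have hlim : ∀ a, ∃ l : ℝ, Tendsto (u a) (hyperfilter ℕ) (𝓝 l) := fun a => by
    obtain ⟨l, -, hl⟩ := (isCompact_Icc (a := -dist G.x₀ a) (b := dist G.x₀ a)).ultrafilter_le_nhds
      ((hyperfilter ℕ).map (u a)) (by
        rw [Ultrafilter.coe_map, le_principal_iff, Filter.mem_map]
        exact univ_mem' (hb a))
    exact ⟨l, hl⟩
  choose h hh using hlim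
  refine ⟨h, fun A m => ?_⟩
  have hev : ∀ᶠ n in (hyperfilter ℕ : Filter ℕ), m ≤ n ∧ ∀ a ∈ A, |u a n - h a| ≤ 1 := by
    refine Filter.Eventually.and (Nat.hyperfilter_le_atTop (eventually_ge_atTop m)) ?_
    rw [Finset.eventually_all]
    intro a _
    filter_upwards [(hh a).eventually (Metric.closedBall_mem_nhds (h a) one_pos)] with n hn
    simpa [Real.dist_eq] using hn
  exact hev.exists

/-- The horofunction grows along the direction, up to an additive constant. -/
lemma horo_pow_ge {h : X → ℝ} (hh : ∀ (A : Finset X) (m : ℕ), ∃ n, m ≤ n ∧ ∀ a ∈ A,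
    |(dist G.x₀ (G.pt (G.S 0 ^ n)) - dist a (G.pt (G.S 0 ^ n))) - h a| ≤ 1) (m : ℕ) (z : X) :
    dist G.x₀ (G.pt (G.S 0 ^ m)) - 2 * (G.C + 2 * G.δ) - dist G.x₀ z - 1 ≤
      h (G.S 0 ^ m • z) := by
  obtain ⟨n, hn, hA⟩ := hh {G.S 0 ^ m • z} m
  have h1 := (abs_le.1 (hA _ (mem_singleton_self _))).2
  set o := G.x₀
  set a := G.pt (G.S 0 ^ m)
  set b := G.pt (G.S 0 ^ n)
  have hadd := gp_add o b a
  have hgp : gp a b o ≤ G.C + 2 * G.δ := by
    have e := G.gp_smul (G.S 0 ^ m) o (G.pt (G.S 0 ^ (n - m))) (G.pt ((G.S 0)⁻¹ ^ m))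
    rw [← G.pt_mul, ← G.pt_mul, ← pow_add, Nat.add_sub_cancel' hn, inv_pow, mul_inv_cancel,
      G.pt_one] at e
    rw [show a = G.S 0 ^ m • o from rfl, e, ← inv_pow]
    exact G.gp_pow_le 0 (n - m) m
  have hd := dist_eq_gp o a b
  rw [gp_comm o a b] at hd
  have ht : dist (G.S 0 ^ m • z) b ≤ dist o z + dist a b := by
    refine (dist_triangle (G.S 0 ^ m • z) a b).trans (le_of_eq ?_)
    rw [show a = G.S 0 ^ m • o from rfl, G.iso, dist_comm z o]
  linarith

variable [DecidableEq W]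

/-- One tilted sum, grouped by distance and product. -/
lemma tilted_le {q A c lam : ℝ} (h0 : 0 ≤ q) (h1 : q ≤ 1) (hA : 0 ≤ A) (hlam : 0 ≤ lam)
    (hS : G.SectBd q (fun s => A * Real.exp (-c * s))) {h : X → ℝ}
    (hh : ∀ (F : Finset X) (m : ℕ), ∃ n, m ≤ n ∧ ∀ a ∈ F,
      |(dist G.x₀ (G.pt (G.S 0 ^ n)) - dist a (G.pt (G.S 0 ^ n))) - h a| ≤ 1)
    (hs1 : Summable fun k : ℕ => ((k : ℝ) + 1) * Real.exp (-lam * k))
    (hs2 : Summable fun s : ℕ => Real.exp (-(c - 2 * lam) * s))
    (v : W) (Λ : Finset W) {U : Finset (Sym2 W)} (hU : ↑U ⊆ H.edgeSet) :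
    ∑ z ∈ Λ, Real.exp (lam * (h (G.proj z) - h (G.proj v))) * pr q U (fun T => z ∈ cl {v} T) ≤
      A * Real.exp (4 * lam) * (∑' k : ℕ, ((k : ℝ) + 1) * Real.exp (-lam * k)) *
        ∑' s : ℕ, Real.exp (-(c - 2 * lam) * s) := by
  classical
  obtain ⟨n, -, hn⟩ := hh ((insert v Λ).image G.proj) 0
  set y := G.pt (G.S 0 ^ n) with hy
  let key : W → ℕ × ℕ := fun z =>
    (⌊dist (G.proj v) (G.proj z)⌋₊, ⌊gp (G.proj v) (G.proj z) y⌋₊)
  let g : ℕ × ℕ → ℝ := fun ks => A * Real.exp (4 * lam) *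
    (((ks.1 : ℝ) + 1) * Real.exp (-lam * ks.1)) * Real.exp (-(c - 2 * lam) * ks.2)
  have hterm : ∀ ks ∈ Λ.image key,
      ∑ z ∈ Λ with key z = ks, Real.exp (lam * (h (G.proj z) - h (G.proj v))) *
        pr q U (fun T => z ∈ cl {v} T) ≤ g ks := by
    rintro ⟨k, s⟩ -
    have hsum : ∑ z ∈ Λ with key z = (k, s), pr q U (fun T => z ∈ cl {v} T) ≤
        ((k : ℝ) + 1) * (A * Real.exp (-c * s)) := by
      have h3 := mean_ge_pr (H := H) h0 h1 Set.univ v (G.sect v y s k) hU
        ({z ∈ Λ | key z = (k, s)}) fun z hz => by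
          obtain ⟨-, hz⟩ := mem_filter.1 hz
          simp only [key, Prod.mk.injEq] at hz
          refine ⟨?_, ?_, ?_⟩
          · rw [← hz.1]; exact Nat.floor_le dist_nonneg
          · rw [← hz.1]; exact Nat.lt_floor_add_one _
          · rw [← hz.2]; exact Nat.floor_le (gp_nonneg _ _ _)
      have h4 := h3.trans (hS v y s k)
      rw [ENNReal.ofReal_le_ofReal_iff (by positivity)] at h4
      refine le_trans (le_of_eq (sum_congr rfl fun z _ => ?_)) h4
      congr 1
      funext S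
      have hS' : inPart Set.univ S = S := by ext e; simp [mem_inPart]
      simp [connTo, hS']
    calc ∑ z ∈ Λ with key z = (k, s), Real.exp (lam * (h (G.proj z) - h (G.proj v))) *
          pr q U (fun T => z ∈ cl {v} T)
        ≤ ∑ z ∈ Λ with key z = (k, s), Real.exp (lam * (2 * s + 4 - k)) *
          pr q U (fun T => z ∈ cl {v} T) := by
          refine sum_le_sum fun z hz => mul_le_mul_of_nonneg_right (Real.exp_le_exp.2
            (mul_le_mul_of_nonneg_left ?_ hlam)) (pr_nonneg h0 h1 _ _)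
          obtain ⟨hz, hzk⟩ := mem_filter.1 hz
          simp only [key, Prod.mk.injEq] at hzk
          have a1 := (abs_le.1 (hn _ (mem_image_of_mem _ (mem_insert_of_mem hz)))).1
          have a2 := (abs_le.1 (hn _ (mem_image_of_mem _ (mem_insert_self v Λ)))).2
          have a3 : dist (G.proj z) y = dist (G.proj v) (G.proj z) + dist (G.proj v) y -
              2 * gp (G.proj v) (G.proj z) y := dist_eq_gp _ _ _
          have a4 := Nat.lt_floor_add_one (gp (G.proj v) (G.proj z) y)
          have a5 := Nat.floor_le (dist_nonneg (x := G.proj v) (y := G.proj z))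
          rw [hzk.2] at a4
          rw [hzk.1] at a5
          linarith
      _ ≤ Real.exp (lam * (2 * s + 4 - k)) * (((k : ℝ) + 1) * (A * Real.exp (-c * s))) := by
          rw [← mul_sum]
          exact mul_le_mul_of_nonneg_left hsum (Real.exp_nonneg _)
      _ = g (k, s) := by
          simp only [g]
          rw [show lam * (2 * (s : ℝ) + 4 - k) = 4 * lam + -lam * k + 2 * lam * s by ring,
            Real.exp_add, Real.exp_add,
            show -(c - 2 * lam) * (s : ℝ) = -c * s + 2 * lam * s by ring, Real.exp_add]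
          ring
  rw [← sum_fiberwise_of_maps_to fun z hz => mem_image_of_mem key hz]
  refine (sum_le_sum hterm).trans ?_
  have hg : ∀ ks, 0 ≤ g ks := fun ks => by positivity
  refine (sum_le_sum_of_subset_of_nonneg (subset_product (s := Λ.image key))
    fun ks _ _ => hg ks).trans ?_
  rw [sum_product]
  simp only [g, ← mul_sum, ← sum_mul]
  gcongr
  · exact hs1.sum_le_tsum _ fun k _ => by positivity
  · exact hs2.sum_le_tsum _ fun s _ => Real.exp_nonneg _

variable [H.LocallyFinite]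

/-- Uniform exponential decay below the threshold gives a nonuniqueness phase. -/
theorem pc_lt_pu_of_decay (hH : H.Connected) (hpc : 0 < pc H) (hpc1 : pc H < 1) {A c : ℝ}
    (hc : 0 < c)
    (h : ∀ p, pc H / 2 ≤ p → p < pc H → G.SectBd p (fun s => A * Real.exp (-c * s))) :
    pc H < pu H := by
  classical
  have := G.infinite
  obtain ⟨ho, hho⟩ := G.exists_horo
  set lam := c / 4 with hlam
  have hlam0 : 0 < lam := by positivity
  have hs1 : Summable fun k : ℕ => ((k : ℝ) + 1) * Real.exp (-lam * k) := by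
    have h0 : Summable fun k : ℕ => Real.exp (-lam * k) := by
      simpa using Real.summable_pow_mul_exp_neg_nat_mul 0 hlam0
    have h1 : Summable fun k : ℕ => (k : ℝ) * Real.exp (-lam * k) := by
      simpa using Real.summable_pow_mul_exp_neg_nat_mul 1 hlam0
    exact (h1.add h0).congr fun k => by ring
  have hs2 : Summable fun s : ℕ => Real.exp (-(c - 2 * lam) * s) := by
    simpa using Real.summable_pow_mul_exp_neg_nat_mul 0 (show 0 < c - 2 * lam by linarith)
  set B := max A 0 * Real.exp (4 * lam) * (∑' k : ℕ, ((k : ℝ) + 1) * Real.exp (-lam * k)) *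
    ∑' s : ℕ, Real.exp (-(c - 2 * lam) * s)
  set f : W → W → ℝ := fun a b => Real.exp (lam * (ho (G.proj b) - ho (G.proj a))) with hf
  have hf0 : ∀ a b, 0 ≤ f a b := fun a b => Real.exp_nonneg _
  have hfm : ∀ a b e, f a e ≤ f a b * f b e := fun a b e => by
    simp only [hf]
    rw [← Real.exp_add]
    exact le_of_eq (congrArg Real.exp (by ring))
  have hbound : ∀ (v : W) (Λ : Finset W) (U : Finset (Sym2 W)), ↑U ⊆ H.edgeSet →
      ∑ z ∈ Λ, f v z * pr (pc H) U (fun T => z ∈ cl {v} T) ≤ B := by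
    intro v Λ U hU
    have hcont : Continuous fun q : ℝ => ∑ z ∈ Λ, f v z * pr q U (fun T => z ∈ cl {v} T) :=
      continuous_finsetSum _ fun z _ => continuous_const.mul
        (continuous_iff_continuousAt.2 fun q => (hasDerivAt_pr q U _).continuousAt)
    refine le_of_tendsto ((hcont.tendsto (pc H)).mono_left
      (nhdsWithin_le_nhds (s := Set.Iio (pc H)))) ?_
    filter_upwards [Ioo_mem_nhdsLT (show pc H / 2 < pc H by linarith)] with q hq
    have hq0 : 0 ≤ q := by linarith [hq.1]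
    refine G.tilted_le hq0 (hq.2.le.trans hpc1.le) (le_max_right _ _) hlam0.le ?_ hho hs1 hs2 v Λ hU
    exact fun x y s k => (h q hq.1.le hq.2 x y s k).trans (ENNReal.ofReal_le_ofReal
      (mul_le_mul_of_nonneg_left (mul_le_mul_of_nonneg_right (le_max_left _ _)
        (Real.exp_nonneg _)) (by positivity)))
  obtain ⟨D, hD⟩ := G.degree_bound
  have hlip : ∀ a b, ho a - ho b ≤ dist a b + 2 := fun a b => by
    obtain ⟨n, -, hn⟩ := hho {a, b} 0
    have h1 := (abs_le.1 (hn a (by simp))).1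
    have h2 := (abs_le.1 (hn b (by simp))).2
    have := dist_triangle b a (G.pt (G.S 0 ^ n))
    rw [dist_comm b a] at this
    linarith
  have hL : ∀ x y, H.Adj x y → f x y ≤ Real.exp (lam * (G.L + 2)) := by
    intro x y hxy
    refine Real.exp_le_exp.2 (mul_le_mul_of_nonneg_left ?_ hlam0.le)
    have h1 := hlip (G.proj y) (G.proj x)
    have h2 := G.jump x y hxy
    rw [dist_comm] at h1
    linarith
  obtain ⟨q, hpq, hq1, C', hC'⟩ := tilt_open_uniform hf0 hfm hpc.le hpc1 hD hL hbound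
  refine Vale.Agent.P165.pc_lt_pu_of_decay hH (q := ⟨q, hpc.le.trans hpq.le, hq1.le⟩) hpq ?_
  refine connDecay_of_tilt (hpc.le.trans hpq.le) hq1.le hC' fun P x M => ?_
  obtain ⟨T, hT⟩ := (P.image fun a => ho (G.proj a)).bddAbove
  set N := Real.log (max M 2) / lam + T + 2 * (G.C + 2 * G.δ) + dist G.x₀ (G.proj x) + 1
  obtain ⟨hC, hδ, hR, hD', hl⟩ := G.len_bounds 0
  obtain ⟨m, hm⟩ := exists_nat_gt (N / (G.len 0 - 2 * (G.C + 2 * G.δ)))
  rw [div_lt_iff₀ (by linarith)] at hm
  have hbig : ∀ a ∈ P, max M 2 ≤ f a (G.act (G.S 0 ^ m) x) := by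
    intro a ha
    have h1 := G.horo_pow_ge hho m (G.proj x)
    have h2 := G.dist_pow_ge 0 m
    have h3 : ho (G.proj a) ≤ T :=
      hT (Finset.mem_coe.2 (mem_image_of_mem (fun a => ho (G.proj a)) ha))
    simp only [hf, act_apply, G.proj_smul]
    calc max M 2 = Real.exp (Real.log (max M 2)) :=
          (Real.exp_log (lt_max_of_lt_right two_pos)).symm
      _ ≤ _ := by
          refine Real.exp_le_exp.2 ?_
          rw [mul_comm, ← div_le_iff₀ hlam0]
          linarith
  refine ⟨G.act (G.S 0 ^ m), fun hmem => ?_, fun a ha => (le_max_left _ _).trans (hbig a ha)⟩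
  have := (le_max_right _ _).trans (hbig _ hmem)
  simp [hf] at this

end Vale.Agent.P165.Hyp.Geo
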