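import Vale.Agent.P165.Hyp.Cones
import Vale.Agent.P165.Hyp.Basic
import Vale.Agent.P165.Tree.Wkn

/-!
One block, iterated, gives targets at logarithmic distance with a large truncated sum in every
admissible partition.
-/

open Finset
open scoped ENNReal

namespace Vale.Agent.P165.Hyp.Geo

open Vale.Agent.P165.Quot

variable {W X Γ : Type*} [PseudoMetricSpace X] [Group Γ] [MulAction Γ W] [MulAction Γ X]
  {H : SimpleGraph W} (G : Geo (X := X) (Γ := Γ) H)

open scoped Classical in
/-- The group elements of all blocks up to depth `j`. -/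
noncomputable def tree {m : ℕ} (el : Fin m → Finset Γ) : ℕ → Finset Γ
  | 0 => {1}
  | j + 1 => insert 1 (univ.biUnion fun i => (el i).biUnion fun g => (tree el j).image (g * ·))

lemma one_mem_tree {m : ℕ} (el : Fin m → Finset Γ) : ∀ j, (1 : Γ) ∈ tree el j
  | 0 => by simp [tree]
  | j + 1 => by simp [tree]

lemma dist_tree_le {m : ℕ} {el : Fin m → Finset Γ} {R : ℝ}
    (hR : ∀ i, ∀ g ∈ el i, dist G.x₀ (G.pt g) ≤ R) (hR0 : 0 ≤ R) :
    ∀ j, ∀ h ∈ tree el j, dist G.x₀ (G.pt h) ≤ (j : ℝ) * R := by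
  classical
  intro j
  induction j with
  | zero =>
    intro h hh
    simp only [tree, mem_singleton] at hh
    simp [hh, G.pt_one]
  | succ j ih =>
    intro h hh
    simp only [tree, mem_insert, mem_biUnion, mem_univ, true_and, mem_image] at hh
    rcases hh with rfl | ⟨i, g, hg, h', hh', rfl⟩
    · rw [G.pt_one, dist_self]; positivity
    · have e : dist (G.pt g) (G.pt (g * h')) = dist G.x₀ (G.pt h') := by
        conv_lhs => arg 1; rw [← mul_one g]
        rw [G.dist_pt_mul, G.pt_one]
      have := dist_triangle G.x₀ (G.pt g) (G.pt (g * h'))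
      have := hR i g hg
      have := ih h' hh'
      push_cast
      linarith

variable [DecidableEq W]

/-- Targets reached from a set where the truncated sum is at least `a`. -/
lemma kn_min {ι : Type*} {p : ℝ} (h0 : 0 ≤ p) (h1 : p ≤ 1) (x : W) (B : Set W) (T : ι → Set W)
    {κ X a : ℝ≥0∞} (hκ0 : κ ≠ 0) (hκt : κ ≠ ⊤) (hκ : κ ≤ prob H p (connTo Set.univ x B))
    (ha : ∀ u ∈ B, a ≤ ∑' i, min (prob H p (connTo Set.univ u (T i))) (X / κ)) :
    κ * a ≤ ∑' i, min (prob H p (connTo Set.univ x (T i))) X := by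
  classical
  let P : W → Set W → ℝ≥0∞ := fun u S => prob H p (connTo Set.univ u S)
  let T' : ι → Set W := fun i => if P x (T i) < X then T i else ∅
  let D : ι → ℝ≥0∞ := fun i => if P x (T i) < X then 0 else X
  have hempty : ∀ u, P u ∅ = 0 := fun u =>
    le_antisymm ((prob_le (c := 0) fun U _ => by simp [connTo, pr])) zero_le
  have hx : ∀ i, min (P x (T i)) X = P x (T' i) + D i := fun i => by
    by_cases h : P x (T i) < X
    · simp [T', D, if_pos h, min_eq_left h.le]
    · simp [T', D, if_neg h, min_eq_right (not_lt.1 h), hempty]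
  have hu : ∀ u i, min (P u (T i)) (X / κ) ≤ P u (T' i) + D i / κ := fun u i => by
    by_cases h : P x (T i) < X
    · simp [T', D, if_pos h]
    · simp [T', D, if_neg h, hempty]
  set N := ∑' i, D i / κ with hN
  have hc : ∀ u ∈ B, a - N ≤ ∑' i, P u (T' i) ^ (1 : ℝ) := fun u hu' => by
    rw [tsub_le_iff_right]
    simp only [ENNReal.rpow_one]
    rw [hN, ← ENNReal.tsum_add]
    exact (ha u hu').trans (ENNReal.tsum_le_tsum (hu u))
  have hKN := Tree.prob_rpow_mul_le_tsum (H := H) h0 h1 one_pos le_rfl Set.univ x B T' hc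
  simp only [ENNReal.rpow_one] at hKN
  calc κ * a ≤ κ * (a - N + N) := mul_le_mul' le_rfl le_tsub_add
    _ = κ * (a - N) + κ * N := mul_add _ _ _
    _ ≤ ∑' i, P x (T' i) + ∑' i, D i := by
        refine add_le_add ((mul_le_mul' hκ le_rfl).trans hKN) (le_of_eq ?_)
        rw [hN, ← ENNReal.tsum_mul_left]
        exact tsum_congr fun i => ENNReal.mul_div_cancel hκ0 hκt
    _ = ∑' i, min (P x (T i)) X := by rw [← ENNReal.tsum_add]; exact tsum_congr fun i => (hx i).symm

/-- One block gives the launch bound. -/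
theorem launch_of_block {p t : ℝ} (hp : 0 < p) (hp1 : p ≤ 1) (ht : 0 < t) (_ : t ≤ 1)
    (B : G.Block p t) : G.Launch p t := by
  classical
  obtain ⟨σ, m, el, region, κ, M, hM, hκ, hκ2, hhit, hcone, hball, hsub, hmult, hbig⟩ := B
  have : Nonempty (Fin m) := by
    by_contra hne
    rw [not_nonempty_iff] at hne
    have : (0 : ℝ) < M := by exact_mod_cast hM
    simp at hbig
    linarith
  set km := univ.inf' univ_nonempty κ with hkm
  have hkm0 : 0 < km := (Finset.lt_inf'_iff _).2 fun i _ => hκ i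
  have hkm_le : ∀ i, km ≤ κ i := fun i => Finset.inf'_le κ (mem_univ i)
  have hkm1 : km ≤ 1 := by
    obtain ⟨i⟩ := (inferInstance : Nonempty (Fin m))
    linarith [hkm_le i, hκ2 i]
  -- every deep element sees its ball inside the cone
  have hinv : ∀ j, ∀ h ∈ tree el j, h = 1 ∨ ∀ z, dist z (G.pt h) ≤ G.Rc → z ∈ G.cone 1 σ := by
    intro j
    induction j with
    | zero => intro h hh; exact .inl (by simpa [tree] using hh)
    | succ j ih =>
      intro h hh
      simp only [tree, mem_insert, mem_biUnion, mem_univ, true_and, mem_image] at hh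
      rcases hh with rfl | ⟨i, g, hg, h', hh', rfl⟩
      · exact .inl rfl
      refine .inr fun z hz => hsub i ?_
      rcases ih h' hh' with rfl | hin
      · exact hball i g hg z (by rwa [mul_one] at hz)
      · refine hcone i g hg ?_
        have := (G.smul_mem_cone_iff g 1 σ (g⁻¹ • z)).2 (hin _ ?_)
        · rwa [smul_inv_smul, mul_one] at this
        · rw [← G.iso g, smul_inv_smul, ← G.pt_mul]
          exact hz
  let tgt : Finset Γ → (W → W) → W → Set W := fun T cl' q =>
    {v | (∃ g ∈ T, g • G.r₀ = v) ∧ cl' v = q}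
  have main : ∀ (j : ℕ) (Z : ℝ), (1 / 2) ^ j ≤ Z → Z ≤ 1 → ∀ cl' : W → W, G.Adm cl' →
      ENNReal.ofReal (km ^ t * Z ^ (1 - t)) ≤
        ∑' q, min (G.conn p G.r₀ (tgt (tree el j) cl' q)) (ENNReal.ofReal Z) := by
    intro j
    induction j with
    | zero =>
      intro Z hZ hZ1 cl' _
      refine le_trans ?_ (ENNReal.le_tsum (cl' G.r₀))
      have hmem : G.r₀ ∈ tgt (tree el 0) cl' (cl' G.r₀) := ⟨⟨1, one_mem_tree el 0, one_smul _ _⟩, rfl⟩
      rw [Geo.conn, prob_connTo_self hp.le hp1 _ hmem, min_eq_right (ENNReal.ofReal_le_one.2 hZ1)]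
      refine ENNReal.ofReal_le_ofReal ?_
      simp only [pow_zero] at hZ
      rw [le_antisymm hZ1 hZ, Real.one_rpow, mul_one]
      exact Real.rpow_le_one hkm0.le hkm1 ht.le
    | succ j ih =>
      intro Z hZ hZ1 cl' hcl
      have hZ0 : 0 < Z := lt_of_lt_of_le (by positivity) hZ
      by_cases hkZ : km ≤ Z
      · refine le_trans ?_ (ENNReal.le_tsum (cl' G.r₀))
        have hmem : G.r₀ ∈ tgt (tree el (j + 1)) cl' (cl' G.r₀) :=
          ⟨⟨1, one_mem_tree el _, one_smul _ _⟩, rfl⟩
        rw [Geo.conn, prob_connTo_self hp.le hp1 _ hmem,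
          min_eq_right (ENNReal.ofReal_le_one.2 hZ1)]
        refine ENNReal.ofReal_le_ofReal ?_
        calc km ^ t * Z ^ (1 - t) ≤ Z ^ t * Z ^ (1 - t) :=
              mul_le_mul_of_nonneg_right (Real.rpow_le_rpow hkm0.le hkZ ht.le)
                (Real.rpow_nonneg hZ0.le _)
          _ = Z := by rw [← Real.rpow_add hZ0]; norm_num
      push Not at hkZ
      let S : Fin m → W → Set W := fun i q =>
        {v | (∃ g ∈ el i, ∃ h ∈ tree el j, (g * h) • G.r₀ = v) ∧ cl' v = q}
      set T := tgt (tree el (j + 1)) cl' with hT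
      have hST : ∀ i q, S i q ⊆ T q := by
        rintro i q v ⟨⟨g, hg, h, hh, rfl⟩, hv⟩
        refine ⟨⟨g * h, ?_, rfl⟩, hv⟩
        simp only [tree, mem_insert, mem_biUnion, mem_univ, true_and, mem_image]
        exact .inr ⟨i, g, hg, h, hh, rfl⟩
      have hchild : ∀ i, ENNReal.ofReal (κ i) * ENNReal.ofReal (km ^ t * (Z / κ i) ^ (1 - t)) ≤
          ∑' q, min (G.conn p G.r₀ (S i q)) (ENNReal.ofReal Z) := by
        intro i
        refine kn_min hp.le hp1 _ _ _ (by simpa using hκ i) ENNReal.ofReal_ne_top (hhit i) ?_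
        rintro _ ⟨g, hg, rfl⟩
        have hcl' : G.Adm fun a => cl' (g • a) := fun a b hab => by
          have := G.rel_smul g⁻¹ _ _ (hcl _ _ hab)
          simpa using this
        refine le_trans (ih (Z / κ i) ?_ ?_ _ hcl') (ENNReal.tsum_le_tsum fun q => ?_)
        · rw [le_div_iff₀ (hκ i)]
          refine le_trans ?_ hZ
          rw [pow_succ]
          exact mul_le_mul_of_nonneg_left (hκ2 i) (by positivity)
        · rw [div_le_one (hκ i)]
          exact hkZ.le.trans (hkm_le i)
        · rw [← ENNReal.ofReal_div_of_pos (hκ i)]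
          refine min_le_min ?_ le_rfl
          rw [← G.conn_smul p g]
          refine G.conn_mono hp.le hp1 _ ?_
          rintro _ ⟨v, ⟨⟨h, hh, rfl⟩, hv⟩, rfl⟩
          exact ⟨⟨g, hg, h, hh, mul_smul _ _ _⟩, hv⟩
      have hmulti : ∀ q, ∑ i, min (G.conn p G.r₀ (S i q)) (ENNReal.ofReal Z) ≤
          (M : ℝ≥0∞) * min (G.conn p G.r₀ (T q)) (ENNReal.ofReal Z) := by
        intro q
        set J : Finset (Fin m) := {i | (S i q).Nonempty}
        rw [← Finset.sum_subset (subset_univ J) fun i _ hi => ?_]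
        · refine (sum_le_card_nsmul _ _ _ fun i _ =>
            min_le_min (G.conn_mono hp.le hp1 _ (hST i q)) le_rfl).trans ?_
          rw [nsmul_eq_mul]
          refine mul_le_mul' (Nat.cast_le.2 ?_) le_rfl
          rcases J.eq_empty_or_nonempty with he | ⟨i₀, hi₀⟩
          · simp [he]
          obtain ⟨v₀, -, hv₀⟩ := (mem_filter.1 hi₀).2
          refine le_trans ?_ (hmult (G.proj v₀))
          rw [← Set.ncard_coe_finset]
          refine Set.ncard_le_ncard (fun i hi => ?_) (Set.toFinite _)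
          obtain ⟨v, ⟨g, hg, h, hh, rfl⟩, hv⟩ := (mem_filter.1 (Finset.mem_coe.1 hi)).2
          have hd : dist (G.proj v₀) (G.pt (g * h)) ≤ G.Rc := by
            rw [← G.proj_smul_r₀]
            exact G.rel_dist _ _ (hcl _ _ (hv₀.trans hv.symm))
          rcases hinv j h hh with rfl | hin
          · exact hball i g hg _ (by rwa [mul_one] at hd)
          · refine hcone i g hg ?_
            have := (G.smul_mem_cone_iff g 1 σ (g⁻¹ • G.proj v₀)).2 (hin _ ?_)
            · rwa [smul_inv_smul, mul_one] at this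
            · rw [← G.iso g, smul_inv_smul, ← G.pt_mul]
              exact hd
        · have he : S i q = ∅ := Set.not_nonempty_iff_eq_empty.1 fun h => hi (by simp [J, h])
          rw [he]
          simp [Geo.conn, prob, connTo, pr]
      have hsum : ∑ i, ENNReal.ofReal (κ i) * ENNReal.ofReal (km ^ t * (Z / κ i) ^ (1 - t)) ≤
          (M : ℝ≥0∞) * ∑' q, min (G.conn p G.r₀ (T q)) (ENNReal.ofReal Z) := by
        refine (sum_le_sum fun i _ => hchild i).trans ?_
        rw [← Summable.tsum_finsetSum fun i _ => ENNReal.summable, ← ENNReal.tsum_mul_left]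
        exact ENNReal.tsum_le_tsum hmulti
      refine (ENNReal.mul_le_mul_iff_right (a := (M : ℝ≥0∞)) (by exact_mod_cast hM.ne')
        (ENNReal.natCast_ne_top _)).1 (le_trans ?_ hsum)
      have e : ∀ i, ENNReal.ofReal (κ i) * ENNReal.ofReal (km ^ t * (Z / κ i) ^ (1 - t)) =
          ENNReal.ofReal (km ^ t * Z ^ (1 - t) * κ i ^ t) := fun i => by
        rw [← ENNReal.ofReal_mul (hκ i).le, Real.div_rpow hZ0.le (hκ i).le]
        congr 1
        have h1 : κ i ^ t * κ i ^ (1 - t) = κ i := by rw [← Real.rpow_add (hκ i)]; norm_num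
        have h2 : 0 < κ i ^ (1 - t) := Real.rpow_pos_of_pos (hκ i) _
        rw [show κ i ^ t = κ i / κ i ^ (1 - t) from (eq_div_iff h2.ne').2 h1]
        ring
      rw [sum_congr rfl fun i _ => e i, ← ENNReal.ofReal_sum_of_nonneg fun i _ => by
        have := hκ i; positivity, ← mul_sum, ← ENNReal.ofReal_natCast, ← ENNReal.ofReal_mul (Nat.cast_nonneg _)]
      refine ENNReal.ofReal_le_ofReal ?_
      rw [mul_comm (M : ℝ)]
      exact mul_le_mul_of_nonneg_left hbig (by positivity)
  -- distances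
  let allEl : Finset Γ := univ.biUnion el
  obtain ⟨R, hR⟩ := (allEl.image fun g => dist G.x₀ (G.pt g)).bddAbove
  have hR' : ∀ i, ∀ g ∈ el i, dist G.x₀ (G.pt g) ≤ max R 0 := fun i g hg =>
    (hR (Finset.mem_coe.2 (mem_image_of_mem _ (mem_biUnion.2 ⟨i, mem_univ _, hg⟩)))).trans
      (le_max_left _ _)
  have hl2 : 0 < Real.log 2 := Real.log_pos one_lt_two
  have hl21 : Real.log 2 ≤ 1 := Real.log_two_lt_d9.le.trans (by norm_num)
  refine ⟨km ^ t, max R 0 / Real.log 2, Real.rpow_pos_of_pos hkm0 _, by positivity, fun Y hY => ?_⟩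
  have hY0 : 0 < Y := lt_of_lt_of_le one_pos hY
  set j := ⌈Real.log Y / Real.log 2⌉₊ with hj
  have hlY : 0 ≤ Real.log Y := Real.log_nonneg hY
  refine ⟨tree el j, fun g hg => (G.dist_tree_le hR' (le_max_right _ _) j g hg).trans ?_, ?_⟩
  · have h1 : (j : ℝ) ≤ Real.log Y / Real.log 2 + 1 := (Nat.ceil_lt_add_one (by positivity)).le
    have h2 : Real.log Y / Real.log 2 + 1 ≤ (Real.log Y + 1) / Real.log 2 := by
      rw [add_div]
      gcongr
      exact (one_le_div hl2).2 hl21
    calc (j : ℝ) * max R 0 ≤ ((Real.log Y + 1) / Real.log 2) * max R 0 :=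
          mul_le_mul_of_nonneg_right (h1.trans h2) (le_max_right _ _)
      _ = _ := by ring
  intro cl' hcl
  refine le_trans (le_of_eq ?_) (main j (1 / Y) ?_ ((div_le_one hY0).2 hY) cl' hcl)
  · congr 2
    rw [one_div, Real.inv_rpow hY0.le, ← Real.rpow_neg hY0.le]
    norm_num
  · rw [one_div_pow]
    gcongr
    have h1 : Real.log Y / Real.log 2 ≤ j := Nat.le_ceil _
    rw [div_le_iff₀ hl2, ← Real.log_pow] at h1
    exact (Real.log_le_log_iff hY0 (by positivity)).1 h1

end Vale.Agent.P165.Hyp.Geo
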