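import Vale.Agent.P165.Tree.ClusterTail

/-!
Short connections from a cluster, sums of weak connection chances, and the size of big clusters
below the threshold.
-/

open Finset
open scoped ENNReal

namespace Vale.Agent.P165.Hyp

open Vale.Agent.P165.Quot
open P151.Fin (ev ind away mem_away)

section Link

variable {W : Type*}

/-- Some point of `T` is within `L` open steps of `y`. -/
def shortTo (L : ℕ) (y : W) (T : Set W) (S : Finset (Sym2 W)) : Prop :=
  ∃ z ∈ T, ∃ q : (SimpleGraph.fromEdgeSet (↑S : Set (Sym2 W))).Walk y z, q.length ≤ L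

lemma incr_shortTo (L : ℕ) (y : W) (T : Set W) : Incr (shortTo L y T) :=
  fun _ _ h ⟨z, hz, q, hq⟩ =>
    ⟨z, hz, q.mapLe (SimpleGraph.fromEdgeSet_mono (Finset.coe_subset.2 h)), by simpa using hq⟩

private lemma inPart_all (S : Finset (Sym2 W)) : inPart Set.univ S = S := by
  ext e; simp [mem_inPart]

private lemma finite_cl (y : W) (S : Finset (Sym2 W)) : (cl {y} S).Finite := by
  simpa using Tree.cl_finite {y} S

private lemma mem_of_walk {y z : W} {S : Finset (Sym2 W)}
    (q : (SimpleGraph.fromEdgeSet (↑S : Set (Sym2 W))).Walk y z) : z ∈ cl {y} S :=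
  ⟨y, rfl, q.reachable⟩

/-- A path is shorter than the cluster holding it. -/
private lemma path_lt_ncard {y z : W} {S : Finset (Sym2 W)}
    {q : (SimpleGraph.fromEdgeSet (↑S : Set (Sym2 W))).Walk y z} (hq : q.IsPath) :
    q.length < (cl {y} S).ncard := by
  classical
  have h : (↑q.support.toFinset : Set W) ⊆ cl {y} S := fun v hv =>
    ⟨y, rfl, (q.takeUntil v (List.mem_toFinset.1 hv)).reachable⟩
  have := Set.ncard_le_ncard h (finite_cl y S)
  rw [Set.ncard_coe_finset, List.toFinset_card_of_nodup hq.support_nodup,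
    SimpleGraph.Walk.length_support] at this
  omega

/-- The last exit of a walk from a set. -/
private lemma last_exit {C : Set W} {S : Finset (Sym2 W)} {y z : W}
    (q : (SimpleGraph.fromEdgeSet (↑S : Set (Sym2 W))).Walk y z) (hz : z ∉ C) :
    (∃ u v, s(u, v) ∈ S ∧ u ∈ C ∧ v ∉ C ∧
        ∃ r : (SimpleGraph.fromEdgeSet (↑(away C S) : Set (Sym2 W))).Walk v z,
          r.length ≤ q.length) ∨
      (y ∉ C ∧ ∃ r : (SimpleGraph.fromEdgeSet (↑(away C S) : Set (Sym2 W))).Walk y z,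
        r.length ≤ q.length) := by
  induction q with
  | nil => exact .inr ⟨hz, .nil, le_rfl⟩
  | @cons a b c hab q ih =>
    rcases ih hz with ⟨u, v, h1, h2, h3, r, hr⟩ | ⟨hb, r, hr⟩
    · exact .inl ⟨u, v, h1, h2, h3, r, hr.trans (Nat.le_succ _)⟩
    · have he : s(a, b) ∈ S ∧ a ≠ b := by simpa using hab
      by_cases ha : a ∈ C
      · exact .inl ⟨a, b, he.1, ha, hb, r, hr.trans (Nat.le_succ _)⟩
      · have : (SimpleGraph.fromEdgeSet (↑(away C S) : Set (Sym2 W))).Adj a b := by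
          rw [SimpleGraph.fromEdgeSet_adj, Finset.mem_coe, mem_away]
          refine ⟨⟨he.1, fun v hv => ?_⟩, he.2⟩
          rcases Sym2.mem_iff.1 hv with rfl | rfl
          · exact ha
          · exact hb
        exact .inr ⟨ha, .cons this r, Nat.succ_le_succ hr⟩

/-- The edge `e` leaves the cluster `C` towards a short way to `T` away from it. -/
private def exitTo (L : ℕ) (T : Set W) (A : Set W → Prop) (e : Sym2 W) (C : Set W)
    (R : Finset (Sym2 W)) : Prop :=
  (A C ∧ ∀ z ∈ T, z ∉ C) ∧ ∃ u v, e = s(u, v) ∧ u ∈ C ∧ v ∉ C ∧ shortTo L v T R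

variable [DecidableEq W]

omit [DecidableEq W] in
private lemma exitTo_not_mem {L : ℕ} {T : Set W} {A : Set W → Prop} {e : Sym2 W} {x : W}
    {R ω : Finset (Sym2 W)} (h : exitTo L T A e (cl {x} ω) R) : e ∉ ω := by
  obtain ⟨-, u, v, rfl, hu, hv, -⟩ := h
  exact fun he => hv (cl_step hu he)

/-- After opening the exit edge few edges can have been the exit. -/
private lemma sum_exit_le {U S : Finset (Sym2 W)} {L : ℕ} {x : W} {T : Set W} {A : Set W → Prop}
    (hA : ∀ C C', C ⊆ C' → A C → A C') :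
    ∑ e ∈ U, ind (e ∈ S ∧ exitTo L T A e (cl {x} (S.erase e))
        (away (cl {x} (S.erase e)) (S.erase e))) ≤
      ((L : ℝ) + 1) * ind (A (cl {x} S) ∧ ∃ z ∈ T, z ∈ cl {x} S) := by
  classical
  set K := U.filter fun e => e ∈ S ∧ exitTo L T A e (cl {x} (S.erase e))
    (away (cl {x} (S.erase e)) (S.erase e)) with hK
  have hsum : ∑ e ∈ U, ind (e ∈ S ∧ exitTo L T A e (cl {x} (S.erase e))
      (away (cl {x} (S.erase e)) (S.erase e))) = (K.card : ℝ) := by
    rw [hK, ← sum_boole]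
    refine sum_congr rfl fun e _ => ?_
    simp [ind]
  rw [hsum]
  rcases K.eq_empty_or_nonempty with he | hne
  · rw [he, card_empty, Nat.cast_zero]
    exact mul_nonneg (by positivity) (P151.Fin.ind_nonneg _)
  obtain ⟨e₁, he₁, hmin⟩ :=
    exists_min_image K (fun e => (cl {x} (S.erase e)).ncard) hne
  obtain ⟨-, he₁S, ⟨hAC, -⟩, u, v, rfl, hu, hv, z, hz, q, hq⟩ := mem_filter.1 he₁
  have hsub : away (cl {x} (S.erase s(u, v))) (S.erase s(u, v)) ⊆ S :=
    (P151.Fin.away_subset _ _).trans (erase_subset _ _)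
  have hCS : cl {x} (S.erase s(u, v)) ⊆ cl {x} S := cl_mono subset_rfl (erase_subset _ _)
  have hzS : z ∈ cl {x} S := by
    have : cl {v} (away (cl {x} (S.erase s(u, v))) (S.erase s(u, v))) ⊆ cl {x} S :=
      cl_trans (Set.singleton_subset_iff.2 (cl_step (hCS hu) he₁S)) hsub
    exact this (mem_of_walk q)
  rw [P151.Fin.ind_true ⟨hA _ _ hCS hAC, z, hz, hzS⟩, mul_one]
  have hKsub : K ⊆ insert s(u, v) q.edges.toFinset := by
    intro e he
    rw [mem_insert, List.mem_toFinset]
    refine or_iff_not_imp_left.2 fun hne => ?_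
    by_contra hq'
    obtain ⟨-, -, ⟨-, hmiss⟩, -⟩ := mem_filter.1 he
    have hw : z ∈ cl {v} (S.erase e) := by
      refine mem_of_walk (q.transfer _ fun f hf => ?_)
      have := q.edges_subset_edgeSet hf
      rw [SimpleGraph.edgeSet_fromEdgeSet] at this ⊢
      exact ⟨Finset.mem_coe.2 (mem_erase.2 ⟨fun h => hq' (h ▸ hf), hsub this.1⟩), this.2⟩
    have hv₂ : v ∉ cl {x} (S.erase e) := fun h =>
      hmiss z hz (cl_trans (Set.singleton_subset_iff.2 h) subset_rfl hw)
    have hu₂ : u ∉ cl {x} (S.erase e) := fun h =>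
      hv₂ (cl_step h (mem_erase.2 ⟨Ne.symm hne, he₁S⟩))
    have hle : cl {x} (S.erase e) ⊆ cl {x} (S.erase e) ∩ cl {x} (S.erase s(u, v)) := by
      refine cl_subset (Set.singleton_subset_iff.2 ⟨subset_cl _ _ rfl, subset_cl _ _ rfl⟩) ?_
      intro a b ha hab
      refine ⟨cl_step ha.1 hab, cl_step ha.2 (mem_erase.2 ⟨fun h => ?_, (mem_erase.1 hab).2⟩)⟩
      rcases Sym2.eq_iff.1 h with ⟨rfl, -⟩ | ⟨rfl, -⟩
      · exact hu₂ ha.1
      · exact hv₂ ha.1
    have hlt := Set.ncard_lt_ncard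
      (Set.ssubset_iff_of_subset (fun w hw => (hle hw).2) |>.2 ⟨u, hu, hu₂⟩) (finite_cl x _)
    have := hmin e he
    omega
  have hcard : K.card ≤ L + 1 := (card_le_card hKsub).trans ((card_insert_le _ _).trans
    (Nat.succ_le_succ ((List.toFinset_card_le _).trans (q.length_edges.le.trans hq))))
  exact_mod_cast hcard

/-- Opening a closed edge. -/
private lemma mul_pr_open {U : Finset (Sym2 W)} {e : Sym2 W} (he : e ∈ U) (p : ℝ)
    (Q : Finset (Sym2 W) → Prop) (hQ : ∀ S, Q S → e ∉ S) :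
    p * ev (fun _ => p) U (fun S => ind (Q S)) =
      (1 - p) * ev (fun _ => p) U (fun S => ind (e ∈ S ∧ Q (S.erase e))) := by
  have hU : insert e (U.erase e) = U := insert_erase he
  conv_lhs => rw [← hU]
  conv_rhs => rw [← hU]
  rw [P151.Fin.ev_insert (notMem_erase e U), P151.Fin.ev_insert (notMem_erase e U)]
  have h1 : ev (fun _ => p) (U.erase e) (fun S => ind (Q (insert e S))) = 0 := by
    refine (P151.Fin.ev_congr fun S _ => ?_).trans (P151.Fin.ev_const 0)
    exact P151.Fin.ind_false fun h => hQ _ h (mem_insert_self e S)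
  have h2 : ev (fun _ => p) (U.erase e) (fun S => ind (e ∈ S ∧ Q (S.erase e))) = 0 := by
    refine (P151.Fin.ev_congr fun S hS => ?_).trans (P151.Fin.ev_const 0)
    exact P151.Fin.ind_false fun h => notMem_erase e U (hS h.1)
  have h3 : ev (fun _ => p) (U.erase e)
        (fun S => ind (e ∈ insert e S ∧ Q ((insert e S).erase e))) =
      ev (fun _ => p) (U.erase e) (fun S => ind (Q S)) := by
    refine P151.Fin.ev_congr fun S hS => P151.Fin.ind_congr ?_
    rw [erase_insert fun h => notMem_erase e U (hS h)]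
    exact ⟨fun h => h.2, fun h => ⟨mem_insert_self e S, h⟩⟩
  rw [h1, h2, h3]
  ring

/-- A short connection from the cluster in an independent smaller configuration costs a factor
linear in its length. -/
theorem pr_link {U : Finset (Sym2 W)} {p p' : ℝ} (hp : 0 < p) (hp1 : p ≤ 1) (hp' : 0 ≤ p')
    (hpp : p' ≤ p) (x : W) {A : Set W → Prop} (hA : ∀ C C', C ⊆ C' → A C → A C') (T : Set W)
    (L : ℕ) :
    P151.Fin.ev (fun _ => p) U (fun ω => P151.Fin.ind (A (cl {x} ω)) *
        pr p' U (fun ω' => ∃ y ∈ cl {x} ω, shortTo L y T ω')) ≤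
      (1 + ((L : ℝ) + 1) * (1 - p) / p) *
        pr p U (fun ω => A (cl {x} ω) ∧ ∃ z ∈ T, z ∈ cl {x} ω) := by
  classical
  have h0 : ∀ _ : Sym2 W, 0 ≤ p := fun _ => hp.le
  have h1 : ∀ _ : Sym2 W, p ≤ 1 := fun _ => hp1
  set G : Finset (Sym2 W) → ℝ := fun ω => ind (A (cl {x} ω) ∧ ∃ z ∈ T, z ∈ cl {x} ω) with hGdef
  have hG : pr p U (fun ω => A (cl {x} ω) ∧ ∃ z ∈ T, z ∈ cl {x} ω) = ev (fun _ => p) U G :=
    (P151.Fin.pr_eq_uniform p _).symm
  let Φ : Sym2 W → Set W → Finset (Sym2 W) → ℝ := fun e C R => ind (exitTo L T A e C R)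
  have hstep : ∀ ω, ind (A (cl {x} ω)) *
      pr p' U (fun ω' => ∃ y ∈ cl {x} ω, shortTo L y T ω') ≤
      G ω + ∑ e ∈ U, ev (fun _ => p) U (fun ω' => Φ e (cl {x} ω) (away (cl {x} ω) ω')) := by
    intro ω
    have hm : pr p' U (fun ω' => ∃ y ∈ cl {x} ω, shortTo L y T ω') ≤
        pr p U (fun ω' => ∃ y ∈ cl {x} ω, shortTo L y T ω') :=
      pr_monotoneOn U (fun S S' h ⟨y, hy, hs⟩ => ⟨y, hy, incr_shortTo L y T S S' h hs⟩)
        ⟨hp', hpp.trans hp1⟩ ⟨hp'.trans hpp, hp1⟩ hpp
    refine (mul_le_mul_of_nonneg_left hm (P151.Fin.ind_nonneg _)).trans ?_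
    rw [← P151.Fin.pr_eq_uniform, P151.Fin.pr, ← P151.Fin.ev_mul_left, ← P151.Fin.ev_sum,
      ← P151.Fin.ev_const (p := fun _ => p) (U := U) (G ω), ← P151.Fin.ev_add]
    refine P151.Fin.ev_mono h0 h1 fun ω' hω' => ?_
    have hsum : 0 ≤ ∑ e ∈ U, Φ e (cl {x} ω) (away (cl {x} ω) ω') :=
      sum_nonneg fun e _ => P151.Fin.ind_nonneg _
    by_cases hh : A (cl {x} ω) ∧ ∃ y ∈ cl {x} ω, shortTo L y T ω'
    · rw [P151.Fin.ind_true hh.1, P151.Fin.ind_true hh.2, one_mul]
      by_cases hT : ∃ z ∈ T, z ∈ cl {x} ω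
      · simp only [hGdef, P151.Fin.ind_true (show A (cl {x} ω) ∧ ∃ z ∈ T, z ∈ cl {x} ω from
          ⟨hh.1, hT⟩)]
        linarith
      push Not at hT
      obtain ⟨hAω, y, hy, z, hz, q, hq⟩ := hh
      rcases last_exit q (hT z hz) with ⟨u, v, he, hu, hv, r, hr⟩ | ⟨hy', -⟩
      · refine le_add_of_nonneg_of_le (P151.Fin.ind_nonneg _) ?_
        refine le_trans ?_ (single_le_sum (f := fun e => Φ e (cl {x} ω) (away (cl {x} ω) ω'))
          (fun e _ => P151.Fin.ind_nonneg _) (hω' he))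
        exact (P151.Fin.ind_true (P := exitTo L T A s(u, v) (cl {x} ω) (away (cl {x} ω) ω'))
          ⟨⟨hAω, hT⟩, u, v, rfl, hu, hv, z, hz, r, hr.trans hq⟩).ge
      · exact absurd hy hy'
    · rw [← P151.Fin.ind_and, P151.Fin.ind_false hh]
      exact add_nonneg (P151.Fin.ind_nonneg _) hsum
  refine (P151.Fin.ev_mono h0 h1 fun ω _ => hstep ω).trans ?_
  rw [hG, P151.Fin.ev_add, P151.Fin.ev_sum, add_mul, one_mul, add_le_add_iff_left]
  have hex : ∀ e ∈ U,
      ev (fun _ => p) U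
          (fun ω => ev (fun _ => p) U (fun ω' => Φ e (cl {x} ω) (away (cl {x} ω) ω'))) =
        (1 - p) / p * ev (fun _ => p) U (fun S => ind (e ∈ S ∧ exitTo L T A e (cl {x} (S.erase e))
          (away (cl {x} (S.erase e)) (S.erase e)))) := by
    intro e he
    rw [← P151.KN.ev_explore_cl (fun _ => p) U {x} (Φ e), div_mul_eq_mul_div, eq_div_iff hp.ne',
      mul_comm]
    exact mul_pr_open he p (fun ω => exitTo L T A e (cl {x} ω) (away (cl {x} ω) ω))
      fun ω h => exitTo_not_mem h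
  rw [sum_congr rfl hex, ← mul_sum, ← P151.Fin.ev_sum]
  calc (1 - p) / p * ev (fun _ => p) U (fun S => ∑ e ∈ U, ind (e ∈ S ∧
        exitTo L T A e (cl {x} (S.erase e)) (away (cl {x} (S.erase e)) (S.erase e))))
      ≤ (1 - p) / p * ev (fun _ => p) U (fun S => ((L : ℝ) + 1) * G S) :=
        mul_le_mul_of_nonneg_left (P151.Fin.ev_mono h0 h1 fun S _ => sum_exit_le hA)
          (div_nonneg (by linarith) hp.le)
    _ = _ := by rw [P151.Fin.ev_mul_left]; ring

/-- Many weak chances inside small clusters give one chance of the order of their sum. -/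
theorem pr_union_ge {U : Finset (Sym2 W)} {p : ℝ} (h0 : 0 ≤ p) (h1 : p ≤ 1) (Y : Finset W)
    (T : Set W) (L : ℕ) :
    min (∑ y ∈ Y, pr p U (connTo Set.univ y T)) 1 -
        2 * ∑ y ∈ Y, pr p U (fun S => connTo Set.univ y T S ∧ L < (cl {y} S).ncard) ≤
      4 * ((L : ℝ) + 1) * pr p U (fun S => ∃ y ∈ Y, shortTo L y T S) := by
  classical
  have hp0 : ∀ _ : Sym2 W, 0 ≤ p := fun _ => h0
  have hp1 : ∀ _ : Sym2 W, p ≤ 1 := fun _ => h1
  have hev : ∀ Q : Finset (Sym2 W) → Prop, ev (fun _ => p) U (fun S => ind (Q S)) = pr p U Q :=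
    fun Q => P151.Fin.pr_eq_uniform p Q
  let E : W → Finset (Sym2 W) → Prop := fun y S =>
    connTo Set.univ y T S ∧ ¬ L < (cl {y} S).ncard
  set w := ∑ y ∈ Y, pr p U (connTo Set.univ y T) with hw
  set b := ∑ y ∈ Y, pr p U (fun S => connTo Set.univ y T S ∧ L < (cl {y} S).ncard) with hb
  set P := pr p U (fun S => ∃ y ∈ Y, shortTo L y T S) with hP
  have hP0 : 0 ≤ P := pr_nonneg h0 h1 _ _
  have hb0 : 0 ≤ b := sum_nonneg fun y _ => pr_nonneg h0 h1 _ _
  rcases le_or_gt (min w 1 - 2 * b) 0 with hneg | hpos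
  · exact hneg.trans (by positivity)
  have hw0 : 0 < w := by linarith [min_le_left w 1]
  let N : Finset (Sym2 W) → ℝ := fun S => ∑ y ∈ Y, ind (E y S)
  have hEN : ev (fun _ => p) U N = w - b := by
    rw [hw, hb, ← sum_sub_distrib, P151.Fin.ev_sum]
    refine sum_congr rfl fun y _ => ?_
    rw [← hev, ← hev, ← P151.Fin.ev_sub]
    refine P151.Fin.ev_congr fun S _ => ?_
    by_cases hc : connTo Set.univ y T S <;> by_cases hl : L < (cl {y} S).ncard <;>
      simp [E, ind, hc, hl]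
  have hfirst : ∀ y S, ∑ z ∈ Y, ind (E y S ∧ E z S ∧ z ∈ cl {y} S) ≤ (L : ℝ) * ind (E y S) := by
    intro y S
    by_cases hy : E y S
    · rw [P151.Fin.ind_true hy, mul_one]
      refine le_trans (sum_le_sum (g := fun z => ind (z ∈ cl {y} S))
        fun z _ => P151.Fin.ind_mono fun h => h.2.2) ?_
      simp only [ind, sum_boole]
      refine Nat.cast_le.2 (le_trans ?_ (not_lt.1 hy.2))
      rw [← Set.ncard_coe_finset]
      exact Set.ncard_le_ncard (fun z hz => (mem_filter.1 (Finset.mem_coe.1 hz)).2) (finite_cl y S)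
    · rw [P151.Fin.ind_false hy, mul_zero]
      exact sum_nonpos fun z _ => (P151.Fin.ind_false fun h => hy h.1).le
  have hbox : ∀ y z S, E y S → E z S → z ∉ cl {y} S →
      Box (connTo Set.univ y T) (connTo Set.univ z T) S := by
    intro y z S hy hz hzy
    obtain ⟨a, ha, hac⟩ := hy.1
    obtain ⟨c, hc, hcc⟩ := hz.1
    rw [inPart_all] at hac hcc
    have hsep : P151.Fin.Sep {y} {z} S := P151.KN.sep_single_right.2 hzy
    refine ⟨P151.Fin.clu {y} S, away (cl {y} S) S, P151.Fin.clu_subset _ _,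
      P151.Fin.away_subset _ _, Finset.disjoint_left.2 fun e h h' => ?_,
      ⟨a, ha, by rwa [inPart_all, P151.Fin.cl_clu]⟩,
      ⟨c, hc, by rwa [inPart_all, P151.Fin.cl_away hsep]⟩⟩
    obtain ⟨-, v, hv, hvc⟩ := P151.Fin.mem_near.1 h
    exact (mem_away.1 h').2 v hv hvc
  have hsq : ev (fun _ => p) U (fun S => N S ^ 2) ≤ (L : ℝ) * w + w ^ 2 := by
    refine le_trans (P151.Fin.ev_mono hp0 hp1 (g := fun S => (L : ℝ) * N S +
      ∑ y ∈ Y, ∑ z ∈ Y, ind (Box (connTo Set.univ y T) (connTo Set.univ z T) S)) fun S _ => ?_) ?_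
    · simp only [N, sq, sum_mul, mul_sum, ← sum_add_distrib]
      refine sum_le_sum fun y _ => ?_
      refine le_trans (sum_le_sum (g := fun z => ind (E y S ∧ E z S ∧ z ∈ cl {y} S) +
        ind (Box (connTo Set.univ y T) (connTo Set.univ z T) S)) fun z _ => ?_) ?_
      · rw [mul_comm, ← P151.Fin.ind_and]
        by_cases h : E y S ∧ E z S
        · rw [P151.Fin.ind_true h]
          by_cases hm : z ∈ cl {y} S
          · rw [P151.Fin.ind_true ⟨h.1, h.2, hm⟩]
            exact le_add_of_nonneg_right (P151.Fin.ind_nonneg _)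
          · rw [P151.Fin.ind_true (hbox y z S h.1 h.2 hm)]
            exact le_add_of_nonneg_left (P151.Fin.ind_nonneg _)
        · rw [P151.Fin.ind_false h]
          exact add_nonneg (P151.Fin.ind_nonneg _) (P151.Fin.ind_nonneg _)
      · rw [sum_add_distrib]
        exact add_le_add (hfirst y S) le_rfl
    · rw [P151.Fin.ev_add, P151.Fin.ev_mul_left, hEN, sq, hw, sum_mul_sum, P151.Fin.ev_sum]
      refine add_le_add (mul_le_mul_of_nonneg_left (by linarith) L.cast_nonneg)
        (sum_le_sum fun y _ => ?_)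
      rw [P151.Fin.ev_sum]
      refine sum_le_sum fun z _ => ?_
      rw [hev]
      exact pr_box_le h0 h1 U (incr_connTo _ _ _) (incr_connTo _ _ _)
  have hLw : 0 < (L : ℝ) + w := by positivity
  set t : ℝ := 1 / (2 * ((L : ℝ) + w)) with ht
  have ht0 : 0 < t := by positivity
  have hmain : w - b ≤ t / 2 * ((L : ℝ) * w + w ^ 2) + P / (2 * t) := by
    rw [← hEN]
    refine le_trans (P151.Fin.ev_mono hp0 hp1 (g := fun S => t / 2 * N S ^ 2 +
      (1 / (2 * t)) * ind (∃ y ∈ Y, shortTo L y T S)) fun S _ => ?_) ?_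
    · by_cases h : ∃ y ∈ Y, E y S
      · have hs : ∃ y ∈ Y, shortTo L y T S := by
          obtain ⟨y, hy, ⟨z, hz, hzc⟩, hsmall⟩ := h
          rw [inPart_all] at hzc
          obtain ⟨_, rfl, ⟨q⟩⟩ := hzc
          exact ⟨_, hy, z, hz, q.bypass, by have := path_lt_ncard q.bypass_isPath; omega⟩
        rw [P151.Fin.ind_true hs, mul_one]
        have hsq0 : 0 ≤ (t * N S - 1) ^ 2 / (2 * t) := by positivity
        have : t / 2 * N S ^ 2 + 1 / (2 * t) - N S = (t * N S - 1) ^ 2 / (2 * t) := by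
          field_simp; ring
        linarith
      · push Not at h
        have hN0 : N S = 0 := sum_eq_zero fun y hy => P151.Fin.ind_false (h y hy)
        rw [hN0]
        have := P151.Fin.ind_nonneg (∃ y ∈ Y, shortTo L y T S)
        positivity
    · rw [P151.Fin.ev_add, P151.Fin.ev_mul_left, P151.Fin.ev_mul_left, hev, ← hP]
      refine add_le_add (mul_le_mul_of_nonneg_left hsq (by positivity)) (le_of_eq ?_)
      ring
  have hkey : w ≤ 4 * ((L : ℝ) + w) * P := by
    have e1 : t / 2 * ((L : ℝ) * w + w ^ 2) = w / 4 := by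
      rw [ht]; field_simp; ring
    have e2 : P / (2 * t) = ((L : ℝ) + w) * P := by
      rw [ht]; field_simp
    rw [e1, e2] at hmain
    linarith [min_le_left w 1]
  rcases le_or_gt w 1 with hle | hgt
  · have : (4 * ((L : ℝ) + w)) * P ≤ 4 * ((L : ℝ) + 1) * P :=
      mul_le_mul_of_nonneg_right (by linarith) hP0
    linarith [min_le_left w 1]
  · have : (L : ℝ) + w ≤ w * ((L : ℝ) + 1) := by nlinarith [(L.cast_nonneg : (0 : ℝ) ≤ L)]
    have h4 : w * 1 ≤ w * (4 * ((L : ℝ) + 1) * P) := by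
      nlinarith [mul_le_mul_of_nonneg_right this hP0]
    have := le_of_mul_le_mul_left h4 hw0
    linarith [min_le_right w 1]

/-- Below the threshold big clusters carry an exponentially small expected size. -/
theorem exists_big_cluster_le {H : SimpleGraph W} [H.LocallyFinite] (hH : H.Connected)
    (hQT : QuasiTransitive H) {p : ℝ} (h0 : 0 ≤ p) (hp : p < pc H) :
    ∃ M r : ℝ, 0 ≤ M ∧ 0 ≤ r ∧ r < 1 ∧
      (∀ U : Finset (Sym2 W), ↑U ⊆ H.edgeSet → ∀ (y : W) (L : ℕ),
        P151.Fin.ev (fun _ => p) U (fun S =>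
          P151.Fin.ind (L < (cl {y} S).ncard) * ((cl {y} S).ncard : ℝ)) ≤ M * r ^ L) ∧
      ∀ (x : W) (T : Set W) (L : ℕ), (∀ z ∈ T, ∀ q : H.Walk x z, L < q.length) →
        mean H p Set.univ x T ≤ ENNReal.ofReal (M * r ^ L) := by
  classical
  obtain ⟨M, r, hM, hr0, hr1, htail⟩ := Tree.exists_cluster_tail hH hQT h0 hp
  have h1 : p ≤ 1 := hp.le.trans (Tree.pc_le_one h0 hp)
  set s : ℝ := (1 + r) / 2 with hs
  have hs0 : 0 < s := by linarith
  have hs1 : s < 1 := by linarith
  have hrs : r / s < 1 := (div_lt_one hs0).2 (by linarith)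
  have hrs0 : 0 ≤ r / s := div_nonneg hr0 hs0.le
  have hsum : Summable fun K : ℕ => (K : ℝ) * (r / s) ^ K := by
    simpa using summable_pow_mul_geometric_of_norm_lt_one 1
      (show ‖r / s‖ < 1 by rwa [Real.norm_of_nonneg hrs0])
  set Z := ∑' K : ℕ, (K : ℝ) * (r / s) ^ K
  have hZ : 0 ≤ Z := tsum_nonneg fun K => by positivity
  have hfirst : ∀ U : Finset (Sym2 W), ↑U ⊆ H.edgeSet → ∀ (y : W) (L : ℕ),
      ev (fun _ => p) U (fun S => ind (L < (cl {y} S).ncard) * ((cl {y} S).ncard : ℝ)) ≤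
        M * Z * s ^ L := by
    intro U hU y L
    set n := (reachable U y).card
    set I := (Finset.range (n + 1)).filter fun K => L < K
    refine le_trans (P151.Fin.ev_mono (fun _ => h0) (fun _ => h1)
      (g := fun S => ∑ K ∈ I, (K : ℝ) * ind (manyIn Set.univ y Set.univ K S)) fun S hS => ?_) ?_
    · by_cases hL : L < (cl {y} S).ncard
      · rw [P151.Fin.ind_true hL, one_mul]
        have hn : (cl {y} S).ncard ∈ I := by
          refine mem_filter.2 ⟨mem_range.2 (Nat.lt_succ_of_le ?_), hL⟩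
          rw [show n = (↑(reachable U y) : Set W).ncard from (Set.ncard_coe_finset _).symm]
          exact Set.ncard_le_ncard (fun z hz => mem_reachable hS hz) (finite_toSet _)
        refine le_trans (le_of_eq ?_) (single_le_sum (fun K _ =>
          mul_nonneg K.cast_nonneg (P151.Fin.ind_nonneg _)) hn)
        rw [P151.Fin.ind_true, mul_one]
        refine ⟨(finite_cl y S).toFinset, (Set.ncard_eq_toFinset_card _ _).le, fun z hz => ?_⟩
        exact ⟨trivial, by rw [inPart_all]; exact (finite_cl y S).mem_toFinset.1 hz⟩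
      · rw [P151.Fin.ind_false hL, zero_mul]
        exact sum_nonneg fun K _ => mul_nonneg K.cast_nonneg (P151.Fin.ind_nonneg _)
    rw [P151.Fin.ev_sum]
    refine le_trans (sum_le_sum (g := fun K : ℕ => (M * s ^ L) * ((K : ℝ) * (r / s) ^ K))
      fun K hK => ?_) ?_
    · rw [P151.Fin.ev_mul_left]
      have hb : pr p U (manyIn Set.univ y Set.univ K) ≤ M * r ^ K :=
        (ENNReal.ofReal_le_ofReal_iff (by positivity)).1
          ((ofReal_pr_le_prob hU _).trans (htail y K))
      have hrK : r ^ K ≤ s ^ L * (r / s) ^ K := by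
        calc r ^ K = (r / s) ^ K * s ^ K := by rw [← mul_pow, div_mul_cancel₀ r hs0.ne']
          _ ≤ (r / s) ^ K * s ^ L := mul_le_mul_of_nonneg_left
              (pow_le_pow_of_le_one hs0.le hs1.le (mem_filter.1 hK).2.le) (pow_nonneg hrs0 _)
          _ = _ := mul_comm _ _
      rw [show ev (fun _ => p) U (fun S => ind (manyIn Set.univ y Set.univ K S)) =
        pr p U (manyIn Set.univ y Set.univ K) from P151.Fin.pr_eq_uniform p _]
      calc (K : ℝ) * pr p U (manyIn Set.univ y Set.univ K)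
          ≤ K * (M * (s ^ L * (r / s) ^ K)) := mul_le_mul_of_nonneg_left
            (hb.trans (mul_le_mul_of_nonneg_left hrK hM)) K.cast_nonneg
        _ = _ := by ring
    · rw [← mul_sum, mul_right_comm M Z]
      exact mul_le_mul_of_nonneg_left (hsum.sum_le_tsum I fun K _ => by positivity) (by positivity)
  refine ⟨M * Z, s, mul_nonneg hM hZ, hs0.le, hs1, hfirst, fun x T L hfar => ?_⟩
  rw [mean, ENNReal.tsum_eq_iSup_sum]
  refine iSup_le fun F => ?_
  simp only [prob, iSup_subtype']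
  refine sum_iSup_le F _ fun f => ?_
  let U : Finset (Sym2 W) := F.biUnion fun y => (f y).1
  have hU : ↑U ⊆ H.edgeSet := by
    intro e he
    obtain ⟨y, -, hy⟩ := mem_biUnion.1 (Finset.mem_coe.1 he)
    exact (f y).2 hy
  refine le_trans (Finset.sum_le_sum (g := fun y : T =>
    ENNReal.ofReal (pr p U (connTo Set.univ x {(y : W)}))) fun y hy => ENNReal.ofReal_le_ofReal
      (pr_mono_set h0 h1 (subset_biUnion_of_mem (fun y => (f y).1) hy) (incr_connTo _ _ _))) ?_
  rw [← ENNReal.ofReal_sum_of_nonneg fun y _ => pr_nonneg h0 h1 U _]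
  refine ENNReal.ofReal_le_ofReal (le_trans ?_ (hfirst U hU x L))
  simp only [← P151.Fin.pr_eq_uniform, P151.Fin.pr, ← P151.Fin.ev_sum]
  refine P151.Fin.ev_mono (fun _ => h0) (fun _ => h1) fun S hS => ?_
  have hmem : ∀ y : T, connTo Set.univ x {(y : W)} S →
      (y : W) ∈ cl {x} S ∧ L < (cl {x} S).ncard := by
    rintro y ⟨_, rfl, hy⟩
    rw [inPart_all] at hy
    refine ⟨hy, ?_⟩
    obtain ⟨_, rfl, ⟨q⟩⟩ := hy
    have hlen := path_lt_ncard q.bypass_isPath
    have hfar' := hfar y y.2 (q.bypass.transfer H fun e he => by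
      have := q.bypass.edges_subset_edgeSet he
      rw [SimpleGraph.edgeSet_fromEdgeSet] at this
      exact hU (hS this.1))
    rw [SimpleGraph.Walk.length_transfer] at hfar'
    omega
  simp only [ind, sum_boole]
  rcases (F.filter fun y : T => connTo Set.univ x {(y : W)} S).eq_empty_or_nonempty with he | hne
  · rw [he, card_empty, Nat.cast_zero]
    positivity
  obtain ⟨y₀, hy₀⟩ := hne
  rw [if_pos (hmem y₀ (mem_filter.1 hy₀).2).2, one_mul]
  refine Nat.cast_le.2 ?_
  rw [← card_map ⟨Subtype.val, Subtype.val_injective⟩, ← Set.ncard_coe_finset]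
  refine Set.ncard_le_ncard (fun z hz => ?_) (finite_cl x S)
  obtain ⟨w, hw, rfl⟩ := Finset.mem_map.1 (Finset.mem_coe.1 hz)
  exact (hmem w (mem_filter.1 hw).2).1

end Link

end Vale.Agent.P165.Hyp
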