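import Vale.Agent.P165.Hyp.Basic
import Vale.Agent.P165.Quot.Series

/-!
Bands cut by balls: the tail at the threshold, with a second moment from the tree-graph bound and
the sector profile, gives an expected size that is a small power of the radius and of the profile.
-/

open Finset
open scoped ENNReal

namespace Vale.Agent.P165.Hyp.Geo

open Vale.Agent.P165.Quot

variable {W X Γ : Type*} [PseudoMetricSpace X] [Group Γ] [MulAction Γ W] [MulAction Γ X]
  {H : SimpleGraph W} (G : Geo (X := X) (Γ := Γ) H)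

/-- The bound, divided by the profile, on the expected number of points of a ball of radius `k + 1`
seen from distance about `j`. -/
noncomputable def seenBd (k j : ℕ) : ℝ :=
  if j < 2 * k + 5 then 36 * ((k : ℝ) + 1) ^ 2 else 324 / ((j : ℝ) + 1) ^ 2

lemma seenBd_nonneg (k j : ℕ) : 0 ≤ seenBd k j := by
  unfold seenBd; split_ifs <;> positivity

lemma le_seenBd (k j : ℕ) :
    ((j + k + 2 : ℕ) : ℝ) ^ 2 / (((j - k - 1 : ℕ) : ℝ) + 1) ^ 4 ≤ seenBd k j := by
  unfold seenBd
  split_ifs with h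
  · refine (div_le_self (by positivity) (one_le_pow₀ (by simp))).trans ?_
    rw [show (36 : ℝ) * ((k : ℝ) + 1) ^ 2 = (6 * ((k : ℝ) + 1)) ^ 2 by ring]
    refine pow_le_pow_left₀ (by positivity) ?_ _
    exact_mod_cast (show j + k + 2 ≤ 6 * (k + 1) by omega)
  · have hn : ((j + k + 2 : ℕ) : ℝ) ≤ 2 * ((j : ℝ) + 1) := by
      exact_mod_cast (show j + k + 2 ≤ 2 * (j + 1) by omega)
    have hs : ((j : ℝ) + 1) / 3 ≤ ((j - k - 1 : ℕ) : ℝ) + 1 := by
      rw [div_le_iff₀ (by norm_num)]
      exact_mod_cast (show j + 1 ≤ (j - k - 1 + 1) * 3 by omega)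
    calc ((j + k + 2 : ℕ) : ℝ) ^ 2 / (((j - k - 1 : ℕ) : ℝ) + 1) ^ 4
        ≤ (2 * ((j : ℝ) + 1)) ^ 2 / (((j : ℝ) + 1) / 3) ^ 4 :=
          div_le_div₀ (by positivity) (pow_le_pow_left₀ (by positivity) hn _) (by positivity)
            (pow_le_pow_left₀ (by positivity) hs _)
      _ = 324 / ((j : ℝ) + 1) ^ 2 := by field_simp; ring

lemma seenBd_sq_mul_le (k j : ℕ) : ((j : ℝ) + 1) * seenBd k j ^ 2 ≤
    (if j < 2 * k + 5 then 6480 * ((k : ℝ) + 1) ^ 5 else 0) + 104976 * (1 / ((j : ℝ) + 1) ^ 2) := by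
  unfold seenBd
  split_ifs with h
  · refine le_add_of_le_of_nonneg ?_ (by positivity)
    have hj : (j : ℝ) + 1 ≤ 5 * ((k : ℝ) + 1) := by
      exact_mod_cast (show j + 1 ≤ 5 * (k + 1) by omega)
    refine (mul_le_mul_of_nonneg_right hj (by positivity)).trans (le_of_eq ?_)
    ring
  · have e : ((j : ℝ) + 1) * (324 / ((j : ℝ) + 1) ^ 2) ^ 2 = 104976 / ((j : ℝ) + 1) ^ 3 := by
      field_simp; ring
    rw [zero_add, e, mul_one_div]
    refine div_le_div_of_nonneg_left (by norm_num) (by positivity) ?_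
    exact pow_le_pow_right₀ (by linarith [(j.cast_nonneg : (0 : ℝ) ≤ j)]) (by norm_num)

/-- The constant of the second moment. -/
noncomputable def momentConst : ℝ := 32400 + 104976 * ∑' j : ℕ, 1 / ((j : ℝ) + 1) ^ 2

lemma momentConst_nonneg : 0 ≤ momentConst :=
  add_nonneg (by norm_num) (mul_nonneg (by norm_num) (tsum_nonneg fun j => by positivity))

lemma sum_seenBd_le (k : ℕ) (F : Finset ℕ) :
    ∑ j ∈ F, ((j : ℝ) + 1) * seenBd k j ^ 2 ≤ momentConst * ((k : ℝ) + 1) ^ 6 := by
  have hs : Summable fun j : ℕ => 1 / ((j : ℝ) + 1) ^ 2 := by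
    simpa [Function.comp_def] using (summable_nat_add_iff 1).2
      (Real.summable_one_div_nat_pow.2 one_lt_two)
  refine (sum_le_sum fun j _ => seenBd_sq_mul_le k j).trans ?_
  rw [sum_add_distrib, ← mul_sum, momentConst, add_mul]
  refine add_le_add ?_ ?_
  · rw [← sum_filter, sum_const, nsmul_eq_mul]
    have hc : ((F.filter fun j => j < 2 * k + 5).card : ℝ) ≤ 5 * ((k : ℝ) + 1) := by
      have : (F.filter fun j => j < 2 * k + 5).card ≤ 5 * (k + 1) :=
        (card_le_card (t := range (5 * (k + 1))) fun j hj => mem_range.2 (by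
          have := (mem_filter.1 hj).2; omega)).trans_eq (card_range _)
      exact_mod_cast this
    refine (mul_le_mul_of_nonneg_right hc (by positivity)).trans (le_of_eq ?_)
    ring
  · rw [mul_assoc]
    refine mul_le_mul_of_nonneg_left ?_ (by norm_num)
    exact (hs.sum_le_tsum F fun j _ => by positivity).trans
      (le_mul_of_one_le_right (tsum_nonneg fun j => by positivity) (one_le_pow₀ (by simp)))

variable [DecidableEq W]

/-- The expected number of points near `x` seen from a point at distance about `j`. -/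
lemma mean_ball_le {p P : ℝ} (hP : 0 ≤ P) (hS : G.SectBd p (polyBd P)) (x z : W) {k j : ℕ}
    (T : Set W) (hTk : ∀ v ∈ T, dist (G.proj x) (G.proj v) < k + 1)
    (hz : ⌊dist (G.proj x) (G.proj z)⌋₊ = j) :
    mean H p Set.univ z T ≤ ENNReal.ofReal (P * seenBd k j) := by
  classical
  have hz1 : (j : ℝ) ≤ dist (G.proj x) (G.proj z) := hz ▸ Nat.floor_le dist_nonneg
  have hz2 : dist (G.proj x) (G.proj z) < j + 1 := hz ▸ Nat.lt_floor_add_one _
  set s := j - k - 1 with hs
  set n := j + k + 2 with hn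
  have hcov : T ⊆ ⋃ i : Fin n, G.sect z (G.proj x) s i := by
    intro v hv
    have hv' := hTk v hv
    have h1 := dist_triangle (G.proj z) (G.proj x) (G.proj v)
    have h2 := dist_triangle (G.proj x) (G.proj v) (G.proj z)
    rw [dist_comm (G.proj z) (G.proj x)] at h1
    rw [dist_comm (G.proj v) (G.proj z)] at h2
    have hi : ⌊dist (G.proj z) (G.proj v)⌋₊ < n := (Nat.floor_lt dist_nonneg).2 (by
      rw [hn]; push_cast; linarith)
    refine Set.mem_iUnion.2 ⟨⟨_, hi⟩, Nat.floor_le dist_nonneg, Nat.lt_floor_add_one _, ?_⟩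
    rcases Nat.eq_zero_or_pos s with h | h
    · rw [h, Nat.cast_zero]
      exact gp_nonneg _ _ _
    · have e : (s : ℝ) = (j : ℝ) - k - 1 := by
        have : s + k + 1 = j := by omega
        rw [← this]; push_cast; ring
      rw [e, gp, dist_comm (G.proj z) (G.proj x), dist_comm (G.proj v) (G.proj x)]
      linarith
  refine (mean_mono z hcov).trans ((mean_union_le z _).trans ?_)
  rw [tsum_fintype]
  refine (sum_le_card_nsmul univ _ (ENNReal.ofReal ((n : ℝ) * polyBd P s)) fun (i : Fin n) _ =>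
    (hS z (G.proj x) s i).trans (ENNReal.ofReal_le_ofReal (mul_le_mul_of_nonneg_right ?_
      (div_nonneg hP (by positivity))))).trans ?_
  · exact_mod_cast Nat.succ_le_of_lt i.2
  · rw [card_univ, Fintype.card_fin, ← ENNReal.ofReal_nsmul, nsmul_eq_mul]
    refine ENNReal.ofReal_le_ofReal (le_trans (le_of_eq ?_)
      (mul_le_mul_of_nonneg_left (le_seenBd k j) hP))
    rw [polyBd]
    ring

variable [H.LocallyFinite]

/-- The second moment of a subset of a ball. -/
lemma second_moment_le {p P : ℝ} (h0 : 0 ≤ p) (h1 : p ≤ 1) (hP : 0 ≤ P)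
    (hS : G.SectBd p (polyBd P)) (x : W) (T : Set W) (k : ℕ)
    (hTk : ∀ v ∈ T, dist (G.proj x) (G.proj v) < k + 1) :
    (∑' a : T, ∑' b : T, prob H p (fun S => connTo Set.univ x {(a : W)} S ∧
      connTo Set.univ x {(b : W)} S)) ≤
      ENNReal.ofReal (momentConst * (P ^ 3 * ((k : ℝ) + 1) ^ 6)) := by
  classical
  set τ : W → W → ℝ≥0∞ := fun u v => prob H p (connTo Set.univ u {v})
  set lev : W → ℕ := fun z => ⌊dist (G.proj x) (G.proj z)⌋₊ with hlev
  calc (∑' a : T, ∑' b : T, prob H p (fun S => connTo Set.univ x {(a : W)} S ∧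
        connTo Set.univ x {(b : W)} S))
      ≤ ∑' a : T, ∑' b : T, ∑' z : W, τ x z * τ z a * τ z b :=
        ENNReal.tsum_le_tsum fun a => ENNReal.tsum_le_tsum fun b => prob_two_le h0 h1 x a b
    _ = ∑' z : W, τ x z * (∑' a : T, τ z a) * (∑' b : T, τ z b) := by
        conv_lhs => arg 1; ext a; rw [ENNReal.tsum_comm]
        rw [ENNReal.tsum_comm]
        refine tsum_congr fun z => ?_
        simp_rw [ENNReal.tsum_mul_left, ENNReal.tsum_mul_right]
        rw [ENNReal.tsum_mul_left]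
    _ ≤ ∑' z : W, τ x z * ENNReal.ofReal ((P * seenBd k (lev z)) ^ 2) := by
        refine ENNReal.tsum_le_tsum fun z => ?_
        rw [mul_assoc, sq, ENNReal.ofReal_mul (mul_nonneg hP (seenBd_nonneg _ _))]
        have hM := G.mean_ball_le hP hS x z T hTk (show ⌊_⌋₊ = lev z from rfl)
        exact mul_le_mul' le_rfl (mul_le_mul' hM hM)
    _ = ∑' j, ∑' z : {z // lev z = j}, τ x z * ENNReal.ofReal ((P * seenBd k j) ^ 2) := by
        rw [← (Equiv.sigmaFiberEquiv lev).tsum_eq, ENNReal.tsum_sigma']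
        refine tsum_congr fun j => tsum_congr fun z => ?_
        show τ x z.1 * ENNReal.ofReal ((P * seenBd k (lev z.1)) ^ 2) = _
        rw [z.2]
    _ ≤ ∑' j : ℕ, ENNReal.ofReal (((j : ℝ) + 1) * P) * ENNReal.ofReal ((P * seenBd k j) ^ 2) := by
        refine ENNReal.tsum_le_tsum fun j => ?_
        rw [ENNReal.tsum_mul_right]
        refine mul_le_mul' (le_trans ?_ ((hS x (G.proj x) 0 j).trans_eq (by simp [polyBd]))) le_rfl
        refine le_trans (le_of_eq rfl) (mean_mono x (T := {z | lev z = j}) ?_)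
        intro z hz
        have hz' : ⌊dist (G.proj x) (G.proj z)⌋₊ = j := hz
        exact ⟨hz' ▸ Nat.floor_le dist_nonneg, hz' ▸ Nat.lt_floor_add_one _,
          by rw [Nat.cast_zero]; exact gp_nonneg _ _ _⟩
    _ ≤ _ := by
        rw [ENNReal.tsum_eq_iSup_sum]
        refine iSup_le fun F => ?_
        simp only [← ENNReal.ofReal_mul' (sq_nonneg _)]
        rw [← ENNReal.ofReal_sum_of_nonneg fun j _ => by positivity]
        refine ENNReal.ofReal_le_ofReal ?_
        calc ∑ j ∈ F, ((j : ℝ) + 1) * P * (P * seenBd k j) ^ 2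
            = P ^ 3 * ∑ j ∈ F, ((j : ℝ) + 1) * seenBd k j ^ 2 := by
              rw [mul_sum]
              exact sum_congr rfl fun j _ => by ring
          _ ≤ P ^ 3 * (momentConst * ((k : ℝ) + 1) ^ 6) :=
              mul_le_mul_of_nonneg_left (sum_seenBd_le k F) (by positivity)
          _ = _ := by ring

/-- Bands cut by balls have expected size a small power of the profile and the radius. -/
theorem exists_ballBd (_hH : H.Connected) (hpc1 : pc H ≤ 1) {θ C : ℝ} (hθ : 0 < θ) (hθ1 : θ < 1)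
    (hT : G.TailBd θ C) : ∃ C', 0 ≤ C' ∧ G.BallBd θ C' := by
  classical
  have hA := momentConst_nonneg
  have hC0 : 0 ≤ max C 0 := le_max_right _ _
  refine ⟨2 * max C 0 / θ + momentConst, add_nonneg (by positivity) hA,
    fun p P h0 hp hP hS x a b c k => ?_⟩
  set T := {v | v ∈ G.band a b c ∧ dist (G.proj x) (G.proj v) < k + 1}
  have h1 : p ≤ 1 := hp.trans hpc1
  set Y : ℝ := P ^ 3 * ((k : ℝ) + 1) ^ 6 with hY
  have hY1 : 1 ≤ Y := one_le_mul_of_one_le_of_one_le (one_le_pow₀ hP) (one_le_pow₀ (by simp))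
  set K := ⌈Y⌉₊
  have hK : 0 < K := Nat.ceil_pos.2 (zero_lt_one.trans_le hY1)
  have hKY : Y ≤ K := Nat.le_ceil Y
  have hK2 : (K : ℝ) ≤ 2 * Y := by linarith [Nat.ceil_lt_add_one (zero_le_one.trans hY1)]
  have htail : ∀ i, prob H p (manyIn Set.univ x T (i + 1)) ≤
      ENNReal.ofReal (max C 0 * ((i : ℝ) + 1) ^ (-(1 - θ))) := by
    intro i
    refine (prob_mono_param h0 hp hpc1 (incr_manyIn _ _ _ _)).trans ((prob_mono (h0.trans hp) hpc1
      (B := manyIn Set.univ x (G.band a b c) (i + 1)) fun S _ ⟨Z, hZ, hZc⟩ => ⟨Z, hZ, fun z hz => ⟨(hZc z hz).1.1, (hZc z hz).2⟩⟩).trans ?_)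
    refine (hT x a b c (i + 1) i.succ_pos).trans (ENNReal.ofReal_le_ofReal ?_)
    rw [Nat.cast_succ]
    exact mul_le_mul_of_nonneg_right (le_max_left _ _) (Real.rpow_nonneg (by positivity) _)
  refine (mean_le_tails h0 h1 Set.univ x T hK).trans ?_
  refine (add_le_add ((sum_le_sum fun i _ => htail i).trans_eq
    (ENNReal.ofReal_sum_of_nonneg fun i _ => by positivity).symm)
    (ENNReal.div_le_div_right (G.second_moment_le h0 h1 (zero_le_one.trans hP) hS x T k
      fun v hv => hv.2) _)).trans ?_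
  rw [← ENNReal.ofReal_natCast, ← ENNReal.ofReal_div_of_pos (Nat.cast_pos.2 hK),
    ← ENNReal.ofReal_add (sum_nonneg fun i _ => by positivity) (by positivity)]
  refine ENNReal.ofReal_le_ofReal ?_
  have hpow : (K : ℝ) ^ θ ≤ 2 * Y ^ θ := by
    refine (Real.rpow_le_rpow (Nat.cast_nonneg K) hK2 hθ.le).trans ?_
    rw [Real.mul_rpow zero_le_two (zero_le_one.trans hY1)]
    exact mul_le_mul_of_nonneg_right (Real.rpow_le_self_of_one_le one_le_two hθ1.le)
      (Real.rpow_nonneg (zero_le_one.trans hY1) _)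
  have hYθ : Y ^ θ = P ^ (3 * θ) * ((k : ℝ) + 1) ^ (6 * θ) := by
    rw [hY, Real.mul_rpow (by positivity) (by positivity),
      ← Real.rpow_natCast_mul (zero_le_one.trans hP), ← Real.rpow_natCast_mul (by positivity)]
    norm_num
  have hsum : ∑ i ∈ range K, max C 0 * ((i : ℝ) + 1) ^ (-(1 - θ)) ≤ 2 * max C 0 / θ * Y ^ θ := by
    rw [← mul_sum]
    refine (mul_le_mul_of_nonneg_left
      (sum_range_rpow_le (show 0 ≤ 1 - θ by linarith) (by linarith) K) hC0).trans ?_
    rw [sub_sub_cancel]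
    calc max C 0 * ((K : ℝ) ^ θ / θ) ≤ max C 0 * (2 * Y ^ θ / θ) := by gcongr
      _ = _ := by ring
  have hsec : momentConst * Y / K ≤ momentConst * Y ^ θ := by
    rw [div_le_iff₀ (Nat.cast_pos.2 hK)]
    calc momentConst * Y ≤ momentConst * 1 * K := by rw [mul_one]; gcongr
      _ ≤ momentConst * Y ^ θ * K := by
          gcongr
          exact Real.one_le_rpow hY1 hθ.le
  calc (∑ i ∈ range K, max C 0 * ((i : ℝ) + 1) ^ (-(1 - θ))) + momentConst * Y / K
      ≤ 2 * max C 0 / θ * Y ^ θ + momentConst * Y ^ θ := add_le_add hsum hsec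
    _ = _ := by rw [hYθ]; ring

end Vale.Agent.P165.Hyp.Geo
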