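import Vale.Agent.P165.Hyp.Basic
import Vale.Agent.P165.Hyp.Cones
import Vale.Agent.P165.Hyp.Link

/-!
The tail of the number of band points in a cluster: every point launches at a subcritical parameter,
and the short connections so found are turned into connections at the threshold.
-/

open Finset
open scoped ENNReal

namespace Vale.Agent.P165.Hyp

open Vale.Agent.P165.Quot
open P151.Fin (ev ind)

variable {W : Type*} [DecidableEq W] {ι : Type*}

lemma min_sum_le (X : ℝ≥0∞) (s : Finset ι) (f : ι → ℝ≥0∞) :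
    min (∑ i ∈ s, f i) X ≤ ∑ i ∈ s, min (f i) X := by
  classical
  induction s using Finset.induction_on with
  | empty => simp
  | insert a s ha ih =>
    rw [sum_insert ha, sum_insert ha]
    by_cases h : X ≤ f a
    · exact (min_le_right _ _).trans (le_add_of_le_of_nonneg (le_min h le_rfl) zero_le)
    by_cases h' : X ≤ ∑ i ∈ s, f i
    · rw [min_eq_right h'] at ih
      exact (min_le_right _ _).trans (le_add_of_nonneg_of_le zero_le ih)
    rw [min_eq_left (not_le.1 h').le] at ih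
    exact (min_le_left _ _).trans (add_le_add (le_min le_rfl (not_le.1 h).le) ih)

lemma ev_ind_eq (p : ℝ) (U : Finset (Sym2 W)) (Q : Finset (Sym2 W) → Prop) :
    ev (fun _ => p) U (fun S => ind (Q S)) = pr p U Q :=
  P151.Fin.pr_eq_uniform p Q

/-- A connection to a set covered by finitely many parts. -/
lemma conn_cover_le {H : SimpleGraph W} {p : ℝ} (h0 : 0 ≤ p) (h1 : p ≤ 1) (x : W) {T : Set W}
    (s : Finset ι) (S : ι → Set W) (h : ∀ v ∈ T, ∃ i ∈ s, v ∈ S i) :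
    prob H p (connTo Set.univ x T) ≤ ∑ i ∈ s, prob H p (connTo Set.univ x (S i)) := by
  classical
  refine prob_le fun U hU => ?_
  refine (ENNReal.ofReal_le_ofReal (pr_le_sum h0 h1 s (fun i => connTo Set.univ x (S i)) ?_)).trans ?_
  · rintro R - ⟨v, hv, hc⟩
    obtain ⟨i, hi, hvi⟩ := h v hv
    exact ⟨i, hi, v, hvi, hc⟩
  · rw [ENNReal.ofReal_sum_of_nonneg fun i _ => pr_nonneg h0 h1 U _]
    exact sum_le_sum fun i _ => ofReal_pr_le_prob hU _

/-- Connections to several parts of one finite set, weighted by big clusters. -/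
lemma sum_big_le {p : ℝ} (h0 : 0 ≤ p) (h1 : p ≤ 1) {U : Finset (Sym2 W)} (y : W)
    {A : Finset W} (Q : Finset ι) (key : W → ι) (L : ℕ) :
    ∑ q ∈ Q, pr p U (fun S => connTo Set.univ y {v | v ∈ A ∧ key v = q} S ∧
        L < (cl {y} S).ncard) ≤
      ev (fun _ => p) U (fun S => ind (L < (cl {y} S).ncard) * ((cl {y} S).ncard : ℝ)) := by
  classical
  simp only [← ev_ind_eq]
  rw [← P151.Fin.ev_sum]
  refine P151.Fin.ev_mono (fun _ => h0) (fun _ => h1) fun S _ => ?_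
  simp only [P151.Fin.ind_and]
  rw [← sum_mul, mul_comm]
  refine mul_le_mul_of_nonneg_left ?_ (P151.Fin.ind_nonneg _)
  have hS : inPart Set.univ S = S := by ext e; simp [mem_inPart]
  have hfin : (cl {y} S).Finite := by simpa using Tree.cl_finite {y} S
  have hb : ∀ q, ind (connTo Set.univ y {v | v ∈ A ∧ key v = q} S) ≤
      if q ∈ hfin.toFinset.image key then 1 else 0 := fun q => by
    by_cases h : connTo Set.univ y {v | v ∈ A ∧ key v = q} S
    · obtain ⟨v, ⟨-, hv⟩, hc⟩ := h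
      rw [hS] at hc
      rw [if_pos (mem_image.2 ⟨v, hfin.mem_toFinset.2 hc, hv⟩)]
      exact P151.Fin.ind_le_one _
    · rw [P151.Fin.ind_false h]
      split_ifs <;> norm_num
  refine (sum_le_sum fun q _ => hb q).trans ?_
  rw [← sum_filter, sum_const, nsmul_one, Set.ncard_eq_toFinset_card _ hfin]
  exact_mod_cast ((card_le_card fun q hq => (mem_filter.1 hq).2).trans card_image_le)

/-- Weak chances of `K` points inside small clusters become connections at the larger parameter. -/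
lemma link_flow {U : Finset (Sym2 W)} {p q : ℝ} (hp : 0 ≤ p) (hpq : p ≤ q) (hq : 0 < q)
    (hq1 : q ≤ 1) (x : W) {A : Set W → Prop} (hA : ∀ C C', C ⊆ C' → A C → A C') (L : ℕ)
    {B : Finset W} {K : ℕ} (hK : 0 < K) (hAB : ∀ C, A C → ∃ Y ⊆ B, Y.card = K ∧ ↑Y ⊆ C)
    (Q : Finset ι) (T : ι → Set W) {f : ℝ}
    (hflow : ∀ y ∈ B, f ≤ ∑ i ∈ Q, min (pr p U (connTo Set.univ y (T i))) (1 / K))
    (herr : ∀ y ∈ B, ∑ i ∈ Q,
      pr p U (fun S => connTo Set.univ y (T i) S ∧ L < (cl {y} S).ncard) ≤ f / 4) :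
    pr q U (fun S => A (cl {x} S)) * ((K : ℝ) * f / 2) ≤
      4 * ((L : ℝ) + 1) * ((1 + ((L : ℝ) + 1) * (1 - q) / q) *
        ∑ i ∈ Q, pr q U (fun ω => A (cl {x} ω) ∧ ∃ z ∈ T i, z ∈ cl {x} ω)) := by
  classical
  have hp1 : p ≤ 1 := hpq.trans hq1
  set Φ : ι → Finset (Sym2 W) → ℝ := fun i ω =>
    pr p U (fun ω' => ∃ y ∈ cl {x} ω, shortTo L y (T i) ω') with hΦ
  have hpt : ∀ ω, ind (A (cl {x} ω)) * ((K : ℝ) * f / 2) ≤
      4 * ((L : ℝ) + 1) * ∑ i ∈ Q, ind (A (cl {x} ω)) * Φ i ω := by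
    intro ω
    by_cases h : A (cl {x} ω)
    swap
    · simp [P151.Fin.ind_false h]
    obtain ⟨Y, hYB, hYc, hYC⟩ := hAB _ h
    simp only [P151.Fin.ind_true h, one_mul]
    have hsum : (K : ℝ) * f ≤
        ∑ i ∈ Q, min (∑ y ∈ Y, pr p U (connTo Set.univ y (T i))) 1 := by
      calc (K : ℝ) * f = ∑ y ∈ Y, f := by rw [sum_const, hYc, nsmul_eq_mul]
        _ ≤ ∑ y ∈ Y, ∑ i ∈ Q, min (pr p U (connTo Set.univ y (T i))) (1 / K) :=
            sum_le_sum fun y hy => hflow y (hYB hy)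
        _ = ∑ i ∈ Q, ∑ y ∈ Y, min (pr p U (connTo Set.univ y (T i))) (1 / K) := sum_comm
        _ ≤ _ := by
            refine sum_le_sum fun i _ => le_min (sum_le_sum fun y _ => min_le_left _ _) ?_
            refine (sum_le_sum fun y _ => min_le_right _ _).trans (le_of_eq ?_)
            rw [sum_const, hYc, nsmul_eq_mul]
            field_simp
    have he : ∑ i ∈ Q, ∑ y ∈ Y,
        pr p U (fun S => connTo Set.univ y (T i) S ∧ L < (cl {y} S).ncard) ≤
          (K : ℝ) * (f / 4) := by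
      rw [sum_comm]
      refine (sum_le_card_nsmul _ _ (f / 4) fun y hy => herr y (hYB hy)).trans ?_
      rw [hYc, nsmul_eq_mul]
    have hmain := sum_le_sum (s := Q) fun i _ =>
      (pr_union_ge (U := U) hp hp1 Y (T i) L).trans (mul_le_mul_of_nonneg_left
        (pr_mono hp hp1 fun ω' _ ⟨y, hy, hs⟩ =>
          (⟨y, hYC (Finset.mem_coe.2 hy), hs⟩ : ∃ y ∈ cl {x} ω, shortTo L y (T i) ω'))
        (by positivity))
    rw [sum_sub_distrib, ← mul_sum, ← mul_sum] at hmain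
    simp only [hΦ]
    linarith
  have h := P151.Fin.ev_mono (U := U) (fun _ => hq.le) (fun _ => hq1) fun ω _ => hpt ω
  simp only [mul_comm (ind (A _)) ((K : ℝ) * f / 2)] at h
  rw [P151.Fin.ev_mul_left, ev_ind_eq, P151.Fin.ev_mul_left, P151.Fin.ev_sum] at h
  rw [mul_comm (pr q U _)]
  refine h.trans (mul_le_mul_of_nonneg_left ?_ (by positivity))
  rw [mul_sum]
  exact sum_le_sum fun i _ => pr_link hq hq1 hp hpq x hA (T i) L

/-- Values below a common bound: their sum through the sum of their powers. -/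
lemma sum_le_rpow (Q : Finset ι) (α : ι → ℝ) {P t : ℝ} (hα : ∀ i ∈ Q, 0 ≤ α i)
    (hP : ∀ i ∈ Q, α i ≤ P) (ht : 0 < t) (ht1 : t ≤ 1) :
    ∑ i ∈ Q, α i ≤ P ^ (1 - t) * ∑ i ∈ Q, α i ^ t := by
  rw [mul_sum]
  refine sum_le_sum fun i hi => ?_
  rcases (hα i hi).eq_or_lt' with hz | hz
  · rw [hz, Real.zero_rpow ht.ne', mul_zero]
  · calc α i = α i ^ (1 - t) * α i ^ t := by
          rw [← Real.rpow_add hz, sub_add_cancel, Real.rpow_one]
      _ ≤ _ := mul_le_mul_of_nonneg_right (Real.rpow_le_rpow hz.le (hP i hi) (by linarith))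
          (Real.rpow_nonneg hz.le _)

/-- Logarithmic factors are absorbed by the exponent. -/
lemma tail_real {PA K t₀ t₁ θ C : ℝ} (hPA : 0 ≤ PA) (hK : 1 ≤ K) (ht₁ : 0 < t₁) (hθ : 0 < θ)
    (hr : (1 - θ / 2) * t₁ ≤ t₀) (hC : 0 ≤ C)
    (h : PA ^ t₁ * K ^ t₀ ≤ C * (Real.log K + 1) ^ 3) :
    PA ≤ (C * (6 / (θ * t₁) + 1) ^ 3) ^ (1 / t₁) * K ^ (-(1 - θ)) := by
  have hK0 : 0 < K := lt_of_lt_of_le one_pos hK
  set η := θ * t₁ / 6 with hη
  have hη0 : 0 < η := by positivity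
  have hlog : Real.log K + 1 ≤ (6 / (θ * t₁) + 1) * K ^ η := by
    have h1 := Real.log_le_rpow_div hK0.le hη0
    have h2 : (1 : ℝ) ≤ K ^ η := Real.one_le_rpow hK hη0.le
    rw [show (6 : ℝ) / (θ * t₁) = 1 / η by rw [hη, one_div_div], add_mul, one_div_mul_eq_div]
    linarith
  set D := C * (6 / (θ * t₁) + 1) ^ 3
  have hfin : PA ^ t₁ ≤ D * K ^ (-t₀ + 3 * η) := by
    refine le_of_mul_le_mul_right ?_ (Real.rpow_pos_of_pos hK0 t₀)
    refine h.trans ((mul_le_mul_of_nonneg_left (pow_le_pow_left₀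
      (by linarith [Real.log_nonneg hK]) hlog 3) hC).trans (le_of_eq ?_))
    rw [mul_pow, ← Real.rpow_natCast (K ^ η) 3, ← Real.rpow_mul hK0.le, mul_assoc D,
      ← Real.rpow_add hK0]
    simp only [D]
    push_cast
    ring_nf
  calc PA = (PA ^ t₁) ^ (1 / t₁) := by
        rw [← Real.rpow_mul hPA, mul_one_div_cancel ht₁.ne', Real.rpow_one]
    _ ≤ (D * K ^ (-t₀ + 3 * η)) ^ (1 / t₁) :=
        Real.rpow_le_rpow (Real.rpow_nonneg hPA _) hfin (by positivity)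
    _ = D ^ (1 / t₁) * K ^ ((-t₀ + 3 * η) * (1 / t₁)) := by
        rw [Real.mul_rpow (by positivity) (Real.rpow_nonneg hK0.le _), ← Real.rpow_mul hK0.le]
    _ ≤ _ := by
        refine mul_le_mul_of_nonneg_left (Real.rpow_le_rpow_of_exponent_le hK ?_) (by positivity)
        rw [mul_one_div, div_le_iff₀ ht₁, hη]
        nlinarith

/-- The length of short connections needed at `K` points. -/
lemma exists_length {M r f : ℝ} (hM : 0 ≤ M) (hr : 0 ≤ r) (hr1 : r < 1) (hf : 0 < f) :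
    ∃ A : ℝ, 0 < A ∧ ∀ K t : ℝ, 1 ≤ K → 0 ≤ t → t ≤ 1 → ∀ L : ℕ,
      A * (Real.log K + 1) ≤ L → M * r ^ L ≤ f * K ^ (t - 1) / 4 := by
  set r' := max r (1 / 2)
  have hr'0 : 0 < r' := lt_max_of_lt_right (by norm_num)
  have hl : 0 < -Real.log r' := neg_pos.2 (Real.log_neg hr'0 (max_lt hr1 (by norm_num)))
  set B := |Real.log (4 * (M + 1) / f)| + 1
  refine ⟨B / -Real.log r', div_pos (by positivity) hl, fun K t hK ht _ L hL => ?_⟩
  have hK0 : 0 < K := lt_of_lt_of_le one_pos hK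
  rw [div_mul_eq_mul_div, div_le_iff₀ hl] at hL
  have h5 := Real.log_nonneg hK
  have h4 := le_abs_self (Real.log (4 * (M + 1) / f))
  have h2 : Real.log (4 * (M + 1) / f) + (1 - t) * Real.log K ≤ (L : ℝ) * -Real.log r' := by
    nlinarith [mul_nonneg (abs_nonneg (Real.log (4 * (M + 1) / f))) h5]
  calc M * r ^ L ≤ (M + 1) * r' ^ L :=
        mul_le_mul (by linarith) (pow_le_pow_left₀ hr (le_max_left _ _) L) (pow_nonneg hr _)
          (by linarith)
    _ = (M + 1) * Real.exp (-((L : ℝ) * -Real.log r')) := by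
        rw [mul_neg, neg_neg, Real.exp_nat_mul, Real.exp_log hr'0]
    _ ≤ (M + 1) * Real.exp (-(Real.log (4 * (M + 1) / f) + (1 - t) * Real.log K)) :=
        mul_le_mul_of_nonneg_left (Real.exp_le_exp.2 (neg_le_neg h2)) (by linarith)
    _ = f * K ^ (t - 1) / 4 := by
        rw [neg_add, Real.exp_add, Real.exp_neg, Real.exp_log (by positivity),
          Real.rpow_def_of_pos hK0, inv_div,
          show -((1 - t) * Real.log K) = Real.log K * (t - 1) by ring]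
        field_simp

namespace Geo

variable {X Γ : Type*} [PseudoMetricSpace X] [Group Γ] [MulAction Γ W] [MulAction Γ X]
  {H : SimpleGraph W} (G : Geo (X := X) (Γ := Γ) H)

/-- The cell of a point and the unit window of its product. -/
noncomputable def slot (a b : X) (c : ℝ) (v : W) : W × ℤ := (G.cell v, ⌊gp (G.proj v) a b - c⌋)

lemma slot_mem_piece (a b : X) (c : ℝ) (v : W) :
    v ∈ G.piece a b (c + (G.slot a b c v).2) (G.slot a b c v).1 := by
  have h1 := Int.floor_le (gp (G.proj v) a b - c)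
  have h2 := Int.lt_floor_add_one (gp (G.proj v) a b - c)
  refine ⟨⟨?_, ?_⟩, rfl⟩ <;> · simp only [slot]; linarith

/-- The truncated flow out of one vertex. -/
lemma flow_le {p : ℝ} (hp : 0 < p) (hp1 : p ≤ 1) {ℓ : ℕ}
    (hℓ : ∀ r ∈ G.reps, ∀ (g : Γ) (S : Set W),
      ENNReal.ofReal p ^ ℓ * G.conn p (g • G.r₀) S ≤ G.conn p (g • r) S)
    (a b : X) (c : ℝ) (y : W) (T : Finset Γ) {All : Finset W} {K F : ℝ≥0∞}
    (hall : ∀ h ∈ T, (G.gOf y * h) • G.r₀ ∈ All)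
    (hT : ∀ cl' : W → W, G.Adm cl' →
      F ≤ ∑' q : W, min (G.conn p G.r₀ {v | (∃ g ∈ T, g • G.r₀ = v) ∧ cl' v = q}) K) :
    ENNReal.ofReal p ^ ℓ * F ≤ ∑ q ∈ All.image (G.slot a b c),
      min (G.conn p y {v | v ∈ All ∧ G.slot a b c v = q}) K := by
  classical
  set g := G.gOf y
  have hP1 : ENNReal.ofReal p ^ ℓ ≤ 1 := pow_le_one₀ zero_le (ENNReal.ofReal_le_one.2 hp1)
  have hadm : G.Adm fun v => G.cell (g • v) := fun u v huv => by
    have := G.rel_smul g⁻¹ _ _ (G.cell_rel _ _ huv)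
    simpa using this
  refine (mul_le_mul' le_rfl (hT _ hadm)).trans ?_
  set Q := All.image (G.slot a b c)
  set S : W → Set W := fun q => {v | (∃ h ∈ T, h • G.r₀ = v) ∧ G.cell (g • v) = q}
  have hzero : ∀ q ∉ Q.image Prod.fst, min (G.conn p G.r₀ (S q)) K = 0 := fun q hq => by
    have he : S q = ∅ := Set.eq_empty_iff_forall_notMem.2 fun v hv => by
      obtain ⟨⟨h, hh, rfl⟩, hv⟩ := hv
      exact hq (mem_image.2 ⟨G.slot a b c ((g * h) • G.r₀), mem_image_of_mem _ (hall h hh),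
        by simpa [slot, mul_smul] using hv⟩)
    rw [he]
    simp [Geo.conn, prob, connTo, pr]
  rw [tsum_eq_sum hzero, mul_sum, ← sum_fiberwise_of_maps_to (g := Prod.fst)
    (fun q hq => mem_image_of_mem Prod.fst hq)]
  refine sum_le_sum fun q _ => le_trans ?_ (min_sum_le _ _ _)
  refine le_min ?_ ((mul_le_mul' hP1 (min_le_right _ _)).trans (one_mul K).le)
  refine (mul_le_mul' le_rfl (min_le_left _ _)).trans ?_
  rw [← G.conn_smul p g]
  have hy := hℓ _ (G.rOf_mem y) g ((fun v => g • v) '' S q)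
  rw [G.gOf_smul] at hy
  refine hy.trans ?_
  refine conn_cover_le hp.le hp1 y _ (fun q' => {v | v ∈ All ∧ G.slot a b c v = q'}) ?_
  rintro _ ⟨u, ⟨⟨h, hh, rfl⟩, hu⟩, rfl⟩
  have hm : g • h • G.r₀ ∈ All := by rw [← mul_smul]; exact hall h hh
  exact ⟨_, mem_filter.2 ⟨mem_image_of_mem (G.slot a b c) hm, by simpa [slot] using hu⟩, hm, rfl⟩

omit [DecidableEq W] in
/-- A target at bounded distance from a band point lies in one of boundedly many windows. -/
lemma slot_window {a b : X} {c R : ℝ} {y v : W} (hy : y ∈ G.band a b c)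
    (hd : dist (G.proj y) (G.proj v) ≤ R) {nR : ℕ} (hn : R + 1 ≤ nR) :
    (G.slot a b c v).2 ∈ Finset.Icc (-(nR : ℤ)) nR := by
  obtain ⟨hy1, hy2⟩ := hy
  have hgp := abs_le.1 ((abs_gp_base_le (G.proj y) (G.proj v) a b).trans hd)
  simp only [slot, mem_Icc]
  constructor
  · exact Int.le_floor.2 (by push_cast; linarith)
  · exact Int.lt_add_one_iff.1 (Int.floor_lt.2 (by push_cast; linarith))

/-- Sums of powers over the slots in boundedly many windows. -/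
lemma sum_slot_le {t : ℝ} {CB : ℝ≥0∞} (hCB : CB ≠ ⊤)
    (hBd : ∀ (x : W) (a b : X) (c : ℝ), G.bandSum (pc H) t x a b c ≤ CB) (ht : 0 < t)
    (x : W) (a b : X) (c : ℝ) {nR : ℕ} (Q : Finset (W × ℤ))
    (hwin : ∀ q ∈ Q, q.2 ∈ Finset.Icc (-(nR : ℤ)) nR) (α : W × ℤ → ℝ) (hα : ∀ q ∈ Q, 0 ≤ α q)
    (hle : ∀ q ∈ Q, ENNReal.ofReal (α q) ≤ G.conn (pc H) x (G.piece a b (c + q.2) q.1)) :
    ∑ q ∈ Q, α q ^ t ≤ ((2 * nR + 1 : ℕ) : ℝ) * CB.toReal := by
  have h1 : ∀ q ∈ Q, ENNReal.ofReal (α q ^ t) ≤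
      G.conn (pc H) x (G.piece a b (c + q.2) q.1) ^ t := fun q hq => by
    rw [← ENNReal.ofReal_rpow_of_nonneg (hα q hq) ht.le]
    exact ENNReal.rpow_le_rpow (hle q hq) ht.le
  have h2 : ENNReal.ofReal (∑ q ∈ Q, α q ^ t) ≤ ((2 * nR + 1 : ℕ) : ℝ≥0∞) * CB := by
    rw [ENNReal.ofReal_sum_of_nonneg fun q hq => Real.rpow_nonneg (hα q hq) _]
    refine (sum_le_sum h1).trans ((sum_le_sum_of_subset_of_nonneg (t := (Q.image Prod.fst) ×ˢ
      Finset.Icc (-(nR : ℤ)) nR) (fun q hq => mem_product.2 ⟨mem_image_of_mem _ hq, hwin q hq⟩)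
      fun _ _ _ => zero_le).trans ?_)
    rw [sum_product_right]
    refine (sum_le_card_nsmul _ _ CB fun j _ => ?_).trans (le_of_eq ?_)
    · exact (ENNReal.sum_le_tsum _).trans (hBd x a b (c + (j : ℤ)))
    rw [nsmul_eq_mul, Int.card_Icc]
    congr 2
    omega
  have h3 := ENNReal.toReal_mono (ENNReal.mul_ne_top (ENNReal.natCast_ne_top _) hCB) h2
  rw [ENNReal.toReal_ofReal (sum_nonneg fun q hq => Real.rpow_nonneg (hα q hq) _),
    ENNReal.toReal_mul, ENNReal.toReal_natCast] at h3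
  exact h3

/-- A finite edge set carrying half of every flow. -/
lemma exists_carrier {p : ℝ} (h0 : 0 ≤ p) (h1 : p ≤ 1) (U : Finset (Sym2 W))
    (hU : ↑U ⊆ H.edgeSet) (Bf : Finset W) (Q : Finset (W × ℤ)) (T : W × ℤ → Set W) :
    ∃ U' : Finset (Sym2 W), U ⊆ U' ∧ ↑U' ⊆ H.edgeSet ∧ ∀ y ∈ Bf, ∀ q ∈ Q,
      G.conn p y (T q) ≤ ENNReal.ofReal (2 * pr p U' (connTo Set.univ y (T q))) := by
  classical
  have happ : ∀ i : W × (W × ℤ), ∃ V : Finset (Sym2 W), ↑V ⊆ H.edgeSet ∧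
      G.conn p i.1 (T i.2) ≤ 2 * ENNReal.ofReal (pr p V (connTo Set.univ i.1 (T i.2))) := by
    intro i
    by_cases hz : G.conn p i.1 (T i.2) = 0
    · exact ⟨∅, by simp, by rw [hz]; exact zero_le⟩
    have htop : G.conn p i.1 (T i.2) ≠ ⊤ :=
      ne_top_of_le_ne_top ENNReal.one_ne_top (G.conn_le_one h0 h1 _ _)
    obtain ⟨V, hV, hVl⟩ := exists_lt_pr (ENNReal.half_lt_self hz htop)
    refine ⟨V, hV, ?_⟩
    calc G.conn p i.1 (T i.2) = 2 * (G.conn p i.1 (T i.2) / 2) :=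
          (ENNReal.mul_div_cancel (by norm_num) (by norm_num)).symm
      _ ≤ _ := mul_le_mul' le_rfl hVl.le
  choose V hVE hV using happ
  refine ⟨U ∪ (Bf ×ˢ Q).biUnion V, subset_union_left, fun e he => ?_, fun y hy q hq => ?_⟩
  · rcases mem_union.1 (Finset.mem_coe.1 he) with he | he
    · exact hU he
    · obtain ⟨i, -, hi⟩ := mem_biUnion.1 he
      exact hVE i hi
  · rw [ENNReal.ofReal_mul two_pos.le, ENNReal.ofReal_ofNat]
    exact (hV (y, q)).trans (mul_le_mul' le_rfl (ENNReal.ofReal_le_ofReal (pr_mono_set h0 h1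
      ((subset_biUnion_of_mem V (mem_product.2 ⟨hy, hq⟩)).trans subset_union_right)
      (incr_connTo _ _ _))))

variable [H.LocallyFinite]

/-- The tail bound. -/
theorem exists_tailBd (hH : H.Connected) (hpc : 0 < pc H) (hpc1 : pc H < 1) {t₀ t₁ θ : ℝ}
    (h0 : 0 < t₀) (h01 : t₀ ≤ t₁) (h11 : t₁ ≤ 1) (hθ : 0 < θ) (_ : θ < 1)
    (hr : (1 - θ / 2) * t₁ ≤ t₀) (hB : G.Bdd t₁) {p : ℝ} (hp : 0 < p) (hp' : p < pc H)
    (hL : G.Launch p t₀) : ∃ C, G.TailBd θ C := by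
  classical
  have hp1 : p ≤ 1 := hp'.le.trans hpc1.le
  have ht1 : 0 < t₁ := h0.trans_le h01
  obtain ⟨CB, hCB, hBd⟩ := hB
  obtain ⟨c₀, D, hc₀, hD, hLaunch⟩ := hL
  obtain ⟨ℓ, hℓ⟩ := G.exists_move hH (G.reps ×ˢ {G.r₀})
  obtain ⟨M, r, hM, hr0, hr1, hbig, -⟩ := exists_big_cluster_le hH G.quasiTransitive hp.le hp'
  set f₁ := p ^ ℓ * c₀ / 2 with hf₁
  have hf₁0 : 0 < f₁ := by positivity
  obtain ⟨A₁, hA₁, hlen⟩ := exists_length hM hr0 hr1 hf₁0
  have hD0 := G.D₀_nonneg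
  set C₁ := 8 * (A₁ + 2) * ((A₁ + 3) / pc H) * (2 * (G.D₀ + D + 3) + 1) * (CB.toReal + 1) / f₁
  refine ⟨(C₁ * (6 / (θ * t₁) + 1) ^ 3) ^ (1 / t₁), fun x a b c K hK => prob_le fun U hU =>
    ENNReal.ofReal_le_ofReal ?_⟩
  have hK1 : (1 : ℝ) ≤ K := by exact_mod_cast hK
  have hK0 : (0 : ℝ) < K := lt_of_lt_of_le one_pos hK1
  set lK := Real.log K + 1 with hlK
  have hlK1 : 1 ≤ lK := le_add_of_nonneg_left (Real.log_nonneg hK1)
  obtain ⟨T, hTd, hTf⟩ := hLaunch K hK1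
  set Bf : Finset W := {v ∈ reachable U x | v ∈ G.band a b c}
  set All : Finset W := Bf.biUnion fun y => T.image fun h => (G.gOf y * h) • G.r₀
  set Q := All.image (G.slot a b c)
  set Tq : W × ℤ → Set W := fun q => {v | v ∈ All ∧ G.slot a b c v = q}
  obtain ⟨U', hUU, hU'E, hV⟩ := G.exists_carrier hp.le hp1 U hU Bf Q Tq
  set f₀ := f₁ * (K : ℝ) ^ (t₀ - 1) with hf₀
  have hflow : ∀ y ∈ Bf, f₀ ≤ ∑ q ∈ Q, min (pr p U' (connTo Set.univ y (Tq q))) (1 / K) := by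
    intro y hy
    have h := G.flow_le hp hp1 (fun r hr g S => hℓ r G.r₀ (mem_product.2 ⟨hr, mem_singleton_self _⟩)
      p hp.le hp1 g S) a b c y T (All := All)
      (fun h hh => mem_biUnion.2 ⟨y, hy, mem_image_of_mem _ hh⟩) hTf
    have h2 : ∀ q ∈ Q, min (G.conn p y (Tq q)) (ENNReal.ofReal (1 / K)) ≤
        ENNReal.ofReal (2 * min (pr p U' (connTo Set.univ y (Tq q))) (1 / K)) := by
      intro q hq
      rw [mul_min_of_nonneg _ _ (two_pos (α := ℝ)).le, ENNReal.ofReal_min]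
      exact min_le_min (hV y hy q hq) (ENNReal.ofReal_le_ofReal
        (le_mul_of_one_le_left (by positivity) one_le_two))
    have h3 := h.trans (sum_le_sum h2)
    rw [← ENNReal.ofReal_sum_of_nonneg fun q _ => mul_nonneg two_pos.le
      (le_min (pr_nonneg hp.le hp1 _ _) (by positivity)), ← ENNReal.ofReal_pow hp.le,
      ← ENNReal.ofReal_mul (by positivity)] at h3
    have h4 := (ENNReal.ofReal_le_ofReal_iff (sum_nonneg fun q _ => mul_nonneg two_pos.le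
      (le_min (pr_nonneg hp.le hp1 _ _) (by positivity)))).1 h3
    rw [← mul_sum] at h4
    rw [hf₀, hf₁]
    linarith
  let A : Set W → Prop := fun C => ∃ Y ⊆ Bf, K ≤ Y.card ∧ ↑Y ⊆ C
  have hAmono : ∀ C C', C ⊆ C' → A C → A C' := fun C C' h ⟨Y, h1, h2, h3⟩ =>
    ⟨Y, h1, h2, h3.trans h⟩
  set PA := pr (pc H) U' (fun S => A (cl {x} S))
  have hin : ∀ S : Finset (Sym2 W), inPart Set.univ S = S := fun S => by ext e; simp [mem_inPart]
  have hmany : pr (pc H) U (manyIn Set.univ x (G.band a b c) K) ≤ PA := by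
    refine le_trans (pr_mono hpc.le hpc1.le fun S hS h => ?_)
      (pr_mono_set hpc.le hpc1.le hUU fun S S' hSS h => hAmono _ _ (cl_mono subset_rfl hSS) h)
    obtain ⟨Y, hY, hYc⟩ := h
    refine ⟨Y, fun v hv => mem_filter.2 ⟨mem_reachable hS ?_, (hYc v hv).1⟩, hY, fun v hv => ?_⟩
    · have := (hYc v hv).2; rwa [hin] at this
    · have := (hYc v hv).2; rwa [hin] at this
  refine hmany.trans ?_
  set L := ⌈A₁ * lK⌉₊ with hLdef
  have hLlow : A₁ * lK ≤ L := Nat.le_ceil _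
  have hLhigh : (L : ℝ) ≤ A₁ * lK + 1 := (Nat.ceil_lt_add_one (by positivity)).le
  set α : W × ℤ → ℝ := fun q =>
    pr (pc H) U' (fun ω => A (cl {x} ω) ∧ ∃ z ∈ Tq q, z ∈ cl {x} ω)
  have hev : PA * ((K : ℝ) * f₀ / 2) ≤
      4 * ((L : ℝ) + 1) * ((1 + ((L : ℝ) + 1) * (1 - pc H) / pc H) * ∑ q ∈ Q, α q) :=
    link_flow hp.le hp'.le hpc hpc1.le x hAmono L hK (fun C ⟨Y, hY, hc, hYC⟩ => by
      obtain ⟨Z, hZ, hZc⟩ := exists_subset_card_eq hc
      exact ⟨Z, hZ.trans hY, hZc, (Finset.coe_subset.2 hZ).trans hYC⟩) Q Tq hflow fun y _ =>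
      (sum_big_le hp.le hp1 y Q (G.slot a b c) L).trans ((hbig U' hU'E y L).trans
        (hlen K t₀ hK1 h0.le (h01.trans h11) L hLlow))
  set nR := ⌈G.D₀ + D * lK⌉₊ + 1 with hnR
  have hwin : ∀ q ∈ Q, q.2 ∈ Finset.Icc (-(nR : ℤ)) nR := by
    intro q hq
    obtain ⟨v, hv, rfl⟩ := mem_image.1 hq
    obtain ⟨y, hy, hv⟩ := mem_biUnion.1 hv
    obtain ⟨h, hh, rfl⟩ := mem_image.1 hv
    refine G.slot_window (R := G.D₀ + D * lK) (mem_filter.1 hy).2 ?_
      (by rw [hnR]; push_cast; linarith [Nat.le_ceil (G.D₀ + D * lK)])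
    rw [G.proj_smul_r₀]
    refine (dist_triangle _ (G.pt (G.gOf y)) _).trans (add_le_add (G.dist_proj_pt y) ?_)
    have e : dist (G.pt (G.gOf y * 1)) (G.pt (G.gOf y * h)) = dist G.x₀ (G.pt h) := by
      rw [G.dist_pt_mul, G.pt_one]
    rw [mul_one] at e
    rw [e]
    exact hTd h hh
  have hpow : ∑ q ∈ Q, α q ^ t₁ ≤ ((2 * nR + 1 : ℕ) : ℝ) * CB.toReal := by
    refine G.sum_slot_le hCB hBd ht1 x a b c Q hwin α (fun q _ => pr_nonneg hpc.le hpc1.le _ _)
      fun q _ => (ENNReal.ofReal_le_ofReal (pr_mono hpc.le hpc1.le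
        (R := connTo Set.univ x (G.piece a b (c + q.2) q.1)) fun S _ h => ?_)).trans
        (ofReal_pr_le_prob hU'E _)
    obtain ⟨-, z, ⟨-, rfl⟩, hz⟩ := h
    exact ⟨z, G.slot_mem_piece a b c z, by rw [hin]; exact hz⟩
  have hsumα : ∑ q ∈ Q, α q ≤ PA ^ (1 - t₁) * ∑ q ∈ Q, α q ^ t₁ :=
    sum_le_rpow Q α (fun q _ => pr_nonneg hpc.le hpc1.le _ _)
      (fun q _ => pr_mono hpc.le hpc1.le fun S _ h => h.1) ht1 h11
  have hPA0 : 0 ≤ PA := pr_nonneg hpc.le hpc1.le _ _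
  rcases hPA0.eq_or_lt' with hz | hPApos
  · rw [hz]; positivity
  refine tail_real hPA0 hK1 ht1 hθ hr (by positivity) ?_
  set F := 1 + ((L : ℝ) + 1) * (1 - pc H) / pc H
  have hF0 : 0 ≤ F := by
    have : 0 ≤ (1 - pc H) / pc H := div_nonneg (by linarith) hpc.le
    simp only [F, mul_div_assoc]
    positivity
  have hfac : F ≤ (A₁ + 3) / pc H * lK := by
    simp only [F]
    rw [div_mul_eq_mul_div, one_add_div hpc.ne']
    refine div_le_div_of_nonneg_right ?_ hpc.le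
    nlinarith
  have hN : ((2 * nR + 1 : ℕ) : ℝ) ≤ (2 * (G.D₀ + D + 3) + 1) * lK := by
    have h1 := (Nat.ceil_lt_add_one (show 0 ≤ G.D₀ + D * lK by positivity)).le
    rw [hnR]
    push_cast
    nlinarith
  have hS0 : 0 ≤ ∑ q ∈ Q, α q ^ t₁ := sum_nonneg fun q _ =>
    Real.rpow_nonneg (pr_nonneg hpc.le hpc1.le _ _) _
  have h1 := hev.trans (mul_le_mul_of_nonneg_left (mul_le_mul_of_nonneg_left hsumα hF0)
    (by positivity))
  have e : PA = PA ^ (1 - t₁) * PA ^ t₁ := by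
    rw [← Real.rpow_add hPApos, sub_add_cancel, Real.rpow_one]
  have eK : (K : ℝ) * f₀ = f₁ * (K : ℝ) ^ t₀ := by
    rw [hf₀, mul_left_comm]
    congr 1
    nth_rewrite 1 [← Real.rpow_one (K : ℝ)]
    rw [← Real.rpow_add hK0]
    ring_nf
  have h2 : PA ^ (1 - t₁) * (PA ^ t₁ * (K : ℝ) ^ t₀ * (f₁ / 2)) ≤ PA ^ (1 - t₁) *
      (4 * ((L : ℝ) + 1) * F * ∑ q ∈ Q, α q ^ t₁) := by
    refine le_trans (le_of_eq ?_) (h1.trans (le_of_eq (by ring)))
    conv_rhs => rw [e, eK]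
    ring
  have h3 := le_of_mul_le_mul_left h2 (Real.rpow_pos_of_pos hPApos _)
  have h4 : 4 * ((L : ℝ) + 1) * F * ∑ q ∈ Q, α q ^ t₁ ≤
      4 * ((A₁ + 2) * lK) * ((A₁ + 3) / pc H * lK) *
        ((2 * (G.D₀ + D + 3) + 1) * lK * (CB.toReal + 1)) :=
    mul_le_mul (mul_le_mul (mul_le_mul_of_nonneg_left (by linarith) (by norm_num)) hfac hF0
      (by positivity)) (hpow.trans (mul_le_mul hN (by linarith) ENNReal.toReal_nonneg
        (by positivity))) hS0 (by positivity)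
  rw [show C₁ * lK ^ 3 = 4 * ((A₁ + 2) * lK) * ((A₁ + 3) / pc H * lK) *
    ((2 * (G.D₀ + D + 3) + 1) * lK * (CB.toReal + 1)) / (f₁ / 2) by
      simp only [C₁]; ring, le_div_iff₀ (by positivity)]
  exact h3.trans h4

end Geo

end Vale.Agent.P165.Hyp
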