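import Vale.Agent.P165.Hyp.Kraft
import Vale.Agent.P165.Hyp.Block
import Vale.Agent.P165.Hyp.Launch
import Vale.Agent.P165.Hyp.Tail
import Vale.Agent.P165.Hyp.Moments
import Vale.Agent.P165.Hyp.Crossing
import Vale.Agent.P165.Hyp.Bootstrap
import Vale.Agent.P165.Hyp.Final
import Vale.Agent.P165.Hyp.Link

/-!
The assembly: the data of the argument give the strict inequality between the two thresholds.
-/

open scoped ENNReal
namespace Vale.Agent.P165.Hyp.Geo
open Vale.Agent.P165.Quot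

variable {W X Γ : Type*} [PseudoMetricSpace X] [Group Γ] [MulAction Γ W] [MulAction Γ X]
  {H : SimpleGraph W} (G : Geo (X := X) (Γ := Γ) H) [DecidableEq W] [H.LocallyFinite]

include G in
theorem pc_lt_pu_of_geo (hH : H.Connected) : pc H < pu H := by
  obtain ⟨hpc, hpc1⟩ := G.pc_pos_lt_one hH
  obtain ⟨t₀, t₁, h0, h01, h11, hg0, hg1, hr⟩ := exists_exponents (G := fun t => ¬ G.Bdd t)
    (fun t u hu hut _ h hb => h (G.bdd_mono hH hu hut hb)) (fun h => h (G.bdd_one hH))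
    (G.exists_not_bdd hH) (θ := 1 / 2000) (by norm_num) (by norm_num)
  rw [not_not] at hg1
  obtain ⟨p, hp, hp', ⟨B⟩⟩ := G.exists_block hH hpc hpc1 h0 (h01.trans h11) hg0
  have hL := G.launch_of_block hp (hp'.le.trans hpc1.le) h0 (h01.trans h11) B
  obtain ⟨C, hT⟩ := G.exists_tailBd hH hpc hpc1 h0 h01 h11 (θ := 1 / 1000) (by norm_num)
    (by norm_num) (by linarith) hg1 hp hp' hL
  obtain ⟨C₁, hC₁, hM⟩ := G.exists_ballBd hH hpc1.le (by norm_num) (by norm_num) hT
  obtain ⟨C₂, n₀, hC₂, hn₀, hX⟩ := G.exists_cross hpc1.le (θ := 1 / 1000) (by norm_num) (by norm_num)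
    hC₁ hM
  obtain ⟨A, c, hc, hdec⟩ := G.decay_of_parts (by norm_num) le_rfl hC₁ hM hC₂ hn₀ hX fun q hq hq' => by
    obtain ⟨M, r, hM', hr0, hr1, -, hfar⟩ := exists_big_cluster_le hH G.quasiTransitive
      (show 0 ≤ q by linarith) hq'
    exact G.exists_start (by linarith) (hq'.le.trans hpc1.le) hM' hr0 hr1 hfar
  exact G.pc_lt_pu_of_decay hH hpc hpc1 hc hdec

end Vale.Agent.P165.Hyp.Geo
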