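import Vale.Agent.P165.Hyp.Defs

/-!
Two independent loxodromic elements with bounded geometry or weak proper discontinuity give the
data of the argument.
-/

open Finset Filter

namespace Vale.Agent.P165.Hyp

section Metric

variable {X : Type*} [PseudoMetricSpace X] {δ C ℓ ℓ' : ℝ}

lemma avoid_cone (hyp : Hyperbolic X δ) {o q a z : X} (ha : Avoids δ C o q a)
    (hl : 2 * C + 4 * δ < dist o q) (hz : z ∈ coneAt δ C o q) : gp o a z ≤ C + 2 * δ := by
  by_contra hcon
  push Not at hcon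
  have hz' : dist o q - (C + 2 * δ) ≤ gp o z q := hz
  have h := hyp o a z q
  have : C + 2 * δ < min (gp o a z) (gp o z q) := lt_min hcon (by linarith)
  unfold Avoids at ha
  linarith

/-- Two cones with a common point at band points have nearby apices. -/
lemma dist_apex_le (hyp : Hyperbolic X δ) {o o' q q' a b z : X} {W : ℝ}
    (hl : 2 * C + 4 * δ < dist o q) (hl' : 2 * C + 4 * δ < dist o' q')
    (ha : Avoids δ C o q a) (hb : Avoids δ C o q b) (hz : z ∈ coneAt δ C o q)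
    (ha' : Avoids δ C o' q' a) (hb' : Avoids δ C o' q' b) (hz' : z ∈ coneAt δ C o' q')
    (hw : |gp o a b - gp o' a b| ≤ W) :
    |dist o z - dist o' z| ≤ W + 2 * (C + 2 * δ) ∧
      dist o o' ≤ W + 4 * (C + 2 * δ) + 2 * δ := by
  have key : ∀ o q, 2 * C + 4 * δ < dist o q → Avoids δ C o q a → Avoids δ C o q b →
      z ∈ coneAt δ C o q → gp o a b + dist o z - 2 * (C + 2 * δ) ≤ gp z a b ∧
        gp z a b ≤ gp o a b + dist o z ∧ dist o z - (C + 2 * δ) ≤ gp z o a := by
    intro o q hl ha hb hz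
    have h1 := avoid_cone hyp ha hl hz
    have h2 := avoid_cone hyp hb hl hz
    have h3 := dist_eq_gp o a z
    have h4 := dist_eq_gp o b z
    have h5 := gp_nonneg o a z
    have h6 := gp_nonneg o b z
    have hd : gp z a b = (dist a z + dist b z - dist a b) / 2 := by
      rw [gp, dist_comm z a, dist_comm z b]
    have hd' : gp o a b = (dist o a + dist o b - dist a b) / 2 := rfl
    refine ⟨by linarith, by linarith, ?_⟩
    have := gp_add o a z
    rw [gp_comm z o a]
    linarith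
  obtain ⟨e1, e2, e3⟩ := key o q hl ha hb hz
  obtain ⟨f1, f2, f3⟩ := key o' q' hl' ha' hb' hz'
  rw [abs_le] at hw
  have hΔ : |dist o z - dist o' z| ≤ W + 2 * (C + 2 * δ) :=
    abs_le.2 ⟨by linarith, by linarith⟩
  refine ⟨hΔ, ?_⟩
  rw [gp_comm z o' a] at f3
  have h := hyp z o a o'
  have hmin : min (dist o z) (dist o' z) - (C + 2 * δ) ≤ min (gp z o a) (gp z a o') := by
    rw [← min_sub_sub_right]
    exact min_le_min e3 f3
  have hd := dist_eq_gp z o o'
  rw [dist_comm z o, dist_comm z o'] at hd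
  rw [abs_le] at hΔ
  rcases le_total (dist o z) (dist o' z) with hc | hc
  · rw [min_eq_left hc] at hmin
    linarith
  · rw [min_eq_right hc] at hmin
    linarith

/-- Two cones of one length with a common point at band points have nearby far points. -/
lemma dist_tip_le (hyp : Hyperbolic X δ) {o o' q q' a z : X} {Δ : ℝ} (hC : 0 ≤ C)
    (hδ : 0 ≤ δ) (he : dist o q = ℓ) (he' : dist o' q' = ℓ) (hl : 2 * C + 4 * δ < ℓ)
    (ha : Avoids δ C o q a) (hz : z ∈ coneAt δ C o q)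
    (ha' : Avoids δ C o' q' a) (hz' : z ∈ coneAt δ C o' q')
    (hΔ : |dist o z - dist o' z| ≤ Δ) : dist q q' ≤ Δ + 4 * C + 12 * δ := by
  have key : ∀ o q, dist o q = ℓ → Avoids δ C o q a → z ∈ coneAt δ C o q →
      dist o z - ℓ - δ ≤ gp z q a ∧ dist q z ≤ dist o z - ℓ + 2 * C + 4 * δ := by
    intro o q he ha hz
    have h1 := avoid_cone hyp ha (by linarith) hz
    have hz' : dist o q - (C + 2 * δ) ≤ gp o z q := hz
    have h3 := gp_add o a z
    have h4 := gp_add o q z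
    have h5 := gp_le_right o z q
    have h6 := dist_eq_gp o z q
    rw [gp_comm o q z] at h4
    rw [gp_comm z a o] at h3
    refine ⟨?_, by rw [dist_comm q z]; linarith⟩
    have h := hyp z q o a
    have : dist o z - ℓ ≤ min (gp z q o) (gp z o a) := le_min (by linarith) (by linarith)
    linarith
  obtain ⟨e1, e2⟩ := key o q he ha hz
  obtain ⟨f1, f2⟩ := key o' q' he' ha' hz'
  rw [gp_comm z q' a] at f1
  have h := hyp z q a q'
  have hd := dist_eq_gp z q q'
  rw [dist_comm z q, dist_comm z q'] at hd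
  rw [abs_le] at hΔ
  rcases le_total (dist o z) (dist o' z) with hc | hc
  · have : dist o z - ℓ - δ ≤ min (gp z q a) (gp z a q') := le_min e1 (by linarith)
    linarith
  · have : dist o' z - ℓ - δ ≤ min (gp z q a) (gp z a q') := le_min (by linarith) f1
    linarith

end Metric

section Group

variable {X Γ : Type*} [PseudoMetricSpace X] [Group Γ] [MulAction Γ X] {δ C : ℝ}

/-- The elements moving two points by at most `D`. -/
def coarseStab (D : ℝ) (a b : X) : Set Γ := {k | dist a (k • a) ≤ D ∧ dist b (k • b) ≤ D}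

/-- Weak proper discontinuity at one power gives it at all large powers, in both directions and
from every base point. -/
lemma wpd_large (hiso : ∀ (g : Γ) (a b : X), dist (g • a) (g • b) = dist a b)
    (hyp : Hyperbolic X δ) {o x₀ : X} {u : Γ}
    (hu : ∀ n m : ℕ, gp o (u ^ n • o) ((u ^ m)⁻¹ • o) ≤ C)
    (hW : ∀ D : ℝ, ∃ n : ℕ, 0 < n ∧
      {k : Γ | dist o (k • o) ≤ D ∧ dist (u ^ n • o) (k • u ^ n • o) ≤ D}.Finite) (D : ℝ) :
    ∃ n₀ : ℕ, ∀ N, n₀ ≤ N → (coarseStab (Γ := Γ) D x₀ (u ^ N • x₀)).Finite ∧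
      (coarseStab (Γ := Γ) D x₀ ((u ^ N)⁻¹ • x₀)).Finite := by
  set D₂ := D + 2 * dist o x₀ with hD₂
  obtain ⟨n, -, hn⟩ := hW (7 * D₂ + 2 * C + 2 * δ)
  refine ⟨n, fun N hN => ?_⟩
  have hmove : ∀ (v k : Γ), dist (v • x₀) (k • v • x₀) ≤ D →
      dist (v • o) (k • v • o) ≤ D₂ := fun v k h => by
    have h1 := dist_triangle4 (v • o) (v • x₀) (k • v • x₀) (k • v • o)
    rw [hiso, hiso, hiso, dist_comm x₀ o] at h1
    linarith
  have hpos : (coarseStab (Γ := Γ) D x₀ (u ^ N • x₀)).Finite := by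
    refine hn.subset fun k hk => ?_
    have ha : dist o (k • o) ≤ D₂ := by
      simpa using hmove 1 k (by simpa using hk.1)
    have hb : dist (u ^ N • o) (k • u ^ N • o) ≤ D₂ := hmove (u ^ N) k hk.2
    have hD0 : 0 ≤ D₂ := dist_nonneg.trans ha
    set p := u ^ n • o
    set b := u ^ N • o
    have hp : gp p o b ≤ C := by
      have e := gp_map (hiso (u ^ n)) o ((u ^ n)⁻¹ • o) (u ^ (N - n) • o)
      rw [smul_inv_smul, smul_smul, ← pow_add, Nat.add_sub_cancel' hN] at e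
      rw [e, gp_comm]
      exact hu _ _
    have hp' : gp (k • p) o b ≤ C + 2 * D₂ := by
      have h1 := gp_le_moved (k • p) (k • p) o (k • o) b (k • b)
      rw [gp_map (hiso k), dist_self] at h1
      linarith
    have hC : 0 ≤ C := (gp_nonneg _ _ _).trans hp
    refine ⟨ha.trans ?_, ?_⟩
    · have : 0 ≤ δ := by
        have := hyp o o o o
        simp [gp_base_left] at this
        linarith
      linarith
    have h1 := gp_add o b p
    have h2 := gp_add o b (k • p)
    have hd1 : dist o (k • p) ≤ dist o p + D₂ := by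
      have := dist_triangle o (k • o) (k • p)
      rw [hiso] at this
      linarith
    have hd2 : dist o p - D₂ ≤ dist o (k • p) := by
      have := dist_triangle (k • o) o (k • p)
      rw [hiso, dist_comm (k • o) o] at this
      linarith
    rw [gp_comm p b o] at h1
    rw [gp_comm (k • p) b o] at h2
    have h := hyp o p b (k • p)
    rw [gp_comm o p b] at h
    have : dist o p - C - 3 * D₂ ≤ min (gp o b p) (gp o b (k • p)) :=
      le_min (by linarith) (by linarith)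
    have hd := dist_eq_gp o p (k • p)
    linarith
  refine ⟨hpos, ?_⟩
  refine (hpos.preimage (f := fun k => u ^ N * k * (u ^ N)⁻¹) fun a _ b _ hab => by
    simpa using hab).subset fun k hk => ⟨?_, ?_⟩
  · have h := hk.2
    rw [← hiso (u ^ N), smul_inv_smul] at h
    simpa [mul_smul] using h
  · have h := hk.1
    rw [← hiso (u ^ N)] at h
    simpa [mul_smul] using h

end Group

/-- The hypotheses of the theorem give the data of the argument. -/
theorem exists_geo {W X Γ : Type*} [PseudoMetricSpace X] [Group Γ] [MulAction Γ W] [MulAction Γ X]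
    {H : SimpleGraph W} (hlf : ∀ x, (H.neighborSet x).Finite) (hH : H.Connected)
    (hadj : ∀ (g : Γ) x y, H.Adj (g • x) (g • y) ↔ H.Adj x y)
    (hfin : ∃ F : Set W, F.Finite ∧ ∀ x, ∃ g : Γ, g • x ∈ F)
    (hiso : ∀ (g : Γ) (a b : X), dist (g • a) (g • b) = dist a b)
    {δ : ℝ} (hyp : Hyperbolic X δ) (π : W → X) (hπ : ∀ (g : Γ) x, π (g • x) = g • π x)
    (o : X) (g h : Γ) (C : ℝ)
    (hg : ∀ n m : ℕ, gp o (g ^ n • o) ((g ^ m)⁻¹ • o) ≤ C)
    (hh : ∀ n m : ℕ, gp o (h ^ n • o) ((h ^ m)⁻¹ • o) ≤ C)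
    (hgh : ∀ n m : ℤ, gp o (g ^ n • o) (h ^ m • o) ≤ C)
    (hgt : Filter.Tendsto (fun n : ℕ => dist o (g ^ n • o)) Filter.atTop Filter.atTop)
    (hht : Filter.Tendsto (fun n : ℕ => dist o (h ^ n • o)) Filter.atTop Filter.atTop)
    (hbd : (∃ R₀ : ℝ, ∀ r : ℝ, ∃ N : ℕ, ∀ A : Finset W,
        (∀ x ∈ A, ∀ y ∈ A, x ≠ y → R₀ < dist (π x) (π y)) →
        (∀ x ∈ A, dist o (π x) ≤ r) → A.card ≤ N) ∨
      ∀ u ∈ ({g, h} : Set Γ), ∀ D : ℝ, ∃ n : ℕ, 0 < n ∧
        {k : Γ | dist o (k • o) ≤ D ∧ dist (u ^ n • o) (k • u ^ n • o) ≤ D}.Finite) :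
    Nonempty (Geo (X := X) (Γ := Γ) H) := by
  classical
  -- orbits
  obtain ⟨F, hF, hcov⟩ := hfin
  choose gi hgi using hcov
  set reps := hF.toFinset
  let rOf : W → W := fun x => gi x • x
  let gOf : W → Γ := fun x => (gi x)⁻¹
  have hrOf : ∀ x, rOf x ∈ reps := fun x => hF.mem_toFinset.2 (hgi x)
  have hgOf : ∀ x, gOf x • rOf x = x := fun x => inv_smul_smul _ _
  obtain ⟨w₀⟩ := hH.nonempty
  set r₀ := rOf w₀
  set x₀ := π r₀ with hx₀
  -- constants
  set δ' := max δ 0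
  have hδ' : 0 ≤ δ' := le_max_right _ _
  have hyp' : Hyperbolic X δ' := fun a b c d =>
    (sub_le_sub_left (le_max_left δ 0) _).trans (hyp a b c d)
  set e := dist o x₀
  set C' := max (C + 3 * e) 0
  have hC' : 0 ≤ C' := le_max_right _ _
  have hgp : ∀ u v : Γ, gp o (u • o) (v • o) ≤ C → gp x₀ (u • x₀) (v • x₀) ≤ C' := fun u v huv => by
    have h1 := gp_le_moved x₀ o (u • x₀) (u • o) (v • x₀) (v • o)
    rw [hiso, hiso, dist_comm x₀ o] at h1
    exact le_max_of_le_left (by linarith)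
  obtain ⟨D₀, hD₀⟩ := (reps.image fun r => dist x₀ (π r)).bddAbove
  have hD₀' : ∀ r ∈ reps, dist x₀ (π r) ≤ D₀ := fun r hr =>
    hD₀ (Finset.mem_coe.2 (mem_image_of_mem _ hr))
  have hnear : ∀ v, dist (π v) (gOf v • x₀) ≤ D₀ := fun v => by
    conv_lhs => arg 1; rw [← hgOf v, hπ]
    rw [hiso, dist_comm]
    exact hD₀' _ (hrOf v)
  obtain ⟨L, hL⟩ := ((hF.biUnion fun r _ => (hlf r).image fun y => dist (π r) (π y))).bddAbove
  have hjump : ∀ x y, H.Adj x y → dist (π x) (π y) ≤ max L 0 := by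
    intro x y hxy
    refine le_max_of_le_left (hL (Set.mem_biUnion (hgi x) ⟨gi x • y, (hadj _ _ _).2 hxy, ?_⟩))
    simp only [hπ, hiso]
  set W₁ := 1 + 2 * D₀ + 6 * C' + 16 * δ'
  -- the common part of the multiplicity
  have hclose : ∀ (S : Fin 4 → Γ), (∀ i, 2 * C' + 4 * δ' < dist x₀ (S i • x₀)) →
      ∀ (a b : X) (c : ℝ) (z : X) (v v' : W) (i i' : Fin 4),
      c ≤ gp (π v) a b ∧ gp (π v) a b < c + 1 → c ≤ gp (π v') a b ∧ gp (π v') a b < c + 1 →
      Avoids δ' C' (gOf v • x₀) ((gOf v * S i) • x₀) a →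
      Avoids δ' C' (gOf v • x₀) ((gOf v * S i) • x₀) b →
      z ∈ coneAt δ' C' (gOf v • x₀) ((gOf v * S i) • x₀) →
      Avoids δ' C' (gOf v' • x₀) ((gOf v' * S i') • x₀) a →
      Avoids δ' C' (gOf v' • x₀) ((gOf v' * S i') • x₀) b →
      z ∈ coneAt δ' C' (gOf v' • x₀) ((gOf v' * S i') • x₀) →
      dist (gOf v • x₀) (gOf v' • x₀) ≤ W₁ ∧
        (i = i' → dist ((gOf v * S i) • x₀) ((gOf v' * S i) • x₀) ≤ W₁) := by
    intro S hS a b c z v v' i i' hv hv' ha hb hz ha' hb' hz'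
    have hlen : ∀ (u : Γ) j, dist (u • x₀) ((u * S j) • x₀) = dist x₀ (S j • x₀) := fun u j => by
      rw [mul_smul, hiso]
    have hw : |gp (gOf v • x₀) a b - gp (gOf v' • x₀) a b| ≤ 1 + 2 * D₀ := by
      have h1 := abs_le.1 ((abs_gp_base_le (π v) (gOf v • x₀) a b).trans (hnear v))
      have h2 := abs_le.1 ((abs_gp_base_le (π v') (gOf v' • x₀) a b).trans (hnear v'))
      rw [abs_le]
      constructor <;> linarith [hv.1, hv.2, hv'.1, hv'.2]
    obtain ⟨h1, h2⟩ := dist_apex_le hyp' (by rw [hlen]; exact hS i) (by rw [hlen]; exact hS i')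
      ha hb hz ha' hb' hz' hw
    refine ⟨h2.trans (by simp only [W₁]; linarith), fun hii => ?_⟩
    subst hii
    refine (dist_tip_le hyp' hC' hδ' (hlen _ i) (hlen _ i) (hS i) ha hz ha' hz' h1).trans ?_
    simp only [W₁]
    linarith
  -- assembling, given cells and a large power
  have build : ∀ (Rc : ℝ) (Rel : W → W → Prop) (cell : W → W), (∀ x, Rel x x) →
      (∀ (k : Γ) x y, Rel x y → Rel (k • x) (k • y)) →
      (∀ x y, Rel x y → dist (π x) (π y) ≤ Rc) → (∀ x y, cell x = cell y → Rel x y) →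
      (∀ᶠ n in atTop, ∃ N : ℕ,
        let S : Fin 4 → Γ := ![g ^ n, h ^ n, (g ^ n)⁻¹, (h ^ n)⁻¹]
        (∀ i, 2 * C' + 4 * δ' < dist x₀ (S i • x₀)) →
        ∀ (a b : X) (c : ℝ) (z : X) (A : Finset W),
        (∀ v ∈ A, c ≤ gp (π v) a b ∧ gp (π v) a b < c + 1 ∧ ∃ i,
          Avoids δ' C' (gOf v • x₀) ((gOf v * S i) • x₀) a ∧
          Avoids δ' C' (gOf v • x₀) ((gOf v * S i) • x₀) b ∧
          z ∈ coneAt δ' C' (gOf v • x₀) ((gOf v * S i) • x₀)) →
        ∀ B : Finset W, (∀ q ∈ B, ∃ v ∈ A, cell v = q) → B.card ≤ N) →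
      Nonempty (Geo (X := X) (Γ := Γ) H) := by
    intro Rc Rel cell hrefl hsmul hdist hcell hev
    have hbig : ∀ u : Γ, Tendsto (fun n : ℕ => dist o (u ^ n • o)) atTop atTop → ∀ᶠ n : ℕ in atTop,
        20 * (C' + δ' + Rc + D₀ + 1) ≤ dist x₀ (u ^ n • x₀) := fun u hu => by
      filter_upwards [hu.eventually_ge_atTop (20 * (C' + δ' + Rc + D₀ + 1) + 2 * e)] with n hn
      have h1 := dist_triangle4 o x₀ (u ^ n • x₀) (u ^ n • o)
      rw [hiso, dist_comm x₀ o] at h1
      linarith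
    obtain ⟨n, ⟨N, hN⟩, hng, hnh⟩ := (hev.and ((hbig g hgt).and (hbig h hht))).exists
    set S : Fin 4 → Γ := ![g ^ n, h ^ n, (g ^ n)⁻¹, (h ^ n)⁻¹] with hS
    have hinv : ∀ u : Γ, dist x₀ (u⁻¹ • x₀) = dist x₀ (u • x₀) := fun u => by
      rw [← hiso u, smul_inv_smul, dist_comm]
    have hlong : ∀ i, 20 * (C' + δ' + Rc + D₀ + 1) ≤ dist x₀ (S i • x₀) := by
      intro i
      fin_cases i <;> simp [hS, hinv, hng, hnh]
    have hRc : 0 ≤ Rc := dist_nonneg.trans (hdist r₀ r₀ (hrefl r₀))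
    have hD00 : 0 ≤ D₀ := dist_nonneg.trans (hD₀' r₀ (hrOf w₀))
    refine ⟨{
      adj_smul := hadj, iso := hiso, proj := π, proj_smul := hπ
      reps := reps, gOf := gOf, rOf := rOf, rOf_mem := hrOf, gOf_smul := hgOf
      r₀ := r₀, D₀ := D₀, reps_near := hD₀'
      L := max L 0, L_nonneg := le_max_right _ _, jump := hjump
      δ := δ', δ_nonneg := hδ', hyp := hyp', C := C', C_nonneg := hC'
      S := S, opp := ![2, 3, 0, 1]
      opp_ne := by decide
      opp_opp := by decide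
      S_opp := ?_
      indep := ?_
      Rel := Rel, Rc := Rc, rel_refl := hrefl, rel_smul := hsmul, rel_dist := hdist
      cell := cell, cell_rel := hcell, long := hlong
      N := N, mult := hN fun i => by linarith [hlong i] }⟩
    · intro i
      fin_cases i <;> simp [hS]
    · have hgn : g ^ n = g ^ (n : ℤ) := (zpow_natCast g n).symm
      have hhn : h ^ n = h ^ (n : ℤ) := (zpow_natCast h n).symm
      have hgn' : (g ^ n)⁻¹ = g ^ (-(n : ℤ)) := by rw [zpow_neg, zpow_natCast]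
      have hhn' : (h ^ n)⁻¹ = h ^ (-(n : ℤ)) := by rw [zpow_neg, zpow_natCast]
      have a1 : gp x₀ (g ^ n • x₀) ((g ^ n)⁻¹ • x₀) ≤ C' := hgp _ _ (hg n n)
      have a2 : gp x₀ (h ^ n • x₀) ((h ^ n)⁻¹ • x₀) ≤ C' := hgp _ _ (hh n n)
      have a3 : gp x₀ (g ^ n • x₀) (h ^ n • x₀) ≤ C' := hgp _ _ (by rw [hgn, hhn]; exact hgh _ _)
      have a4 : gp x₀ (g ^ n • x₀) ((h ^ n)⁻¹ • x₀) ≤ C' :=
        hgp _ _ (by rw [hgn, hhn']; exact hgh _ _)
      have a5 : gp x₀ ((g ^ n)⁻¹ • x₀) (h ^ n • x₀) ≤ C' :=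
        hgp _ _ (by rw [hgn', hhn]; exact hgh _ _)
      have a6 : gp x₀ ((g ^ n)⁻¹ • x₀) ((h ^ n)⁻¹ • x₀) ≤ C' :=
        hgp _ _ (by rw [hgn', hhn']; exact hgh _ _)
      intro i j hij
      show gp x₀ (S i • x₀) (S j • x₀) ≤ C'
      fin_cases i <;> fin_cases j <;>
        first
          | exact absurd rfl hij
          | (simp only [hS]; simp; first
              | assumption
              | (rw [gp_comm]; assumption))
  rcases hbd with ⟨R₁, hR₁⟩ | hwpd
  · -- bounded geometry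
    set R := max R₁ 0
    have hR : 0 ≤ R := le_max_right _ _
    obtain ⟨M, hM⟩ := zorn_subset {A : Set W | A.Pairwise fun x y => R < dist (π x) (π y)}
      fun c hc hchain => ⟨⋃₀ c, (Set.pairwise_sUnion hchain.directedOn).2 fun a ha => hc ha,
        fun a ha => Set.subset_sUnion_of_mem ha⟩
    have hsep : M.Pairwise fun x y => R < dist (π x) (π y) := hM.prop
    have hnearM : ∀ x, ∃ m ∈ M, dist (π x) (π m) ≤ R := by
      intro x
      by_contra hno
      push Not at hno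
      have hins : insert x M ∈ {A : Set W | A.Pairwise fun x y => R < dist (π x) (π y)} :=
        Set.pairwise_insert.2 ⟨hsep, fun m hm _ => ⟨hno m hm, by rw [dist_comm]; exact hno m hm⟩⟩
      have hx : x ∈ M := hM.le_of_ge hins (Set.subset_insert x M) (Set.mem_insert x M)
      exact absurd (hno x hx) (by simp [hR])
    choose cell hcellM hcellR using hnearM
    refine build (2 * R) (fun x y => dist (π x) (π y) ≤ 2 * R) cell (fun x => by simp [hR])
      (fun k x y hxy => by rwa [hπ, hπ, hiso]) (fun x y hxy => hxy) (fun x y hxy => ?_) ?_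
    · have h1 := hcellR x
      have h2 := hcellR y
      rw [← hxy] at h2
      have := dist_triangle_right (π x) (π y) (π (cell x))
      linarith
    obtain ⟨N, hN⟩ := hR₁ (e + W₁ + D₀ + R)
    refine Eventually.of_forall fun n => ⟨N, fun hlong a b c z A hA B hB => ?_⟩
    rcases A.eq_empty_or_nonempty with rfl | ⟨v₀, hv₀⟩
    · have : B = ∅ := eq_empty_of_forall_notMem fun q hq => by
        obtain ⟨v, hv, -⟩ := hB q hq
        simp at hv
      simp [this]
    set k := gOf v₀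
    rw [← card_image_of_injective B (MulAction.injective k⁻¹)]
    refine hN _ ?_ ?_
    · intro x hx y hy hxy
      obtain ⟨q, hq, rfl⟩ := mem_image.1 hx
      obtain ⟨q', hq', rfl⟩ := mem_image.1 hy
      obtain ⟨v, -, rfl⟩ := hB q hq
      obtain ⟨v', -, rfl⟩ := hB q' hq'
      rw [hπ, hπ, hiso]
      exact lt_of_le_of_lt (le_max_left _ _) (hsep (hcellM v) (hcellM v') fun e => hxy (by rw [e]))
    · intro x hx
      obtain ⟨q, hq, rfl⟩ := mem_image.1 hx
      obtain ⟨v, hv, rfl⟩ := hB q hq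
      obtain ⟨hb1, hb2, i, h1, h2, h3⟩ := hA v hv
      obtain ⟨hc1, hc2, i', h1', h2', h3'⟩ := hA v₀ hv₀
      have hd := (hclose _ hlong a b c z v₀ v i' i ⟨hc1, hc2⟩ ⟨hb1, hb2⟩ h1' h2' h3' h1 h2 h3).1
      rw [hπ, ← hiso k, smul_inv_smul]
      have t1 := dist_triangle4 (k • o) (k • x₀) (gOf v • x₀) (π v)
      have t2 := dist_triangle (k • o) (π v) (π (cell v))
      rw [hiso, dist_comm (gOf v • x₀) (π v)] at t1
      linarith [hnear v, hcellR v]
  · -- weak proper discontinuity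
    refine build 0 Eq id (fun x => rfl) (fun k x y hxy => by rw [hxy])
      (fun x y hxy => by rw [hxy, dist_self]) (fun x y hxy => hxy) ?_
    obtain ⟨ng, hng⟩ := wpd_large hiso hyp' (x₀ := x₀) hg (hwpd g (by simp)) W₁
    obtain ⟨nh, hnh⟩ := wpd_large hiso hyp' (x₀ := x₀) hh (hwpd h (by simp)) W₁
    filter_upwards [eventually_ge_atTop ng, eventually_ge_atTop nh] with n hn hn'
    set S : Fin 4 → Γ := ![g ^ n, h ^ n, (g ^ n)⁻¹, (h ^ n)⁻¹] with hS
    have hK : ∀ i, (coarseStab (Γ := Γ) W₁ x₀ (S i • x₀)).Finite := by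
      intro i
      fin_cases i <;> simp [hS, (hng n hn).1, (hng n hn).2, (hnh n hn').1, (hnh n hn').2]
    refine ⟨∑ i, ((hK i).toFinset ×ˢ reps).card, fun hlong a b c z A hA B hB => ?_⟩
    have hsub : B ⊆ A := fun q hq => by
      obtain ⟨v, hv, rfl⟩ := hB q hq
      exact hv
    choose hb1 hb2 i h1 h2 h3 using hA
    -- the points of one direction
    let T : Fin 4 → Finset W := fun j => (A.attach.filter fun v => i v.1 v.2 = j).image Subtype.val
    refine ((card_le_card hsub).trans (le_of_eq ?_)).trans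
      ((card_biUnion_le (s := univ) (t := T)).trans (sum_le_sum fun j _ => ?_))
    · congr 1
      ext v
      simp only [T, mem_biUnion, mem_univ, true_and, mem_image, mem_filter, mem_attach]
      exact ⟨fun hv => ⟨i v hv, ⟨v, hv⟩, rfl, rfl⟩, fun ⟨_, w, _, hw⟩ => hw ▸ w.2⟩
    rcases (T j).eq_empty_or_nonempty with he | ⟨v₀, hv₀⟩
    · simp [he]
    obtain ⟨⟨v₀, hv₀A⟩, hj₀, rfl⟩ := mem_image.1 hv₀
    refine card_le_card_of_injOn (fun v => ((gOf v₀)⁻¹ * gOf v, rOf v)) ?_ ?_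
    · intro v hv
      obtain ⟨⟨v, hvA⟩, hj, rfl⟩ := mem_image.1 (Finset.mem_coe.1 hv)
      have hj' : i v hvA = j := (mem_filter.1 hj).2
      have hj₀' : i v₀ hv₀A = j := (mem_filter.1 hj₀).2
      obtain ⟨hd, hd'⟩ := hclose S hlong a b c z v₀ v _ _ ⟨hb1 v₀ hv₀A, hb2 v₀ hv₀A⟩
        ⟨hb1 v hvA, hb2 v hvA⟩ (h1 v₀ hv₀A) (h2 v₀ hv₀A) (h3 v₀ hv₀A) (h1 v hvA) (h2 v hvA)
        (h3 v hvA)
      have hd'' := hd' (hj₀'.trans hj'.symm)
      rw [hj₀'] at hd''
      refine Finset.mem_coe.2 (mem_product.2 ⟨(hK j).mem_toFinset.2 ⟨?_, ?_⟩, hrOf v⟩)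
      · rw [mul_smul, ← hiso (gOf v₀), smul_inv_smul]
        exact hd
      · rw [mul_smul, ← hiso (gOf v₀), smul_inv_smul]
        simpa [mul_smul] using hd''
    · intro v _ v' _ he
      simp only [Prod.mk.injEq, mul_right_inj] at he
      rw [← hgOf v, ← hgOf v', he.1, he.2]

end Vale.Agent.P165.Hyp
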