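import Vale.Agent.P165.Hyp.Gromov
import Vale.Agent.P165.Quot.Prob

/-!
A quasi-transitive graph over a hyperbolic space with four independent directions: bands, cones,
cells and the quantities of the argument.
-/

open Finset
open scoped ENNReal

namespace Vale.Agent.P165.Hyp

open Vale.Agent.P165.Quot

variable {W X Γ : Type*}

/-- The direction from `o` towards `q` avoids `a`. -/
def Avoids [PseudoMetricSpace X] (δ C : ℝ) (o q a : X) : Prop := gp o a q ≤ C + δ

/-- The cone at `o` in the direction of `q`. -/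
def coneAt [PseudoMetricSpace X] (δ C : ℝ) (o q : X) : Set X :=
  {z | dist o q - (C + 2 * δ) ≤ gp o z q}

/-- The data of the argument: an equivariant map to a hyperbolic space, finitely many orbits, four
independent directions with their inverses, a relation of cells and the multiplicity of regions. -/
structure Geo [PseudoMetricSpace X] [Group Γ] [MulAction Γ W] [MulAction Γ X]
    (H : SimpleGraph W) where
  adj_smul : ∀ (g : Γ) x y, H.Adj (g • x) (g • y) ↔ H.Adj x y
  iso : ∀ (g : Γ) (a b : X), dist (g • a) (g • b) = dist a b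
  /-- the map to the space -/
  proj : W → X
  proj_smul : ∀ (g : Γ) x, proj (g • x) = g • proj x
  /-- orbit representatives -/
  reps : Finset W
  /-- the group element of a vertex -/
  gOf : W → Γ
  /-- the representative of a vertex -/
  rOf : W → W
  rOf_mem : ∀ x, rOf x ∈ reps
  gOf_smul : ∀ x, gOf x • rOf x = x
  /-- the base vertex -/
  r₀ : W
  /-- the spread of the representatives -/
  D₀ : ℝ
  reps_near : ∀ r ∈ reps, dist (proj r₀) (proj r) ≤ D₀
  /-- the bound on the jump of an edge -/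
  L : ℝ
  L_nonneg : 0 ≤ L
  jump : ∀ x y, H.Adj x y → dist (proj x) (proj y) ≤ L
  /-- the constant of the four-point condition -/
  δ : ℝ
  δ_nonneg : 0 ≤ δ
  hyp : Hyperbolic X δ
  /-- the bound on products of different directions -/
  C : ℝ
  C_nonneg : 0 ≤ C
  /-- the four directions -/
  S : Fin 4 → Γ
  /-- the inverse direction -/
  opp : Fin 4 → Fin 4
  opp_ne : ∀ i, opp i ≠ i
  opp_opp : ∀ i, opp (opp i) = i
  S_opp : ∀ i, S (opp i) = (S i)⁻¹
  indep : ∀ i j, i ≠ j → gp (proj r₀) (S i • proj r₀) (S j • proj r₀) ≤ C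
  /-- the relation inside cells -/
  Rel : W → W → Prop
  /-- the diameter of cells in the space -/
  Rc : ℝ
  rel_refl : ∀ x, Rel x x
  rel_smul : ∀ (g : Γ) x y, Rel x y → Rel (g • x) (g • y)
  rel_dist : ∀ x y, Rel x y → dist (proj x) (proj y) ≤ Rc
  /-- the fixed partition into cells -/
  cell : W → W
  cell_rel : ∀ x y, cell x = cell y → Rel x y
  long : ∀ i, 20 * (C + δ + Rc + D₀ + 1) ≤ dist (proj r₀) (S i • proj r₀)
  /-- the multiplicity of regions -/
  N : ℕ
  mult : ∀ (a b : X) (c : ℝ) (z : X) (A : Finset W),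
    (∀ v ∈ A, c ≤ gp (proj v) a b ∧ gp (proj v) a b < c + 1 ∧ ∃ i,
      Avoids δ C (gOf v • proj r₀) ((gOf v * S i) • proj r₀) a ∧
      Avoids δ C (gOf v • proj r₀) ((gOf v * S i) • proj r₀) b ∧
      z ∈ coneAt δ C (gOf v • proj r₀) ((gOf v * S i) • proj r₀)) →
    ∀ B : Finset W, (∀ q ∈ B, ∃ v ∈ A, cell v = q) → B.card ≤ N

namespace Geo

variable [PseudoMetricSpace X] [Group Γ] [MulAction Γ W] [MulAction Γ X] {H : SimpleGraph W}
  (G : Geo (X := X) (Γ := Γ) H)

/-- The base point. -/
def x₀ : X := G.proj G.r₀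

/-- The point of a group element. -/
def pt (g : Γ) : X := g • G.x₀

/-- The direction `i` at `g` avoids `a`. -/
def Good (g : Γ) (i : Fin 4) (a : X) : Prop := Avoids G.δ G.C (G.pt g) (G.pt (g * G.S i)) a

/-- The cone of direction `i` at `g`. -/
def cone (g : Γ) (i : Fin 4) : Set X := coneAt G.δ G.C (G.pt g) (G.pt (g * G.S i))

/-- The vertices with product of `a` and `b` in a unit window. -/
def band (a b : X) (c : ℝ) : Set W :=
  {v | c ≤ gp (G.proj v) a b ∧ gp (G.proj v) a b < c + 1}

/-- The part of one cell in a band. -/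
def piece (a b : X) (c : ℝ) (q : W) : Set W := {v | v ∈ G.band a b c ∧ G.cell v = q}

/-- A map into cells of the allowed kind. -/
def Adm (cl' : W → W) : Prop := ∀ x y, cl' x = cl' y → G.Rel x y

variable [DecidableEq W]

/-- The connection probability of a point to a set. -/
noncomputable def conn (_G : Geo (X := X) (Γ := Γ) H) (p : ℝ) (x : W) (T : Set W) : ℝ≥0∞ :=
  prob H p (connTo Set.univ x T)

/-- The sum over the cells of a band of powers of the connection probabilities. -/
noncomputable def bandSum (p t : ℝ) (x : W) (a b : X) (c : ℝ) : ℝ≥0∞ :=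
  ∑' q : W, G.conn p x (G.piece a b c q) ^ t

/-- The sums of `t`-th powers over bands are bounded at the threshold. -/
def Bdd (t : ℝ) : Prop :=
  ∃ C : ℝ≥0∞, C ≠ ⊤ ∧ ∀ (x : W) (a b : X) (c : ℝ), G.bandSum (pc H) t x a b c ≤ C

/-- One block: finite families of group elements below the direction `σ`, with regions of bounded
multiplicity and hitting probabilities with a large sum of powers. -/
structure Block (p t : ℝ) where
  /-- the direction -/
  σ : Fin 4
  /-- the number of children -/
  m : ℕ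
  /-- the elements of a child -/
  el : Fin m → Finset Γ
  /-- the region of a child -/
  region : Fin m → Set X
  /-- the weights -/
  κ : Fin m → ℝ
  /-- the multiplicity -/
  M : ℕ
  M_pos : 0 < M
  κ_pos : ∀ i, 0 < κ i
  κ_le : ∀ i, κ i ≤ 1 / 2
  hit : ∀ i, ENNReal.ofReal (κ i) ≤ G.conn p G.r₀ ((fun g : Γ => g • G.r₀) '' ↑(el i))
  cone_sub : ∀ i, ∀ g ∈ el i, G.cone g σ ⊆ region i
  ball_sub : ∀ i, ∀ g ∈ el i, ∀ z, dist z (G.pt g) ≤ G.Rc → z ∈ region i
  region_sub : ∀ i, region i ⊆ G.cone 1 σ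
  region_mult : ∀ z, {i : Fin m | z ∈ region i}.ncard ≤ M
  big : (M : ℝ) ≤ ∑ i, κ i ^ t

/-- From the base vertex, in every admissible partition, targets within distance `O(log Y)` carry
the truncated sum `Y ^ (t - 1)`. -/
def Launch (p t : ℝ) : Prop :=
  ∃ c D : ℝ, 0 < c ∧ 0 ≤ D ∧ ∀ Y : ℝ, 1 ≤ Y → ∃ T : Finset Γ,
    (∀ g ∈ T, dist G.x₀ (G.pt g) ≤ D * (Real.log Y + 1)) ∧
    ∀ cl' : W → W, G.Adm cl' → ENNReal.ofReal (c * Y ^ (t - 1)) ≤
      ∑' q : W, min (G.conn p G.r₀ {v | (∃ g ∈ T, g • G.r₀ = v) ∧ cl' v = q})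
        (ENNReal.ofReal (1 / Y))

/-- Many points of a band cost a power of their number. -/
def TailBd (θ C : ℝ) : Prop :=
  ∀ (x : W) (a b : X) (c : ℝ) (K : ℕ), 0 < K →
    prob H (pc H) (manyIn Set.univ x (G.band a b c) K) ≤
      ENNReal.ofReal (C * (K : ℝ) ^ (-(1 - θ)))

/-- The vertices at distance about `k` from `x` with product at least `s` towards `y`. -/
def sect (x : W) (y : X) (s k : ℕ) : Set W :=
  {z | (k : ℝ) ≤ dist (G.proj x) (G.proj z) ∧ dist (G.proj x) (G.proj z) < k + 1 ∧
    (s : ℝ) ≤ gp (G.proj x) (G.proj z) y}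

/-- The sectors have expected size at most `(k + 1) * φ s`. -/
def SectBd (p : ℝ) (φ : ℕ → ℝ) : Prop :=
  ∀ (x : W) (y : X) (s k : ℕ),
    mean H p Set.univ x (G.sect x y s k) ≤ ENNReal.ofReal (((k : ℝ) + 1) * φ s)

/-- The polynomial profile of the bootstrap. -/
noncomputable def polyBd (P : ℝ) (s : ℕ) : ℝ := P / ((s : ℝ) + 1) ^ 4

/-- Bands cut by balls have expected size a small power of the profile constant and the radius. -/
def BallBd (θ C : ℝ) : Prop :=
  ∀ (p P : ℝ), 0 ≤ p → p ≤ pc H → 1 ≤ P → G.SectBd p (polyBd P) →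
    ∀ (x : W) (a b : X) (c : ℝ) (k : ℕ),
      mean H p Set.univ x {v | v ∈ G.band a b c ∧ dist (G.proj x) (G.proj v) < k + 1} ≤
        ENNReal.ofReal (C * P ^ (3 * θ) * ((k : ℝ) + 1) ^ (6 * θ))

/-- The vertices over the middle of the way from `x` to `y`, about `m` away from it. -/
def tube (x : W) (y : X) (lo hi : ℝ) (m : ℕ) : Set W :=
  {u | lo ≤ gp (G.proj x) (G.proj u) y ∧ gp (G.proj x) (G.proj u) y ≤ hi ∧
    u ∈ G.band (G.proj x) y m}

end Geo

end Vale.Agent.P165.Hyp
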