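import Mathlib

/-!
Gromov products in a pseudo-metric space, the four-point condition, and the visual pseudo-metric
seen from a point.
-/

namespace Vale.Agent.P165.Hyp

variable {X : Type*} [PseudoMetricSpace X]

/-- The Gromov product of `a` and `b` seen from `o`. -/
noncomputable def gp (o a b : X) : ℝ := (dist o a + dist o b - dist a b) / 2

/-- The four-point condition with constant `δ`. -/
def Hyperbolic (X : Type*) [PseudoMetricSpace X] (δ : ℝ) : Prop :=
  ∀ o a b c : X, min (gp o a b) (gp o b c) - δ ≤ gp o a c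

lemma gp_comm (o a b : X) : gp o a b = gp o b a := by
  simp only [gp, dist_comm a b]; ring

lemma gp_nonneg (o a b : X) : 0 ≤ gp o a b := by
  have := dist_triangle a o b
  rw [dist_comm a o] at this
  unfold gp; linarith

lemma gp_le_left (o a b : X) : gp o a b ≤ dist o a := by
  have := dist_triangle o a b
  unfold gp; linarith

lemma gp_le_right (o a b : X) : gp o a b ≤ dist o b := gp_comm o a b ▸ gp_le_left o b a

lemma gp_self (o a : X) : gp o a a = dist o a := by
  simp [gp]

lemma gp_base_left (o a : X) : gp o o a = 0 := by simp [gp]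

lemma gp_base_right (o a : X) : gp o a o = 0 := by rw [gp_comm, gp_base_left]

/-- The two products at the ends of a side add up to its length. -/
lemma gp_add (o a z : X) : gp o a z + gp z a o = dist o z := by
  unfold gp
  rw [dist_comm z o, dist_comm z a, dist_comm a o]
  ring

lemma dist_eq_gp (o a b : X) : dist a b = dist o a + dist o b - 2 * gp o a b := by
  unfold gp; ring

/-- Moving the second point changes the product by at most the move. -/
lemma abs_gp_sub_le (o a b b' : X) : |gp o a b - gp o a b'| ≤ dist b b' := by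
  have h1 := dist_triangle o b b'
  have h2 := dist_triangle o b' b
  have h3 := dist_triangle a b b'
  have h4 := dist_triangle a b' b
  rw [dist_comm b' b] at h2 h4
  rw [abs_le]
  constructor <;> · unfold gp; linarith

lemma abs_gp_base_le (o o' a b : X) : |gp o a b - gp o' a b| ≤ dist o o' := by
  have h1 := dist_triangle o o' a
  have h2 := dist_triangle o' o a
  have h3 := dist_triangle o o' b
  have h4 := dist_triangle o' o b
  rw [dist_comm o' o] at h2 h4
  rw [abs_le]
  constructor <;> · unfold gp; linarith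

/-- Moving all three points. -/
lemma gp_le_moved (o o' a a' b b' : X) :
    gp o a b ≤ gp o' a' b' + dist o o' + dist a a' + dist b b' := by
  have h1 := (abs_le.1 (abs_gp_base_le o o' a b)).2
  have h2 := (abs_le.1 (abs_gp_sub_le o' a b b')).2
  have h3 := (abs_le.1 (abs_gp_sub_le o' b' a a')).2
  rw [gp_comm o' b' a, gp_comm o' b' a'] at h3
  linarith

lemma gp_map {f : X → X} (hf : ∀ a b, dist (f a) (f b) = dist a b) (o a b : X) :
    gp (f o) (f a) (f b) = gp o a b := by
  simp [gp, hf]

section Four

variable {δ : ℝ}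

lemma Hyperbolic.ge (h : Hyperbolic X δ) {o a b c : X} {r : ℝ} (h1 : r ≤ gp o a b)
    (h2 : r ≤ gp o b c) : r - δ ≤ gp o a c :=
  (sub_le_sub_right (le_min h1 h2) δ).trans (h o a b c)

/-- If `(a|b)` is large then `(a|c)` and `(b|c)` cannot be told apart below it. -/
lemma Hyperbolic.le_of_lt (h : Hyperbolic X δ) {o a b c : X} {r : ℝ} (hac : gp o a c < r - δ)
    (hab : r ≤ gp o a b) : gp o b c < r := by
  by_contra hcon
  exact absurd (h.ge hab (not_lt.1 hcon)) (not_le.2 hac)

lemma Hyperbolic.four (h : Hyperbolic X δ) {o a b c d : X} {r : ℝ} (hδ : 0 ≤ δ)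
    (h1 : r ≤ gp o a b) (h2 : r ≤ gp o b c) (h3 : r ≤ gp o c d) : r - 2 * δ ≤ gp o a d := by
  have := h.ge (h.ge h1 h2) (show r - δ ≤ gp o c d by linarith)
  linarith

end Four

section Visual

open scoped NNReal

variable {δ : ℝ}

/-- The exponential of minus a multiple of the product, zero on the diagonal. -/
noncomputable def visPre (ε : ℝ) (o a b : X) : ℝ≥0 :=
  open scoped Classical in if a = b then 0 else Real.toNNReal (Real.exp (-ε * gp o a b))

lemma visPre_self (ε : ℝ) (o a : X) : visPre ε o a a = 0 := by simp [visPre]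

lemma visPre_comm (ε : ℝ) (o a b : X) : visPre ε o a b = visPre ε o b a := by
  classical
  simp only [visPre, gp_comm o a b, eq_comm]

lemma visPre_four (h : Hyperbolic X δ) (hδ : 0 ≤ δ) {ε : ℝ} (hε : 0 ≤ ε)
    (hεδ : 2 * δ * ε ≤ Real.log 2) (o a b c d : X) :
    visPre ε o a d ≤ 2 * max (visPre ε o a b) (max (visPre ε o b c) (visPre ε o c d)) := by
  classical
  rw [← NNReal.coe_le_coe]
  push_cast
  by_cases had : a = d
  · simp [visPre, had]
  have hv : ∀ u v : X, u ≠ v → (visPre ε o u v : ℝ) = Real.exp (-ε * gp o u v) := fun u v huv => by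
    simp only [visPre, if_neg huv]
    exact Real.coe_toNNReal _ (Real.exp_nonneg _)
  set M := max (visPre ε o a b : ℝ) (max (visPre ε o b c : ℝ) (visPre ε o c d : ℝ)) with hM
  -- equal consecutive points are skipped
  have hpos : ∀ u v : X, (visPre ε o u v : ℝ) ≤ M → u ≠ v →
      Real.exp (-ε * gp o u v) ≤ M := fun u v h' huv => hv u v huv ▸ h'
  have m1 : (visPre ε o a b : ℝ) ≤ M := le_max_left _ _
  have m2 : (visPre ε o b c : ℝ) ≤ M := le_max_of_le_right (le_max_left _ _)
  have m3 : (visPre ε o c d : ℝ) ≤ M := le_max_of_le_right (le_max_right _ _)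
  have hM0 : 0 ≤ M := le_max_of_le_left (NNReal.coe_nonneg _)
  rw [hv a d had]
  by_contra hlt
  push Not at hlt
  have key : ∀ u v : X, (visPre ε o u v : ℝ) ≤ M → u ≠ v →
      gp o a d + 2 * δ < gp o u v := by
    intro u v h' huv
    by_contra hcon
    push Not at hcon
    have h1 : Real.exp (-ε * (gp o a d + 2 * δ)) ≤ M :=
      (Real.exp_le_exp.2 (by nlinarith)).trans (hpos u v h' huv)
    have h2 : Real.exp (-ε * gp o a d) ≤ 2 * Real.exp (-ε * (gp o a d + 2 * δ)) := by
      calc Real.exp (-ε * gp o a d)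
          = Real.exp (2 * δ * ε) * Real.exp (-ε * (gp o a d + 2 * δ)) := by
            rw [← Real.exp_add]; congr 1; ring
        _ ≤ Real.exp (Real.log 2) * Real.exp (-ε * (gp o a d + 2 * δ)) :=
            mul_le_mul_of_nonneg_right (Real.exp_le_exp.2 hεδ) (Real.exp_nonneg _)
        _ = _ := by rw [Real.exp_log two_pos]
    linarith
  have skip : ∀ u v w : X, gp o a d + 2 * δ < gp o u v ∨ u = v →
      gp o a d + δ < gp o v w ∨ v = w → gp o a d < gp o u w ∨ u = w := by
    rintro u v w (h1 | rfl) (h2 | rfl)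
    · left
      have := h.ge (r := min (gp o u v) (gp o v w)) (min_le_left _ _) (min_le_right _ _)
      have h3 : gp o a d + δ < min (gp o u v) (gp o v w) := lt_min (by linarith) h2
      linarith
    · exact .inl (by linarith)
    · exact .inl (by linarith)
    · exact .inr rfl
  have e1 : gp o a d + 2 * δ < gp o a b ∨ a = b :=
    (em (a = b)).symm.imp_left fun h' => key a b m1 h'
  have e2 : gp o a d + 2 * δ < gp o b c ∨ b = c :=
    (em (b = c)).symm.imp_left fun h' => key b c m2 h'
  have e3 : gp o a d + 2 * δ < gp o c d ∨ c = d :=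
    (em (c = d)).symm.imp_left fun h' => key c d m3 h'
  have e23 : gp o a d + δ < gp o b d ∨ b = d := by
    rcases e2 with h2 | rfl
    · rcases e3 with h3 | rfl
      · left
        have := h.ge (r := min (gp o b c) (gp o c d)) (min_le_left _ _) (min_le_right _ _)
        have h4 : gp o a d + 2 * δ < min (gp o b c) (gp o c d) := lt_min h2 h3
        linarith
      · exact .inl (by linarith)
    · exact e3.imp_left fun h3 => by linarith
  rcases skip a b d e1 e23 with h' | h'
  · exact lt_irrefl _ h'
  · exact had h'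

/-- The visual distance seen from `o`. -/
noncomputable def visDist (ε : ℝ) (o a b : X) : ℝ :=
  @dist X (PseudoMetricSpace.ofPreNNDist (visPre ε o) (visPre_self ε o) (visPre_comm ε o)).toDist a b

lemma visDist_le (ε : ℝ) (o a b : X) : visDist ε o a b ≤ visPre ε o a b :=
  PseudoMetricSpace.dist_ofPreNNDist_le (visPre ε o) (visPre_self ε o) (visPre_comm ε o) a b

lemma visDist_ge (h : Hyperbolic X δ) (hδ : 0 ≤ δ) {ε : ℝ} (hε : 0 ≤ ε)
    (hεδ : 2 * δ * ε ≤ Real.log 2) (o a b : X) : (visPre ε o a b : ℝ) ≤ 2 * visDist ε o a b :=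
  PseudoMetricSpace.le_two_mul_dist_ofPreNNDist (visPre ε o) (visPre_self ε o) (visPre_comm ε o)
    (fun x y z w => visPre_four h hδ hε hεδ o x y z w) a b

lemma visDist_nonneg (ε : ℝ) (o a b : X) : 0 ≤ visDist ε o a b :=
  @dist_nonneg X (PseudoMetricSpace.ofPreNNDist (visPre ε o) (visPre_self ε o) (visPre_comm ε o)) a b

lemma abs_visDist_sub_le (ε : ℝ) (o a b y : X) :
    |visDist ε o a y - visDist ε o b y| ≤ visDist ε o a b :=
  @abs_dist_sub_le X (PseudoMetricSpace.ofPreNNDist (visPre ε o) (visPre_self ε o)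
    (visPre_comm ε o)) a b y

lemma visDist_le_exp (ε : ℝ) (o a b : X) :
    visDist ε o a b ≤ Real.exp (-ε * gp o a b) := by
  refine (visDist_le ε o a b).trans ?_
  classical
  by_cases hab : a = b
  · subst hab
    rw [visPre_self, NNReal.coe_zero]
    exact Real.exp_nonneg _
  · simp only [visPre, if_neg hab]
    exact (Real.coe_toNNReal _ (Real.exp_nonneg _)).le

lemma visDist_ge_exp (h : Hyperbolic X δ) (hδ : 0 ≤ δ) {ε : ℝ} (hε : 0 ≤ ε)
    (hεδ : 2 * δ * ε ≤ Real.log 2) (o : X) {a b : X} (hab : a ≠ b) :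
    Real.exp (-ε * gp o a b) / 2 ≤ visDist ε o a b := by
  have := visDist_ge h hδ hε hεδ o a b
  classical
  have e : (visPre ε o a b : ℝ) = Real.exp (-ε * gp o a b) := by
    simp only [visPre, if_neg hab]
    exact Real.coe_toNNReal _ (Real.exp_nonneg _)
  linarith

end Visual

end Vale.Agent.P165.Hyp
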