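import Vale.Agent.P165.Hyp.Basic
import Vale.Agent.P165.Hyp.Cones
import Vale.Agent.P165.Tree.Wkn
import Vale.Agent.P165.Tree.ClusterTail
import Vale.Agent.P165.Quot.Continue
import Vale.Agent.P165.Quot.Series

/-!
The sums over the cells of a band are bounded up to the threshold, and sums of small powers are
not: the threshold lies strictly between zero and one.
-/

open Finset
open scoped ENNReal

namespace Vale.Agent.P165.Hyp.Geo

open Vale.Agent.P165.Quot

variable {W X Γ : Type*} [PseudoMetricSpace X] [Group Γ] [MulAction Γ W] [MulAction Γ X]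
  {H : SimpleGraph W} (G : Geo (X := X) (Γ := Γ) H)

/-! ### Many cells in one band -/

/-- Points of two different cones at one point are more than a cell apart. -/
lemma cone_far {g : Γ} {i j : Fin 4} {z z' : X} (hij : i ≠ j) (hz : z ∈ G.cone g i)
    (hz' : z' ∈ G.cone g j) : G.Rc < dist z z' := by
  by_contra hle
  push Not at hle
  obtain ⟨hC, hδ, hR, hD, hl⟩ := G.len_bounds i
  obtain ⟨-, -, -, -, hl'⟩ := G.len_bounds j
  simp only [cone, coneAt, Set.mem_ofPred_eq, G.dist_pt_step] at hz hz'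
  have h1 := (abs_le.1 (abs_gp_sub_le (G.pt g) (G.pt (g * G.S i)) z z')).2
  rw [gp_comm _ (G.pt (g * G.S i)) z] at h1
  have h := G.hyp (G.pt g) (G.pt (g * G.S i)) z' (G.pt (g * G.S j))
  have h2 := G.indep_pt g hij
  have : G.C + G.δ < min (gp (G.pt g) (G.pt (g * G.S i)) z')
      (gp (G.pt g) z' (G.pt (g * G.S j))) := lt_min (by linarith) (by linarith)
  linarith

/-- The products of `n` directions without backtracking, the first different from `j`. -/
noncomputable def words : ℕ → Fin 4 → Finset Γ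
  | 0, _ => {1}
  | n + 1, j => open scoped Classical in
      (univ.erase j).biUnion fun i => (words n (G.opp i)).image fun g => G.S i * g

lemma mem_words_succ {n : ℕ} {j : Fin 4} {g : Γ} :
    g ∈ G.words (n + 1) j ↔ ∃ i, i ≠ j ∧ ∃ g' ∈ G.words n (G.opp i), G.S i * g' = g := by
  rw [words]
  simp only [mem_biUnion, mem_erase, mem_univ, and_true, mem_image]

lemma pt_words_mem_cone {i : Fin 4} {n : ℕ} {g : Γ} (hg : g ∈ G.words n (G.opp i)) :
    G.pt (G.S i * g) ∈ G.cone 1 i := by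
  induction n generalizing i g with
  | zero =>
    obtain rfl : g = 1 := by simpa [words] using hg
    simpa using G.pt_mem_cone 1 i
  | succ n ih =>
    obtain ⟨i', hi', g', hg', rfl⟩ := G.mem_words_succ.1 hg
    have h := (G.smul_mem_cone_iff (G.S i) 1 i' _).2 (ih hg')
    rw [← G.pt_mul, mul_one] at h
    have hsub := G.cone_mul_subset (g := 1) hi'
    rw [one_mul] at hsub
    exact hsub h

lemma words_far : ∀ (n : ℕ) (j : Fin 4), ∀ g ∈ G.words n j, ∀ g' ∈ G.words n j, g ≠ g' →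
    G.Rc < dist (G.pt g) (G.pt g') := by
  intro n
  induction n with
  | zero =>
    intro j g hg g' hg' hne
    simp only [words, mem_singleton] at hg hg'
    exact absurd (hg.trans hg'.symm) hne
  | succ n ih =>
    intro j g hg g' hg' hne
    obtain ⟨i, -, a, ha, rfl⟩ := G.mem_words_succ.1 hg
    obtain ⟨i', -, a', ha', rfl⟩ := G.mem_words_succ.1 hg'
    by_cases hii : i = i'
    · subst hii
      rw [G.dist_pt_mul]
      exact ih _ a ha a' ha' fun h => hne (congrArg _ h)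
    · exact G.cone_far hii (G.pt_words_mem_cone ha) (G.pt_words_mem_cone ha')

lemma card_words : ∀ (n : ℕ) (j : Fin 4), (G.words n j).card = 3 ^ n := by
  classical
  intro n
  induction n with
  | zero => simp [words]
  | succ n ih =>
    intro j
    rw [words, card_biUnion fun i _ i' _ hne => Finset.disjoint_left.2 fun g hg hg' => by
      obtain ⟨a, ha, rfl⟩ := mem_image.1 hg
      obtain ⟨a', ha', he⟩ := mem_image.1 hg'
      exact G.cone_disjoint hne (G.pt_words_mem_cone ha) (he ▸ G.pt_words_mem_cone ha')]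
    rw [sum_congr rfl fun i _ => (card_image_of_injective _ (mul_right_injective _)).trans (ih _),
      sum_const, card_erase_of_mem (mem_univ _), smul_eq_mul, pow_succ']
    simp

lemma exists_words_bound (hH : H.Connected) : ∃ ℓ L : ℕ, ∀ (n : ℕ) (j : Fin 4),
    ∀ g ∈ G.words n j, (∃ w : H.Walk G.r₀ (g • G.r₀), w.length ≤ ℓ * n) ∧
      dist G.x₀ (G.pt g) ≤ (L * n : ℕ) := by
  classical
  let wk : ∀ i : Fin 4, H.Walk G.r₀ (G.S i • G.r₀) := fun i => (hH.preconnected _ _).some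
  obtain ⟨L, hL⟩ := exists_nat_ge (∑ i, G.len i)
  refine ⟨univ.sup fun i => (wk i).length, L, fun n => ?_⟩
  induction n with
  | zero =>
    intro j g hg
    obtain rfl : g = 1 := by simpa [words] using hg
    refine ⟨⟨SimpleGraph.Walk.nil.copy rfl (one_smul Γ G.r₀).symm, by simp⟩, ?_⟩
    rw [G.pt_one, dist_self]
    exact Nat.cast_nonneg _
  | succ n ih =>
    intro j g hg
    obtain ⟨i, -, a, ha, rfl⟩ := G.mem_words_succ.1 hg
    obtain ⟨⟨w, hw⟩, hd⟩ := ih _ a ha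
    refine ⟨⟨((wk i).append (w.map (G.act (G.S i)).toHom)).copy rfl (mul_smul _ _ _).symm, ?_⟩, ?_⟩
    · refine le_of_eq_of_le ((SimpleGraph.Walk.length_copy _ _ _).trans
        ((SimpleGraph.Walk.length_append _ _).trans
          (congrArg _ (SimpleGraph.Walk.length_map _ _)))) ?_
      have := Finset.le_sup (f := fun i => (wk i).length) (mem_univ i)
      rw [Nat.mul_succ]
      omega
    · have h1 : G.len i ≤ L := (single_le_sum
        (fun k _ => (dist_nonneg : 0 ≤ G.len k)) (mem_univ i)).trans hL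
      have h2 : dist (G.pt (G.S i)) (G.pt (G.S i * a)) = dist G.x₀ (G.pt a) := by
        conv_lhs => arg 1; rw [← mul_one (G.S i)]
        rw [G.dist_pt_mul, G.pt_one]
      have h3 := dist_triangle G.x₀ (G.pt (G.S i)) (G.pt (G.S i * a))
      rw [h2, show dist G.x₀ (G.pt (G.S i)) = G.len i from rfl] at h3
      push_cast at hd ⊢
      linarith

/-- An exponential number of cells meets one band near the base vertex. -/
lemma exists_cells (hH : H.Connected) : ∃ ℓ L : ℕ, ∀ n : ℕ, ∃ (k : ℕ) (Q : Finset W),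
    3 ^ n ≤ (L * n + 1) * Q.card ∧ ∀ q ∈ Q, ∃ v ∈ G.piece G.x₀ G.x₀ k q,
      ∃ w : H.Walk G.r₀ v, w.length ≤ ℓ * n := by
  classical
  obtain ⟨ℓ, L, hb⟩ := G.exists_words_bound hH
  refine ⟨ℓ, L, fun n => ?_⟩
  have hmaps : ∀ g ∈ G.words n 0, ⌊dist G.x₀ (G.pt g)⌋₊ ∈ range (L * n + 1) := fun g hg =>
    mem_range.2 (Nat.lt_succ_of_le (Nat.floor_le_of_le (hb n 0 g hg).2))
  obtain ⟨k, -, hk⟩ : ∃ k ∈ range (L * n + 1), 3 ^ n ≤ (L * n + 1) *
      ((G.words n 0).filter fun g => ⌊dist G.x₀ (G.pt g)⌋₊ = k).card := by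
    refine exists_le_of_sum_le nonempty_range_add_one ?_
    rw [sum_const, card_range, smul_eq_mul, ← mul_sum, ← card_eq_sum_card_fiberwise hmaps,
      G.card_words]
  set A := (G.words n 0).filter fun g => ⌊dist G.x₀ (G.pt g)⌋₊ = k
  refine ⟨k, A.image fun g => G.cell (g • G.r₀), ?_, fun q hq => ?_⟩
  · rwa [card_image_of_injOn fun g hg g' hg' he => ?_]
    by_contra hne
    have h := G.rel_dist _ _ (G.cell_rel _ _ he)
    rw [G.proj_smul_r₀, G.proj_smul_r₀] at h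
    exact absurd h (not_le.2 (G.words_far n 0 g (mem_filter.1 hg).1 g' (mem_filter.1 hg').1 hne))
  · obtain ⟨g, hg, rfl⟩ := mem_image.1 hq
    obtain ⟨hgw, hgk⟩ := mem_filter.1 hg
    refine ⟨g • G.r₀, ⟨?_, rfl⟩, (hb n 0 g hgw).1⟩
    simp only [band, Set.mem_ofPred_eq, gp_self, G.proj_smul_r₀]
    rw [dist_comm, ← hgk]
    exact ⟨Nat.floor_le dist_nonneg, Nat.lt_floor_add_one _⟩

variable [DecidableEq W]

/-- Sums of powers close to the trivial exponent are unbounded. -/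
lemma exists_bandSum_gt (hH : H.Connected) : ∃ ℓ : ℕ, ∀ p, 0 ≤ p → p ≤ 1 → ∀ t : ℝ, 0 < t →
    1 < 3 * (p ^ ℓ) ^ t → ∀ C : ℝ≥0∞, C ≠ ⊤ →
      ∃ c : ℝ, C < G.bandSum p t G.r₀ G.x₀ G.x₀ c := by
  classical
  obtain ⟨ℓ, L, hcells⟩ := G.exists_cells hH
  refine ⟨ℓ, fun p h0 h1 t ht hbig C hC => ?_⟩
  obtain ⟨n, -, hn⟩ := exists_pow_div_gt hbig L C.toReal
  obtain ⟨k, Q, hQ, hv⟩ := hcells n
  refine ⟨k, lt_of_lt_of_le ?_ (ENNReal.sum_le_tsum Q)⟩
  have hq0 : 0 ≤ (p ^ ℓ) ^ t := Real.rpow_nonneg (pow_nonneg h0 _) _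
  have hterm : ∀ q ∈ Q, ENNReal.ofReal (((p ^ ℓ) ^ t) ^ n) ≤
      G.conn p G.r₀ (G.piece G.x₀ G.x₀ k q) ^ t := by
    intro q hq
    obtain ⟨v, hv, w, hw⟩ := hv q hq
    have h := walk_mul_le h0 h1 w (E := Set.univ) (fun e _ => Set.mem_univ e)
      (G.piece G.x₀ G.x₀ k q)
    rw [prob_connTo_self h0 h1 _ hv, mul_one] at h
    refine le_trans ?_ (ENNReal.rpow_le_rpow
      ((pow_le_pow_of_le_one zero_le (ENNReal.ofReal_le_one.2 h1) hw).trans h) ht.le)
    rw [← ENNReal.ofReal_pow h0, ENNReal.ofReal_rpow_of_nonneg (pow_nonneg h0 _) ht.le, pow_mul,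
      ← Real.rpow_natCast_mul (pow_nonneg h0 _), mul_comm, Real.rpow_mul_natCast (pow_nonneg h0 _)]
  refine lt_of_lt_of_le ?_ (card_nsmul_le_sum Q _ _ hterm)
  rw [← ENNReal.ofReal_nsmul, ENNReal.lt_ofReal_iff_toReal_lt hC, nsmul_eq_mul]
  refine lt_of_lt_of_le hn ?_
  rw [mul_pow, div_le_iff₀ (by positivity)]
  calc (3 : ℝ) ^ n * ((p ^ ℓ) ^ t) ^ n
      ≤ (((L * n + 1) * Q.card : ℕ) : ℝ) * ((p ^ ℓ) ^ t) ^ n :=
        mul_le_mul_of_nonneg_right (by exact_mod_cast hQ) (pow_nonneg hq0 _)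
    _ = _ := by push_cast; ring

/-! ### The bound up to the threshold -/

variable [H.LocallyFinite]

include G in
private lemma pc_pos_le_one' (hH : H.Connected) : 0 < pc H ∧ pc H ≤ 1 := by
  have := G.infinite
  have hpos := Quot.pc_pos hH G.quasiTransitive
  exact ⟨hpos, Tree.pc_le_one le_rfl hpos⟩

include G in
/-- Below the threshold the expected cluster is finite. -/
lemma mean_univ_ne_top (hH : H.Connected) {p : ℝ} (h0 : 0 ≤ p) (h1 : p ≤ 1) (hp : p < pc H)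
    (x : W) : mean H p Set.univ x Set.univ ≠ ⊤ := by
  classical
  obtain ⟨C, hC⟩ := sharp_susceptibility hH G.quasiTransitive ⟨p, h0, h1⟩ hp
  refine ne_top_of_le_ne_top (ENNReal.ofReal_ne_top (r := C)) ?_
  rw [mean, tsum_univ (fun y => prob H p (connTo Set.univ x {y})), ENNReal.tsum_eq_iSup_sum]
  refine iSup_le fun Λ => ?_
  simp only [prob, iSup_subtype']
  refine sum_iSup_le Λ _ fun f => ?_
  let U : Finset (Sym2 W) := Λ.biUnion fun z => (f z).1
  have hU : ↑U ⊆ H.edgeSet := by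
    intro e he
    obtain ⟨z, -, hz⟩ := mem_biUnion.1 (Finset.mem_coe.1 he)
    exact (f z).2 hz
  rw [← ENNReal.ofReal_sum_of_nonneg fun z _ => pr_nonneg h0 h1 _ _]
  refine ENNReal.ofReal_le_ofReal ((sum_le_sum fun z hz => ?_).trans ((hC x Λ).1 U hU))
  refine (pr_mono_set h0 h1 (subset_biUnion_of_mem (fun z => (f z).1) hz)
    (incr_connTo _ _ _)).trans (pr_mono h0 h1 ?_)
  rintro S _ ⟨y, rfl, hy⟩
  exact cl_mono subset_rfl (inPart_subset _ _) hy

omit [H.LocallyFinite] in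
/-- Each direction gets a share of the expected cluster. -/
lemma exists_share (hH : H.Connected) : ∃ ℓ : ℕ, ∀ p, 0 ≤ p → p ≤ 1 →
    ∀ r ∈ G.reps, ∀ r' ∈ G.reps, ∀ σ : Fin 4,
      ENNReal.ofReal p ^ ℓ * mean H p Set.univ r' Set.univ ≤
        4 * mean H p Set.univ r {z | G.proj z ∈ G.cone 1 σ} := by
  classical
  obtain ⟨ℓ, hℓ⟩ := G.exists_move hH (G.reps ×ˢ (G.reps ×ˢ (univ ×ˢ univ : Finset (Fin 4 × Fin 4))).image
    fun e => (G.S e.2.1 * G.S e.2.2) • e.1)
  refine ⟨ℓ, fun p h0 h1 r hr r' hr' σ => ?_⟩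
  set R : Set W := {z | G.proj z ∈ G.cone 1 σ}
  have hcov : (Set.univ : Set W) ⊆ ⋃ j : Fin 4, {z | (G.S σ * G.S j) • z ∈ R} := fun z _ => by
    obtain ⟨j, -, hj⟩ := G.exists_into_cone σ (G.proj z)
    exact Set.mem_iUnion.2 ⟨j, by simpa [R, G.proj_smul] using hj⟩
  have hterm : ∀ j : Fin 4, ENNReal.ofReal p ^ ℓ *
      mean H p Set.univ r' {z | (G.S σ * G.S j) • z ∈ R} ≤ mean H p Set.univ r R := by
    intro j
    rw [← G.mean_smul p (G.S σ * G.S j) r',
      show ((fun v => (G.S σ * G.S j) • v) '' {z | (G.S σ * G.S j) • z ∈ R}) = R from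
        Set.image_preimage_eq R (MulAction.surjective _)]
    rw [mean, ← ENNReal.tsum_mul_left]
    refine ENNReal.tsum_le_tsum fun z => ?_
    have := hℓ r ((G.S σ * G.S j) • r') (mem_product.2 ⟨hr, mem_image.2
      ⟨(r', σ, j), mem_product.2 ⟨hr', mem_product.2 ⟨mem_univ _, mem_univ _⟩⟩, rfl⟩⟩)
      p h0 h1 1 {(z : W)}
    rwa [one_smul, one_smul] at this
  calc ENNReal.ofReal p ^ ℓ * mean H p Set.univ r' Set.univ
      ≤ ENNReal.ofReal p ^ ℓ * ∑ j : Fin 4, mean H p Set.univ r' {z | (G.S σ * G.S j) • z ∈ R} :=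
        mul_le_mul' le_rfl ((mean_mono r' hcov).trans ((mean_union_le r' _).trans_eq
          (tsum_fintype _)))
    _ ≤ ∑ _j : Fin 4, mean H p Set.univ r R := by
        rw [mul_sum]
        exact sum_le_sum fun j _ => hterm j
    _ = 4 * mean H p Set.univ r R := by simp

/-- The bound strictly below the threshold. -/
lemma exists_bandSum_mul_le (hH : H.Connected) : ∃ ℓ : ℕ, ∀ p, 0 ≤ p → p ≤ 1 → p < pc H →
    ∀ (x : W) (a b : X) (c : ℝ),
      G.bandSum p 1 x a b c * ENNReal.ofReal p ^ ℓ ≤ 4 * (G.N : ℝ≥0∞) := by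
  classical
  obtain ⟨ℓ, hℓ⟩ := G.exists_share hH
  refine ⟨ℓ, fun p h0 h1 hp x a b c => ?_⟩
  obtain ⟨rm, hrm, hmax⟩ := exists_max_image G.reps (fun r => mean H p Set.univ r Set.univ)
    ⟨_, G.rOf_mem G.r₀⟩
  set χ := mean H p Set.univ rm Set.univ
  have hχ : ∀ y, mean H p Set.univ y Set.univ ≤ χ := fun y => by
    have h := G.mean_smul p (G.gOf y) (G.rOf y) Set.univ
    rw [G.gOf_smul, Set.image_univ_of_surjective (MulAction.surjective _)] at h
    rw [h]
    exact hmax _ (G.rOf_mem y)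
  have hχ0 : χ ≠ 0 := by
    refine (lt_of_lt_of_le one_pos ?_).ne'
    exact (prob_connTo_self (H := H) h0 h1 Set.univ (Set.mem_univ rm)).ge.trans
      (prob_connTo_le_mean h0 h1 _ _ _)
  have hχtop : χ ≠ ⊤ := G.mean_univ_ne_top hH h0 h1 hp rm
  choose i hia hib using fun v : W => (G.exists_good (G.gOf v) a b a).imp fun _ h =>
    (⟨h.1, h.2.1⟩ : G.Good (G.gOf v) _ a ∧ G.Good (G.gOf v) _ b)
  let region : W → Set W := fun q =>
    {z | ∃ v ∈ G.piece a b c q, G.proj z ∈ G.cone (G.gOf v) (i v)}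
  have hKN : ∀ q, G.conn p x (G.piece a b c q) ^ (1 : ℝ) * (ENNReal.ofReal p ^ ℓ * χ / 4) ≤
      mean H p Set.univ x (region q) := by
    intro q
    refine (Tree.prob_rpow_mul_le_tsum h0 h1 one_pos le_rfl Set.univ x (G.piece a b c q)
      (fun z : region q => ({(z : W)} : Set W)) fun u hu => ?_).trans_eq (by simp [mean])
    have h4 := hℓ p h0 h1 (G.rOf u) (G.rOf_mem u) rm hrm (i u)
    rw [← G.mean_smul p (G.gOf u) (G.rOf u), G.gOf_smul] at h4
    refine ENNReal.div_le_of_le_mul ?_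
    simp only [ENNReal.rpow_one]
    refine h4.trans ?_
    rw [mul_comm]
    refine mul_le_mul' (mean_mono u ?_) le_rfl
    rintro _ ⟨z, hz, rfl⟩
    refine ⟨u, hu, ?_⟩
    rw [G.proj_smul, ← mul_one (G.gOf u), mul_smul, G.smul_mem_cone_iff, one_smul]
    exact hz
  have hmult : ∀ (z : W) (s : Finset W), (s.filter fun q => z ∈ region q).card ≤ G.N := by
    intro z s
    have hw : ∀ q : {q // q ∈ s.filter fun q => z ∈ region q},
        ∃ v ∈ G.piece a b c q.1, G.proj z ∈ G.cone (G.gOf v) (i v) := fun q => (mem_filter.1 q.2).2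
    choose w hwp hwc using hw
    refine G.mult a b c (G.proj z) ((s.filter fun q => z ∈ region q).attach.image w) ?_ _ ?_
    · intro v hv
      obtain ⟨q, -, rfl⟩ := mem_image.1 hv
      exact ⟨(hwp q).1.1, (hwp q).1.2, i (w q), hia _, hib _, hwc q⟩
    · exact fun q hq => ⟨w ⟨q, hq⟩, mem_image_of_mem _ (mem_attach _ _), (hwp ⟨q, hq⟩).2⟩
  have hsum : G.bandSum p 1 x a b c * (ENNReal.ofReal p ^ ℓ * χ / 4) ≤ (G.N : ℝ≥0∞) * χ := by
    rw [bandSum, ← ENNReal.tsum_mul_right]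
    refine (ENNReal.tsum_le_tsum hKN).trans ?_
    rw [ENNReal.tsum_eq_iSup_sum]
    refine iSup_le fun s => ?_
    simp only [mean, _root_.tsum_subtype _ fun y => prob H p (connTo Set.univ x {y})]
    rw [← Summable.tsum_finsetSum fun _ _ => ENNReal.summable]
    refine le_trans ?_ (mul_le_mul' le_rfl (hχ x))
    rw [mean, tsum_univ (fun y => prob H p (connTo Set.univ x {y})), ← ENNReal.tsum_mul_left]
    refine ENNReal.tsum_le_tsum fun z => ?_
    simp only [Set.indicator_apply]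
    rw [← sum_filter, sum_const, nsmul_eq_mul]
    exact mul_le_mul' (by exact_mod_cast hmult z s) le_rfl
  rw [← mul_div_assoc, ← mul_assoc, ENNReal.div_le_iff_le_mul (.inl (by norm_num))
    (.inl (by norm_num))] at hsum
  refine (ENNReal.mul_le_mul_iff_left hχ0 hχtop).1 (hsum.trans_eq ?_)
  ring

/-- Up to the threshold the sums over the cells of the bands are bounded. -/
theorem exists_kraft (hH : H.Connected) : ∃ C : ℝ≥0∞, C ≠ ⊤ ∧ ∀ p, 0 ≤ p → p ≤ pc H →
    ∀ (x : W) (a b : X) (c : ℝ), G.bandSum p 1 x a b c ≤ C := by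
  classical
  obtain ⟨hc0, hc1⟩ := G.pc_pos_le_one' hH
  obtain ⟨ℓ, hℓ⟩ := G.exists_bandSum_mul_le hH
  have hb0 : ENNReal.ofReal (pc H / 2) ^ ℓ ≠ 0 := pow_ne_zero _ (by simp [hc0])
  have hbtop : ENNReal.ofReal (pc H / 2) ^ ℓ ≠ ⊤ := ENNReal.pow_ne_top ENNReal.ofReal_ne_top
  set C := 4 * (G.N : ℝ≥0∞) / ENNReal.ofReal (pc H / 2) ^ ℓ
  have hhigh : ∀ q, pc H / 2 ≤ q → q < pc H → ∀ (x : W) (a b : X) (c : ℝ),
      G.bandSum q 1 x a b c ≤ C := by
    intro q hq hqp x a b c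
    rw [ENNReal.le_div_iff_mul_le (.inl hb0) (.inl hbtop)]
    refine le_trans ?_ (hℓ q (by linarith) (hqp.le.trans hc1) hqp x a b c)
    exact mul_le_mul' le_rfl (pow_le_pow_left' (ENNReal.ofReal_le_ofReal hq) _)
  refine ⟨C, ENNReal.div_ne_top (by finiteness) hb0, fun p h0 hp x a b c => ?_⟩
  refine le_trans ?_ (show G.bandSum (pc H) 1 x a b c ≤ C from ?_)
  · exact ENNReal.tsum_le_tsum fun q => ENNReal.rpow_le_rpow
      (prob_mono_param h0 hp hc1 (incr_connTo _ _ _)) zero_le_one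
  rw [bandSum, ENNReal.tsum_eq_iSup_sum]
  refine iSup_le fun s => sum_prob_rpow_le_of_lt s
    (fun q => connTo Set.univ x (G.piece a b c q)) one_pos (half_lt_self hc0)
    fun q hq hqp => le_trans (ENNReal.sum_le_tsum s) (hhigh q hq hqp x a b c)

include G in
theorem pc_pos_lt_one (hH : H.Connected) : 0 < pc H ∧ pc H < 1 := by
  obtain ⟨hc0, hc1⟩ := G.pc_pos_le_one' hH
  refine ⟨hc0, lt_of_le_of_ne hc1 fun he => ?_⟩
  obtain ⟨C, hC, hb⟩ := G.exists_kraft hH
  obtain ⟨ℓ, hℓ⟩ := G.exists_bandSum_gt hH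
  obtain ⟨c, hc⟩ := hℓ 1 zero_le_one le_rfl 1 one_pos (by norm_num) C hC
  exact absurd (hb 1 zero_le_one he.ge _ _ _ c) (not_le.2 hc)

theorem bdd_one (hH : H.Connected) : G.Bdd 1 := by
  obtain ⟨C, hC, hb⟩ := G.exists_kraft hH
  exact ⟨C, hC, hb (pc H) (G.pc_pos_lt_one hH).1.le le_rfl⟩

theorem bdd_mono (hH : H.Connected) {t u : ℝ} (_ht : 0 < t) (htu : t ≤ u) (h : G.Bdd t) :
    G.Bdd u := by
  obtain ⟨hc0, hc1⟩ := G.pc_pos_lt_one hH
  obtain ⟨C, hC, hb⟩ := h
  exact ⟨C, hC, fun x a b c => le_trans (ENNReal.tsum_le_tsum fun q =>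
    ENNReal.rpow_le_rpow_of_exponent_ge (G.conn_le_one hc0.le hc1.le _ _) htu) (hb x a b c)⟩

theorem exists_not_bdd (hH : H.Connected) : ∃ t, 0 < t ∧ t ≤ 1 ∧ ¬ G.Bdd t := by
  obtain ⟨hc0, hc1⟩ := G.pc_pos_lt_one hH
  obtain ⟨ℓ, hℓ⟩ := G.exists_bandSum_gt hH
  have hq : 0 < pc H ^ ℓ := pow_pos hc0 ℓ
  have hlim : Filter.Tendsto (fun t : ℝ => (pc H ^ ℓ) ^ t) (nhdsWithin 0 (Set.Ioi 0)) (nhds 1) := by
    simpa using ((Real.continuous_const_rpow hq.ne').tendsto (0 : ℝ)).mono_left nhdsWithin_le_nhds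
  obtain ⟨t, ht, ht0, ht1⟩ := ((hlim.eventually (eventually_gt_nhds
    (show (1 / 2 : ℝ) < 1 by norm_num))).and (Ioo_mem_nhdsGT (zero_lt_one' ℝ))).exists
  refine ⟨t, ht0, ht1.le, ?_⟩
  rintro ⟨C, hC, hb⟩
  obtain ⟨c, hc⟩ := hℓ (pc H) hc0.le hc1.le t ht0 (by linarith) C hC
  exact absurd (hb _ _ _ c) (not_le.2 hc)

end Vale.Agent.P165.Hyp.Geo
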