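import Vale.Agent.P165.Hyp.Build
import Vale.Agent.P165.Hyp.Kraft
import Vale.Agent.P165.Hyp.Block
import Vale.Agent.P165.Hyp.Launch
import Vale.Agent.P165.Hyp.Link
import Vale.Agent.P165.Hyp.Tail
import Vale.Agent.P165.Hyp.Moments
import Vale.Agent.P165.Hyp.Crossing
import Vale.Agent.P165.Hyp.Bootstrap
import Vale.Agent.P165.Hyp.Final
import Vale.Agent.P165.Quot.Series
import Vale.Agent.P165.Tree.Cayley

/-!
Isometric actions on hyperbolic spaces with two independent loxodromic elements force a nonuniqueness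
phase, given bounded geometry of the orbit or weak proper discontinuity.
-/

namespace Vale.Agent.P165.Hyp

open Vale.Agent.P165.Quot

/-- The data of the argument give a nonuniqueness phase. -/
theorem Geo.pc_lt_pu {W X Γ : Type*} [PseudoMetricSpace X] [Group Γ] [MulAction Γ W]
    [MulAction Γ X] {H : SimpleGraph W} [DecidableEq W] [H.LocallyFinite]
    (G : Geo (X := X) (Γ := Γ) H) (hH : H.Connected) : pc H < pu H := by
  obtain ⟨hpc, hpc1⟩ := G.pc_pos_lt_one hH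
  obtain ⟨s, hs0, hs1, hs⟩ := G.exists_not_bdd hH
  set θ : ℝ := 1 / 1000
  obtain ⟨t₀, t₁, h00, h01, h11, hG0, hG1, hr⟩ := exists_exponents (G := fun t => ¬ G.Bdd t)
    (fun a b hb hba _ ha hB => ha (G.bdd_mono hH hb hba hB)) (not_not.2 (G.bdd_one hH))
    ⟨s, hs0, hs1, hs⟩ (show (0 : ℝ) < θ / 2 by norm_num [θ]) (by norm_num [θ])
  obtain ⟨p, hp, hp', ⟨B⟩⟩ := G.exists_block hH hpc hpc1 h00 (h01.trans h11) hG0
  have hL := G.launch_of_block hp (hp'.le.trans hpc1.le) h00 (h01.trans h11) B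
  obtain ⟨C, hT⟩ := G.exists_tailBd hH hpc hpc1 h00 h01 h11 (θ := θ) (by norm_num [θ])
    (by norm_num [θ]) hr (not_not.1 hG1) hp hp' hL
  obtain ⟨C', hC', hM⟩ := G.exists_ballBd hH hpc1.le (by norm_num [θ])
    (by norm_num [θ]) hT
  obtain ⟨C'', n₀, hC'', hn₀, hX⟩ := G.exists_cross hpc1.le (by norm_num [θ])
    (by norm_num [θ]) hC' hM
  obtain ⟨A, c, hc, hA⟩ := G.decay_of_parts (by norm_num [θ]) le_rfl hC' hM hC'' hn₀ hX
    fun q hq hq' => by
      have hq0 : 0 ≤ q := by linarith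
      obtain ⟨M, r, hM', hr0, hr1, -, hfar⟩ := exists_big_cluster_le hH G.quasiTransitive hq0 hq'
      exact G.exists_start hq0 (hq'.le.trans hpc1.le) hM' hr0 hr1 hfar
  exact G.pc_lt_pu_of_decay hH hpc hpc1 hc hA

/-- Main theorem. -/
theorem pc_lt_pu_of_hyperbolic {W X Γ : Type*} [PseudoMetricSpace X] [Group Γ] [MulAction Γ W]
    [MulAction Γ X] {H : SimpleGraph W} (hlf : ∀ x, (H.neighborSet x).Finite) (hH : H.Connected)
    (hadj : ∀ (g : Γ) x y, H.Adj (g • x) (g • y) ↔ H.Adj x y)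
    (hfin : ∃ F : Set W, F.Finite ∧ ∀ x, ∃ g : Γ, g • x ∈ F)
    (hiso : ∀ (g : Γ) (a b : X), dist (g • a) (g • b) = dist a b)
    {δ : ℝ} (hyp : Hyperbolic X δ) (π : W → X) (hπ : ∀ (g : Γ) x, π (g • x) = g • π x)
    (o : X) (g h : Γ) (C : ℝ)
    (hg : ∀ n m : ℕ, gp o (g ^ n • o) ((g ^ m)⁻¹ • o) ≤ C)
    (hh : ∀ n m : ℕ, gp o (h ^ n • o) ((h ^ m)⁻¹ • o) ≤ C)
    (hgh : ∀ n m : ℤ, gp o (g ^ n • o) (h ^ m • o) ≤ C)
    (hgt : Filter.Tendsto (fun n : ℕ => dist o (g ^ n • o)) Filter.atTop Filter.atTop)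
    (hht : Filter.Tendsto (fun n : ℕ => dist o (h ^ n • o)) Filter.atTop Filter.atTop)
    (hbd : (∃ R₀ : ℝ, ∀ r : ℝ, ∃ N : ℕ, ∀ A : Finset W,
        (∀ x ∈ A, ∀ y ∈ A, x ≠ y → R₀ < dist (π x) (π y)) →
        (∀ x ∈ A, dist o (π x) ≤ r) → A.card ≤ N) ∨
      ∀ u ∈ ({g, h} : Set Γ), ∀ D : ℝ, ∃ n : ℕ, 0 < n ∧
        {k : Γ | dist o (k • o) ≤ D ∧ dist (u ^ n • o) (k • u ^ n • o) ≤ D}.Finite) :
    pc H < pu H := by
  classical
  obtain ⟨G⟩ := exists_geo hlf hH hadj hfin hiso hyp π hπ o g h C hg hh hgh hgt hht hbd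
  let _ : H.LocallyFinite := fun x => (hlf x).fintype
  exact G.pc_lt_pu hH

/-- In a proper space separated sets in balls are bounded. -/
lemma exists_card_le_of_proper {W X : Type*} [PseudoMetricSpace X] [ProperSpace X] (π : W → X)
    (o : X) : ∀ r : ℝ, ∃ N : ℕ, ∀ A : Finset W,
      (∀ x ∈ A, ∀ y ∈ A, x ≠ y → (1 : ℝ) < dist (π x) (π y)) →
      (∀ x ∈ A, dist o (π x) ≤ r) → A.card ≤ N := by
  classical
  intro r
  obtain ⟨t, -, ht, hcov⟩ := finite_cover_balls_of_compact (isCompact_closedBall o r)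
    (show (0 : ℝ) < 1 / 2 by norm_num)
  refine ⟨ht.toFinset.card, fun A hsep hball => ?_⟩
  have hx : ∀ x ∈ A, ∃ c ∈ t, dist (π x) c < 1 / 2 := fun x hx => by
    simpa [Set.mem_iUnion₂, Metric.mem_ball] using
      hcov (Metric.mem_closedBall'.2 (hball x hx))
  choose c hc hd using hx
  rw [← Finset.card_attach]
  refine Finset.card_le_card_of_injOn (fun x => c x.1 x.2)
    (fun x _ => by simpa using hc x.1 x.2) fun x _ y _ hxy => ?_
  by_contra hne
  have h1 := hd x.1 x.2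
  have h2 := hd y.1 y.2
  have h3 := hsep x.1 x.2 y.1 y.2 fun e => hne (Subtype.ext e)
  have h4 := dist_triangle_right (π x.1) (π y.1) (c x.1 x.2)
  simp only at hxy
  rw [hxy] at h4 h1
  linarith

/-- Cayley graphs of groups acting isometrically on proper hyperbolic spaces. -/
theorem pc_lt_pu_cayley_proper {G X : Type*} [Group G] [PseudoMetricSpace X] [ProperSpace X]
    [MulAction G X] (S : Finset G) (hS : Subgroup.closure (S : Set G) = ⊤)
    (hiso : ∀ (g : G) (a b : X), dist (g • a) (g • b) = dist a b) {δ : ℝ} (hyp : Hyperbolic X δ)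
    (o : X) (g h : G) (C : ℝ)
    (hg : ∀ n m : ℕ, gp o (g ^ n • o) ((g ^ m)⁻¹ • o) ≤ C)
    (hh : ∀ n m : ℕ, gp o (h ^ n • o) ((h ^ m)⁻¹ • o) ≤ C)
    (hgh : ∀ n m : ℤ, gp o (g ^ n • o) (h ^ m • o) ≤ C)
    (hgt : Filter.Tendsto (fun n : ℕ => dist o (g ^ n • o)) Filter.atTop Filter.atTop)
    (hht : Filter.Tendsto (fun n : ℕ => dist o (h ^ n • o)) Filter.atTop Filter.atTop) :
    pc (SimpleGraph.mulCayley (S : Set G)) < pu (SimpleGraph.mulCayley (S : Set G)) := by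
  obtain ⟨hlf, hH, -, -, -⟩ := Tree.cayley_data S hS (⊤ : Subgroup G)
  exact pc_lt_pu_of_hyperbolic (Γ := G) hlf hH
    (fun _ _ _ => SimpleGraph.mulCayley_adj_mul_iff_right)
    ⟨{1}, Set.finite_singleton 1, fun x => ⟨x⁻¹, by simp⟩⟩ hiso hyp (fun x => x • o)
    (fun k x => mul_smul k x o) o g h C hg hh hgh hgt hht
    (.inl ⟨1, exists_card_le_of_proper (fun x : G => x • o) o⟩)

end Vale.Agent.P165.Hyp
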